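import Vale.Agent.P092.H87.Contr
import Vale.Agent.P092.H541.Hel

/-!
P092 (helper87), team N, [N-GAPB] (#6876 (2)): the two tests of the kernel `KY (h Y) Y`.

For `h = U diag(a) V`, `‖a‖` decreasing, `U, V, U⁻¹, V⁻¹` bounded, `Y` a frame in general position
(up to small measure, `null_top`): `KY (h Y) Y` is bounded below in terms of `‖a 0‖ / ‖a (j - 1)‖`
and small if this ratio is large.
-/

set_option linter.all false

open Matrix MeasureTheory Topology Filter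

namespace Vale.Agent.P092.H87.Contr

open Vale.Agent.P092.H541.Hel (Sc D KY KY_lower KY_upper' exists_zpow_D KY_le_one KY_nonneg)

variable {k : Type} [NontriviallyNormedField k] [ProperSpace k] [MeasurableSpace k]
  [BorelSpace k]

section alg

variable {n j : ℕ}

theorem mv_le {a b : ℕ} {B : ℝ} (hB : 0 ≤ B) {M : Matrix (Fin a) (Fin b) k}
    (h : ∀ x y, ‖M x y‖ ≤ B) (v : Fin b → k) : ‖M *ᵥ v‖ ≤ b * B * ‖v‖ := by
  refine (pi_norm_le_iff_of_nonneg (by positivity)).2 fun x => ?_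
  calc ‖(M *ᵥ v) x‖ = ‖∑ y, M x y * v y‖ := rfl
    _ ≤ ∑ y, ‖M x y * v y‖ := norm_sum_le _ _
    _ ≤ ∑ _y : Fin b, B * ‖v‖ := Finset.sum_le_sum fun y _ => by
        rw [norm_mul]
        exact mul_le_mul (h x y) (norm_le_pi_norm v y) (norm_nonneg _) hB
    _ = b * B * ‖v‖ := by
        rw [Finset.sum_const, Finset.card_univ, Fintype.card_fin, nsmul_eq_mul]; ring

theorem top_mv (hj : j ≤ n) (W : Matrix (Fin n) (Fin j) k) (v : Fin j → k) (x : Fin j) :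
    (top hj W *ᵥ v) x = (W *ᵥ v) (Fin.castLE hj x) := rfl

theorem top_mv_le (hj : j ≤ n) (W : Matrix (Fin n) (Fin j) k) (v : Fin j → k) :
    ‖top hj W *ᵥ v‖ ≤ ‖W *ᵥ v‖ :=
  (pi_norm_le_iff_of_nonneg (norm_nonneg _)).2 fun x => by
    rw [top_mv]; exact norm_le_pi_norm _ _

theorem diag_le {a : Fin n → k} {A : ℝ} (hA : 0 ≤ A) (h : ∀ i, ‖a i‖ ≤ A) (x : Fin n → k) :
    ‖diagonal a *ᵥ x‖ ≤ A * ‖x‖ :=
  (pi_norm_le_iff_of_nonneg (by positivity)).2 fun i => by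
    rw [mulVec_diagonal, norm_mul]
    exact mul_le_mul (h i) (norm_le_pi_norm _ _) (norm_nonneg _) hA

/-- if the first coordinates of `x` vanish -/
theorem diag_le' {a : Fin n → k} {A : ℝ} (hA : 0 ≤ A) {x : Fin n → k}
    (h : ∀ i, x i ≠ 0 → ‖a i‖ ≤ A) : ‖diagonal a *ᵥ x‖ ≤ A * ‖x‖ :=
  (pi_norm_le_iff_of_nonneg (by positivity)).2 fun i => by
    rw [mulVec_diagonal, norm_mul]
    by_cases hx : x i = 0
    · rw [hx, norm_zero, mul_zero]; positivity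
    · exact mul_le_mul (h i hx) (norm_le_pi_norm _ _) (norm_nonneg _) hA

theorem diag_ge (hj : j ≤ n) {a : Fin n → k} {q : Fin n}
    (hq : ∀ i : Fin n, (i : ℕ) < j → ‖a q‖ ≤ ‖a i‖) (x : Fin n → k) :
    ‖a q‖ * ‖fun i : Fin j => x (Fin.castLE hj i)‖ ≤ ‖diagonal a *ᵥ x‖ := by
  rw [← norm_smul]
  refine (pi_norm_le_iff_of_nonneg (norm_nonneg _)).2 fun i => ?_
  have h1 := norm_le_pi_norm (diagonal a *ᵥ x) (Fin.castLE hj i)
  rw [mulVec_diagonal, norm_mul] at h1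
  rw [Pi.smul_apply, norm_smul]
  exact (mul_le_mul_of_nonneg_right (hq _ (by simp)) (norm_nonneg _)).trans h1

/-- The good frames: `W = V Y` has bounded entries and top minor at least `c`. -/
structure Good (hj : j ≤ n) (C c : ℝ) (h : Matrix (Fin n) (Fin n) k) (a : Fin n → k)
    (U U' V V' : Matrix (Fin n) (Fin n) k) (Y : Matrix (Fin n) (Fin j) k) (p q : Fin n) :
    Prop where
  one_le : 1 ≤ C
  hU : ∀ x y, ‖U x y‖ ≤ C
  hU' : ∀ x y, ‖U' x y‖ ≤ C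
  hV : ∀ x y, ‖V x y‖ ≤ C
  hV' : ∀ x y, ‖V' x y‖ ≤ C
  uu : U' * U = 1
  vv : V' * V = 1
  eq : h = U * diagonal a * V
  hp : ∀ i, ‖a i‖ ≤ ‖a p‖
  hq : ∀ i : Fin n, (i : ℕ) < j → ‖a q‖ ≤ ‖a i‖
  ap : 0 < ‖a p‖
  aq : 0 < ‖a q‖
  p0 : (p : ℕ) = 0
  q1 : (q : ℕ) + 1 = j
  ql : ∀ i : Fin n, q ≤ i → ‖a i‖ ≤ ‖a q‖
  hY : ∀ x y, ‖Y x y‖ ≤ 1
  cpos : 0 < c
  hc : c ≤ ‖(top hj (V * Y)).det‖

variable {hj : j ≤ n} {C c : ℝ} {h : Matrix (Fin n) (Fin n) k} {a : Fin n → k}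
    {U U' V V' : Matrix (Fin n) (Fin n) k} {Y : Matrix (Fin n) (Fin j) k} {p q : Fin n}

/-- the bound of the inverse of the top minor -/
noncomputable def kc (n j : ℕ) (C c : ℝ) : ℝ := j * (j.factorial * (n * C) ^ j / c)

theorem Good.j1 (H : Good hj C c h a U U' V V' Y p q) : (1 : ℝ) ≤ j := by
  have := H.q1
  exact_mod_cast (by omega : 1 ≤ j)

theorem Good.n1 (H : Good hj C c h a U U' V V' Y p q) : (1 : ℝ) ≤ n := by
  have := H.q1
  exact_mod_cast (by omega : 1 ≤ n)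

theorem Good.nC (H : Good hj C c h a U U' V V' Y p q) : 1 ≤ n * C :=
  one_le_mul_of_one_le_of_one_le H.n1 H.one_le

theorem Good.k0 (H : Good hj C c h a U U' V V' Y p q) : 0 < kc n j C c := by
  have h1 := H.j1
  have h2 := H.nC
  have h3 := H.cpos
  have h4 : (0 : ℝ) < j.factorial := by exact_mod_cast Nat.factorial_pos j
  unfold kc
  positivity

theorem Good.W (H : Good hj C c h a U U' V V' Y p q) (x : Fin n) (y : Fin j) :
    ‖(V * Y) x y‖ ≤ n * C := by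
  have := mul_le' (by linarith [H.one_le]) H.hV H.hY x y
  simpa using this

theorem Good.unit (H : Good hj C c h a U U' V V' Y p q) : IsUnit (top hj (V * Y)).det :=
  isUnit_iff_ne_zero.2 (norm_pos_iff.1 (H.cpos.trans_le H.hc))

/-- `P⁻¹` is bounded. -/
theorem Good.inv_le (H : Good hj C c h a U U' V V' Y p q) (u : Fin j → k) :
    ‖(top hj (V * Y))⁻¹ *ᵥ u‖ ≤ kc n j C c * ‖u‖ := by
  have h1 : ∀ x y, ‖(top hj (V * Y))⁻¹ x y‖ ≤ j.factorial * (n * C) ^ j / c :=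
    norm_inv_le H.nC H.cpos _ (fun x y => H.W _ _) H.hc
  have h2 := H.nC
  have h3 := H.cpos
  refine (mv_le (by positivity) h1 u).trans (le_of_eq ?_)
  unfold kc; ring

theorem Good.low0 (H : Good hj C c h a U U' V V' Y p q) (v : Fin j → k) :
    ‖v‖ ≤ kc n j C c * ‖top hj (V * Y) *ᵥ v‖ := by
  have h1 := H.inv_le (top hj (V * Y) *ᵥ v)
  rwa [mulVec_mulVec, nonsing_inv_mul _ H.unit, one_mulVec] at h1

theorem Good.upV (H : Good hj C c h a U U' V V' Y p q) (v : Fin j → k) :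
    ‖(V * Y) *ᵥ v‖ ≤ n * C * ‖Y *ᵥ v‖ := by
  rw [← mulVec_mulVec]
  exact mv_le (by linarith [H.one_le]) H.hV _

theorem Good.lowY (H : Good hj C c h a U U' V V' Y p q) (v : Fin j → k) :
    ‖v‖ ≤ kc n j C c * (n * C) * ‖Y *ᵥ v‖ := by
  calc ‖v‖ ≤ kc n j C c * ‖top hj (V * Y) *ᵥ v‖ := H.low0 v
    _ ≤ kc n j C c * (n * C * ‖Y *ᵥ v‖) :=
        mul_le_mul_of_nonneg_left ((top_mv_le hj _ v).trans (H.upV v)) H.k0.le
    _ = _ := by ring

theorem Good.upY (H : Good hj C c h a U U' V V' Y p q) (v : Fin j → k) :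
    ‖Y *ᵥ v‖ ≤ j * ‖v‖ := by
  have := mv_le zero_le_one H.hY v
  simpa using this

theorem Good.hYv (H : Good hj C c h a U U' V V' Y p q) (v : Fin j → k) :
    (h * Y) *ᵥ v = U *ᵥ (diagonal a *ᵥ ((V * Y) *ᵥ v)) := by
  rw [H.eq, mulVec_mulVec, mulVec_mulVec]
  congr 1
  simp only [Matrix.mul_assoc]

theorem Good.up (H : Good hj C c h a U U' V V' Y p q) (v : Fin j → k) :
    ‖(h * Y) *ᵥ v‖ ≤ (n * C) ^ 2 * ‖a p‖ * ‖Y *ᵥ v‖ := by
  rw [H.hYv]
  have h0 : 0 ≤ n * C := by linarith [H.nC]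
  calc ‖U *ᵥ (diagonal a *ᵥ ((V * Y) *ᵥ v))‖ ≤ n * C * ‖diagonal a *ᵥ ((V * Y) *ᵥ v)‖ :=
        mv_le (by linarith [H.one_le]) H.hU _
    _ ≤ n * C * (‖a p‖ * ‖(V * Y) *ᵥ v‖) :=
        mul_le_mul_of_nonneg_left (diag_le (norm_nonneg _) H.hp _) h0
    _ ≤ n * C * (‖a p‖ * (n * C * ‖Y *ᵥ v‖)) :=
        mul_le_mul_of_nonneg_left (mul_le_mul_of_nonneg_left (H.upV v) (norm_nonneg _)) h0
    _ = _ := by ring

theorem Good.lowU (H : Good hj C c h a U U' V V' Y p q) (x : Fin n → k) :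
    ‖x‖ ≤ n * C * ‖U *ᵥ x‖ := by
  have := mv_le (by linarith [H.one_le]) H.hU' (U *ᵥ x)
  rwa [mulVec_mulVec, H.uu, one_mulVec] at this

theorem Good.low (H : Good hj C c h a U U' V V' Y p q) (v : Fin j → k) :
    ‖a q‖ * ‖Y *ᵥ v‖ ≤ j * kc n j C c * (n * C) * ‖(h * Y) *ᵥ v‖ := by
  have h1 : ‖a q‖ * ‖top hj (V * Y) *ᵥ v‖ ≤ n * C * ‖(h * Y) *ᵥ v‖ := by
    rw [H.hYv]
    exact (diag_ge hj H.hq ((V * Y) *ᵥ v)).trans (H.lowU _)
  have hk := H.k0
  have hj1 := H.j1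
  calc ‖a q‖ * ‖Y *ᵥ v‖ ≤ ‖a q‖ * (j * ‖v‖) :=
        mul_le_mul_of_nonneg_left (H.upY v) (norm_nonneg _)
    _ ≤ ‖a q‖ * (j * (kc n j C c * ‖top hj (V * Y) *ᵥ v‖)) := by
        refine mul_le_mul_of_nonneg_left (mul_le_mul_of_nonneg_left (H.low0 v) ?_)
          (norm_nonneg _)
        linarith
    _ = j * kc n j C c * (‖a q‖ * ‖top hj (V * Y) *ᵥ v‖) := by ring
    _ ≤ j * kc n j C c * (n * C * ‖(h * Y) *ᵥ v‖) :=
        mul_le_mul_of_nonneg_left h1 (by positivity)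
    _ = _ := by ring

theorem Good.injY (H : Good hj C c h a U U' V V' Y p q) : H541.Hel.Inj Y := by
  intro v hv
  have := H.lowY v
  rw [hv, norm_zero, mul_zero] at this
  exact norm_le_zero_iff.1 this

theorem Good.injA (H : Good hj C c h a U U' V V' Y p q) : H541.Hel.Inj (h * Y) := by
  intro v hv
  have h1 := H.low v
  rw [hv, norm_zero, mul_zero] at h1
  have h2 : ‖Y *ᵥ v‖ ≤ 0 := by
    by_contra hcon
    push Not at hcon
    have := mul_pos H.aq hcon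
    linarith
  exact H.injY v (norm_le_zero_iff.1 h2)

/-- The long vector. -/
theorem Good.long (H : Good hj C c h a U U' V V' Y p q) :
    ∃ w : Fin j → k, w ≠ 0 ∧ ‖a p‖ * ‖w‖ ≤ n * C * kc n j C c * ‖(h * Y) *ᵥ w‖ := by
  have hj0 : 0 < j := by have := H.q1; omega
  set e : Fin j → k := Pi.single ⟨0, hj0⟩ 1 with he
  set P := top hj (V * Y) with hP
  have h1 : P *ᵥ (P⁻¹ *ᵥ e) = e := by
    rw [mulVec_mulVec, mul_nonsing_inv _ H.unit, one_mulVec]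
  have hen : ‖e‖ = 1 := by
    rw [he, Pi.norm_single, norm_one]
  have hk := H.k0
  have hn := H.nC
  refine ⟨P⁻¹ *ᵥ e, ?_, ?_⟩
  · intro h0
    rw [h0, mulVec_zero] at h1
    rw [← h1, norm_zero] at hen
    exact zero_ne_one hen
  · have h2 : ‖P⁻¹ *ᵥ e‖ ≤ kc n j C c := by
      have := H.inv_le e
      rwa [hen, mul_one] at this
    have h3 : ((V * Y) *ᵥ (P⁻¹ *ᵥ e)) p = 1 := by
      have e1 : p = Fin.castLE hj ⟨0, hj0⟩ := Fin.ext (by simp [H.p0])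
      rw [e1, ← top_mv, ← hP, h1, he, Pi.single_eq_same]
    have h4 : ‖a p‖ ≤ ‖diagonal a *ᵥ ((V * Y) *ᵥ (P⁻¹ *ᵥ e))‖ := by
      have := norm_le_pi_norm (diagonal a *ᵥ ((V * Y) *ᵥ (P⁻¹ *ᵥ e))) p
      rwa [mulVec_diagonal, h3, mul_one] at this
    have h5 := H.lowU (diagonal a *ᵥ ((V * Y) *ᵥ (P⁻¹ *ᵥ e)))
    rw [← H.hYv] at h5
    calc ‖a p‖ * ‖P⁻¹ *ᵥ e‖ ≤ (n * C * ‖(h * Y) *ᵥ (P⁻¹ *ᵥ e)‖) * kc n j C c :=
          mul_le_mul (h4.trans h5) h2 (norm_nonneg _) (by positivity)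
      _ = _ := by ring

/-- The short vector. -/
theorem Good.short (H : Good hj C c h a U U' V V' Y p q) :
    ∃ v : Fin j → k, v ≠ 0 ∧ ‖(h * Y) *ᵥ v‖ ≤ (n * C) ^ 2 * j * ‖a q‖ * ‖v‖ := by
  have hj0 : 0 < j := by have := H.q1; omega
  set e : Fin j → k := Pi.single ⟨j - 1, by omega⟩ 1 with he
  set P := top hj (V * Y) with hP
  have h1 : P *ᵥ (P⁻¹ *ᵥ e) = e := by
    rw [mulVec_mulVec, mul_nonsing_inv _ H.unit, one_mulVec]
  have hen : ‖e‖ = 1 := by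
    rw [he, Pi.norm_single, norm_one]
  have hk := H.k0
  have hn := H.nC
  refine ⟨P⁻¹ *ᵥ e, ?_, ?_⟩
  · intro h0
    rw [h0, mulVec_zero] at h1
    rw [← h1, norm_zero] at hen
    exact zero_ne_one hen
  · have h3 : ∀ i, ((V * Y) *ᵥ (P⁻¹ *ᵥ e)) i ≠ 0 → ‖a i‖ ≤ ‖a q‖ := by
      intro i hi
      by_cases hij : (i : ℕ) + 1 < j
      · exfalso
        apply hi
        have e1 : i = Fin.castLE hj ⟨i, by omega⟩ := Fin.ext (by simp)
        rw [e1, ← top_mv, ← hP, h1, he]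
        refine Pi.single_eq_of_ne ?_ _
        intro h0
        have := congrArg Fin.val h0
        simp only at this
        omega
      · refine H.ql i ?_
        rw [Fin.le_def]
        have := H.q1
        omega
    rw [H.hYv]
    calc ‖U *ᵥ (diagonal a *ᵥ ((V * Y) *ᵥ (P⁻¹ *ᵥ e)))‖
        ≤ n * C * ‖diagonal a *ᵥ ((V * Y) *ᵥ (P⁻¹ *ᵥ e))‖ :=
          mv_le (by linarith [H.one_le]) H.hU _
      _ ≤ n * C * (‖a q‖ * ‖(V * Y) *ᵥ (P⁻¹ *ᵥ e)‖) :=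
          mul_le_mul_of_nonneg_left (diag_le' (norm_nonneg _) h3) (by linarith)
      _ ≤ n * C * (‖a q‖ * (n * C * (j * ‖P⁻¹ *ᵥ e‖))) := by
          refine mul_le_mul_of_nonneg_left (mul_le_mul_of_nonneg_left ?_ (norm_nonneg _))
            (by linarith)
          refine (H.upV _).trans (mul_le_mul_of_nonneg_left (H.upY _) (by linarith))
      _ = _ := by ring

end alg

section meas

variable {n j : ℕ} {μ : Measure (Fin j → k)} [μ.IsAddHaarMeasure] {t : k} {α : ℝ}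

theorem Good.KY_ge (hs : Sc μ t α) {hj : j ≤ n} {C c : ℝ} {h : Matrix (Fin n) (Fin n) k}
    {a : Fin n → k} {U U' V V' : Matrix (Fin n) (Fin n) k} {Y : Matrix (Fin n) (Fin j) k}
    {p q : Fin n} (H : Good hj C c h a U U' V V' Y p q) {R : ℝ} (hR : ‖a p‖ ≤ R * ‖a q‖) :
    (1 / (j * kc n j C c * (n * C) * (n * C) ^ 2 * R)) ^ α ≤ KY μ t α (h * Y) Y := by
  haveI : Nonempty (Fin j) := ⟨⟨0, by have := H.q1; omega⟩⟩
  have hj1 := H.j1
  have hk := H.k0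
  have hn := H.nC
  have hp := H.ap
  have hq := H.aq
  have hR0 : 0 < R := by
    by_contra hcon
    push Not at hcon
    have : R * ‖a q‖ ≤ 0 := mul_nonpos_of_nonpos_of_nonneg hcon hq.le
    linarith
  set M : ℝ := j * kc n j C c * (n * C) with hM
  have hM0 : 0 < M := by positivity
  have h1 := KY_lower hs H.injA H.injY (c₁ := ‖a q‖ / M) (c₂ := (n * C) ^ 2 * ‖a p‖)
    (by positivity) (by positivity) (fun v _ => by
      rw [div_mul_eq_mul_div, div_le_iff₀ hM0, mul_comm _ M]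
      exact H.low v) (fun v _ => H.up v)
  refine le_trans (Real.rpow_le_rpow (by positivity) ?_ hs.pos.le) h1
  rw [div_div, div_le_div_iff₀ (by positivity) (by positivity), one_mul]
  calc M * ((n * C) ^ 2 * ‖a p‖) ≤ M * ((n * C) ^ 2 * (R * ‖a q‖)) := by gcongr
    _ = _ := by ring

/-- **(d1)** the kernel is bounded below. -/
theorem lower {hj : j ≤ n} {m : Measure (Fin n → Fin j → k)} (hm : Frm hj m) (hs : Sc μ t α)
    (C R0 : ℝ) {η : ℝ} (hη : 0 < η) :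
    ∃ δ : ℝ, 0 < δ ∧ ∀ (g : Matrix (Fin n) (Fin n) k) (d : Fin n → k)
      (U U' V V' : Matrix (Fin n) (Fin n) k), (∀ x y, ‖U x y‖ ≤ C) → (∀ x y, ‖U' x y‖ ≤ C) →
      (∀ x y, ‖V x y‖ ≤ C) → (∀ x y, ‖V' x y‖ ≤ C) → U * U' = 1 → V * V' = 1 →
      (∀ i, d i ≠ 0) → (∀ i l : Fin n, i ≤ l → ‖d l‖ ≤ ‖d i‖) → g = U * diagonal d * V →
      ∀ p q : Fin n, (p : ℕ) = 0 → (q : ℕ) + 1 = j → ‖d p‖ ≤ R0 * ‖d q‖ →
        m {Y | KY μ t α (g * Matrix.of Y) (Matrix.of Y) < δ} ≤ ENNReal.ofReal η := by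
  by_cases hj0 : 0 < j
  swap
  · exact ⟨1, one_pos, fun g d U U' V V' _ _ _ _ _ _ _ _ _ p q _ hq => by omega⟩
  set C1 : ℝ := max C 1 with hC1
  obtain ⟨c, hc, hnull⟩ := null_top hm C1 hη
  set R : ℝ := max R0 1 with hR
  have hR1 : 1 ≤ R := le_max_right _ _
  have hC11 : 1 ≤ C1 := le_max_right _ _
  have hn0 : (1 : ℝ) ≤ n := by exact_mod_cast (by omega : 1 ≤ n)
  have hj1 : (1 : ℝ) ≤ j := by exact_mod_cast hj0
  have hfac : (0 : ℝ) < j.factorial := by exact_mod_cast Nat.factorial_pos j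
  have hk : 0 < kc n j C1 c := by unfold kc; positivity
  refine ⟨(1 / (j * kc n j C1 c * (n * C1) * (n * C1) ^ 2 * R)) ^ α, by positivity, ?_⟩
  intro g d U U' V V' hU hU' hV hV' huu hvv hd hanti hg p q hp hq hR0
  refine le_trans (measure_mono_ae ?_) (hnull V V' (fun x y => (hV x y).trans (le_max_left _ _))
    (fun x y => (hV' x y).trans (le_max_left _ _)) hvv).le
  filter_upwards [hm.bd] with Y hY hlt
  by_contra hcon
  have hcon' : c ≤ ‖(top hj (V * Matrix.of Y)).det‖ := not_lt.1 hcon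
  have H : Good hj C1 c g d U U' V V' (Matrix.of Y) p q :=
    { one_le := hC11
      hU := fun x y => (hU x y).trans (le_max_left _ _)
      hU' := fun x y => (hU' x y).trans (le_max_left _ _)
      hV := fun x y => (hV x y).trans (le_max_left _ _)
      hV' := fun x y => (hV' x y).trans (le_max_left _ _)
      uu := mul_eq_one_comm.mp huu
      vv := mul_eq_one_comm.mp hvv
      eq := hg
      hp := fun i => hanti p i (by rw [Fin.le_def, hp]; exact Nat.zero_le _)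
      hq := fun i hi => hanti i q (by rw [Fin.le_def]; omega)
      ap := norm_pos_iff.2 (hd p)
      aq := norm_pos_iff.2 (hd q)
      p0 := hp
      q1 := hq
      ql := fun i hi => hanti q i hi
      hY := hY
      cpos := hc
      hc := hcon' }
  have hRR : ‖d p‖ ≤ R * ‖d q‖ :=
    hR0.trans (mul_le_mul_of_nonneg_right (le_max_left _ _) (norm_nonneg _))
  have h1 := H.KY_ge hs hRR
  exact absurd hlt (not_lt.2 h1)

/-- **(d2)** the kernel is small if the ratio is large. -/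
theorem upper_m {hj : j ≤ n} {m : Measure (Fin n → Fin j → k)} (hm : Frm hj m) (hs : Sc μ t α)
    (C : ℝ) {η ε : ℝ} (hη : 0 < η) (hε : 0 < ε) :
    ∃ R : ℝ, 0 < R ∧ ∀ (g : Matrix (Fin n) (Fin n) k) (d : Fin n → k)
      (U U' V V' : Matrix (Fin n) (Fin n) k), (∀ x y, ‖U x y‖ ≤ C) → (∀ x y, ‖U' x y‖ ≤ C) →
      (∀ x y, ‖V x y‖ ≤ C) → (∀ x y, ‖V' x y‖ ≤ C) → U * U' = 1 → V * V' = 1 →
      (∀ i, d i ≠ 0) → (∀ i l : Fin n, i ≤ l → ‖d l‖ ≤ ‖d i‖) → g = U * diagonal d * V →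
      ∀ p q : Fin n, (p : ℕ) = 0 → (q : ℕ) + 1 = j → R * ‖d q‖ ≤ ‖d p‖ →
        m {Y | ε < KY μ t α (g * Matrix.of Y) (Matrix.of Y)} ≤ ENNReal.ofReal η := by
  by_cases hj0 : 0 < j
  swap
  · exact ⟨1, one_pos, fun g d U U' V V' _ _ _ _ _ _ _ _ _ p q _ hq => by omega⟩
  haveI : Nonempty (Fin j) := ⟨⟨0, hj0⟩⟩
  set C1 : ℝ := max C 1 with hC1
  obtain ⟨c, hc, hnull⟩ := null_top hm C1 hη
  have hC11 : 1 ≤ C1 := le_max_right _ _
  have hn0 : (1 : ℝ) ≤ n := by exact_mod_cast (by omega : 1 ≤ n)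
  have hj1 : (1 : ℝ) ≤ j := by exact_mod_cast hj0
  have hfac : (0 : ℝ) < j.factorial := by exact_mod_cast Nat.factorial_pos j
  have hk : 0 < kc n j C1 c := by unfold kc; positivity
  have ht1 := hs.one_lt
  have ht0 : 0 < ‖t‖ := by linarith
  obtain ⟨ρ, hρ, hup⟩ := KY_upper' (ι := Fin n) hs hε
    (b₁ := 1 / (kc n j C1 c * (n * C1))) (b₂ := j * ‖t‖) (by positivity) (by positivity)
  refine ⟨(n * C1) ^ 2 * j * ‖t‖ * (n * C1 * kc n j C1 c) / ρ, by positivity, ?_⟩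
  intro g d U U' V V' hU hU' hV hV' huu hvv hd hanti hg p q hp hq hR0
  refine le_trans (measure_mono_ae ?_) (hnull V V' (fun x y => (hV x y).trans (le_max_left _ _))
    (fun x y => (hV' x y).trans (le_max_left _ _)) hvv).le
  filter_upwards [hm.bd] with Y hY hlt
  by_contra hcon
  have hcon' : c ≤ ‖(top hj (V * Matrix.of Y)).det‖ := not_lt.1 hcon
  have H : Good hj C1 c g d U U' V V' (Matrix.of Y) p q :=
    { one_le := hC11
      hU := fun x y => (hU x y).trans (le_max_left _ _)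
      hU' := fun x y => (hU' x y).trans (le_max_left _ _)
      hV := fun x y => (hV x y).trans (le_max_left _ _)
      hV' := fun x y => (hV' x y).trans (le_max_left _ _)
      uu := mul_eq_one_comm.mp huu
      vv := mul_eq_one_comm.mp hvv
      eq := hg
      hp := fun i => hanti p i (by rw [Fin.le_def, hp]; exact Nat.zero_le _)
      hq := fun i hi => hanti i q (by rw [Fin.le_def]; omega)
      ap := norm_pos_iff.2 (hd p)
      aq := norm_pos_iff.2 (hd q)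
      p0 := hp
      q1 := hq
      ql := fun i hi => hanti q i hi
      hY := hY
      cpos := hc
      hc := hcon' }
  obtain ⟨v, hv0, hv⟩ := H.short
  obtain ⟨w, hw0, hw⟩ := H.long
  obtain ⟨a1, ha1⟩ := exists_zpow_D ht1 hv0
  obtain ⟨a2, ha2⟩ := exists_zpow_D ht1 hw0
  refine absurd hlt (not_lt.2 (hup _ _ H.injA H.injY (fun x hx => ?_) (fun x hx => ?_)
    ⟨_, ha1, _, ha2, ?_⟩))
  · have h1 := H.lowY x
    have h2 : 1 ≤ ‖x‖ := hx.1
    rw [div_le_iff₀ (by positivity)]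
    linarith
  · have h1 := H.upY x
    have h2 : ‖x‖ < ‖t‖ := hx.2
    exact h1.trans (mul_le_mul_of_nonneg_left h2.le (by linarith))
  · -- the comparison
    have e1 : ‖(g * Matrix.of Y) *ᵥ (t ^ a1 • v)‖ ≤ (n * C1) ^ 2 * j * ‖d q‖ * ‖t‖ := by
      rw [mulVec_smul, norm_smul]
      have h3 : ‖t ^ a1‖ * ‖v‖ ≤ ‖t‖ := by rw [← norm_smul]; exact ha1.2.le
      calc ‖t ^ a1‖ * ‖(g * Matrix.of Y) *ᵥ v‖
          ≤ ‖t ^ a1‖ * ((n * C1) ^ 2 * j * ‖d q‖ * ‖v‖) :=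
            mul_le_mul_of_nonneg_left hv (norm_nonneg _)
        _ = (n * C1) ^ 2 * j * ‖d q‖ * (‖t ^ a1‖ * ‖v‖) := by ring
        _ ≤ _ := mul_le_mul_of_nonneg_left h3 (by positivity)
    have e2 : ‖d p‖ ≤ n * C1 * kc n j C1 c * ‖(g * Matrix.of Y) *ᵥ (t ^ a2 • w)‖ := by
      rw [mulVec_smul, norm_smul]
      have h3 : 1 ≤ ‖t ^ a2‖ * ‖w‖ := by rw [← norm_smul]; exact ha2.1
      calc ‖d p‖ ≤ ‖d p‖ * (‖t ^ a2‖ * ‖w‖) := le_mul_of_one_le_right (norm_nonneg _) h3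
        _ = ‖t ^ a2‖ * (‖d p‖ * ‖w‖) := by ring
        _ ≤ ‖t ^ a2‖ * (n * C1 * kc n j C1 c * ‖(g * Matrix.of Y) *ᵥ w‖) :=
            mul_le_mul_of_nonneg_left hw (norm_nonneg _)
        _ = _ := by ring
    have e3 : (n * C1) ^ 2 * j * ‖t‖ * (n * C1 * kc n j C1 c) * ‖d q‖ ≤ ρ * ‖d p‖ := by
      rw [div_mul_eq_mul_div, div_le_iff₀ hρ] at hR0
      linarith
    have h5 : 0 < n * C1 * kc n j C1 c := by positivity
    refine e1.trans ?_
    refine le_of_mul_le_mul_right ?_ h5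
    calc (n * C1) ^ 2 * j * ‖d q‖ * ‖t‖ * (n * C1 * kc n j C1 c)
        = (n * C1) ^ 2 * j * ‖t‖ * (n * C1 * kc n j C1 c) * ‖d q‖ := by ring
      _ ≤ ρ * ‖d p‖ := e3
      _ ≤ ρ * (n * C1 * kc n j C1 c * ‖(g * Matrix.of Y) *ᵥ (t ^ a2 • w)‖) :=
          mul_le_mul_of_nonneg_left e2 hρ.le
      _ = _ := by ring

end meas

end Vale.Agent.P092.H87.Contr
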