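import Vale.Agent.P092.H87.Glue
import Vale.Agent.P092.PA.Blocks

/-!
P092, Team A: the field `fin` of `PA.Blocks`.
-/

namespace Vale.Agent.P092.H87

/-- [END] in the form of `PA.Blocks.fin`. -/
theorem fin (Γ Λ K : Type) [Group Γ] [Countable Γ] [Group Λ] [Countable Λ]
    [NormedAddCommGroup K] [InnerProductSpace ℂ K] [CompleteSpace K] (D : PA.Pic Γ Λ K)
    (_hΓ : PA.Icc Γ) (hΛ : PA.Icc Λ) (hG : PA.Glu D) : PA.Can D :=
  can_of_endC D (endC_of_glu D hG (no_finite_normal hΛ))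

end Vale.Agent.P092.H87
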