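import Vale.Agent.P092.H820.Pn

/-!
P092, TEAM N, block [N-NW] (helper87): the geometry of one near-wall element of type 1 of `GL_n(k)`,
`k` any normed field, in pivot form. `NWn C a b g h i j`: `h` is the inverse of `g`, `g i j` is an
entry of largest norm, of size `a`, the entries of `h` are at most about `b`, the remainder `EE` of
the rank one part is at most about `1 / b`. In `SL_n`: `a = t ^ (n - 1)`, `b = t`. Radius
`r = 1 / (a * b)`. Attracting point `uu`, repelling hyperplane `yy`.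
-/

set_option linter.all false

namespace Vale.Agent.P092.H87.N

open Matrix Vale.Agent.P092.H820

section Basic

variable {k : Type*} [NormedField k] {ι : Type*} [Fintype ι]

/-- the number of coordinates -/
noncomputable def cn (ι : Type*) [Fintype ι] : ℝ := Fintype.card ι

lemma cn_nonneg : 0 ≤ cn ι := Nat.cast_nonneg _

lemma one_le_cn (i : ι) : 1 ≤ cn ι := by
  have : 0 < Fintype.card ι := Fintype.card_pos_iff.2 ⟨i⟩
  unfold cn
  exact_mod_cast this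

lemma dot_le (l v : ι → k) : ‖l ⬝ᵥ v‖ ≤ cn ι * (‖l‖ * ‖v‖) := by
  have h : ∀ i, ‖l i * v i‖ ≤ ‖l‖ * ‖v‖ := fun i => by
    rw [norm_mul]
    exact mul_le_mul (norm_le_pi_norm l i) (norm_le_pi_norm v i) (norm_nonneg _) (norm_nonneg _)
  rw [dotProduct]
  refine (norm_sum_le _ _).trans ?_
  refine (Finset.sum_le_sum fun i _ => h i).trans ?_
  rw [Finset.sum_const, Finset.card_univ, nsmul_eq_mul]
  exact le_rfl

lemma wd_le (v w : ι → k) : ‖wd v w‖ ≤ 2 * (‖v‖ * ‖w‖) := by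
  refine (pi_norm_le_iff_of_nonneg (by positivity)).2 fun p => ?_
  have h : ∀ a b, ‖v a * w b‖ ≤ ‖v‖ * ‖w‖ := fun a b => by
    rw [norm_mul]
    exact mul_le_mul (norm_le_pi_norm v a) (norm_le_pi_norm w b) (norm_nonneg _) (norm_nonneg _)
  rw [wd]
  refine (norm_sub_le _ _).trans ?_
  linarith [h p.1 p.2, h p.2 p.1]

lemma wd_add_right (u v w : ι → k) : wd u (v + w) = wd u v + wd u w := by
  ext p; simp only [wd, Pi.add_apply]; ring

lemma wd_add_left (u v w : ι → k) : wd (u + v) w = wd u w + wd v w := by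
  ext p; simp only [wd, Pi.add_apply]; ring

lemma wd_smul_right (c : k) (u v : ι → k) : wd u (c • v) = c • wd u v := by
  ext p; simp only [wd, Pi.smul_apply, smul_eq_mul]; ring

lemma wd_smul_left (c : k) (u v : ι → k) : wd (c • u) v = c • wd u v := by
  ext p; simp only [wd, Pi.smul_apply, smul_eq_mul]; ring

lemma wd_sub_right (u v w : ι → k) : wd u (v - w) = wd u v - wd u w := by
  ext p; simp only [wd, Pi.sub_apply]; ring

lemma wd_swap (u v : ι → k) : ‖wd u v‖ = ‖wd v u‖ := by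
  have h : ∀ u v : ι → k, ‖wd u v‖ ≤ ‖wd v u‖ := fun u v => by
    refine (pi_norm_le_iff_of_nonneg (norm_nonneg _)).2 fun p => ?_
    have e : wd u v p = wd v u (p.2, p.1) := by simp only [wd]; ring
    rw [e]
    exact norm_le_pi_norm _ _
  exact le_antisymm (h u v) (h v u)

/-- `u ∧ v` in terms of the difference -/
lemma wd_sub_self (u v : ι → k) : wd u v = wd u (v - u) := by
  rw [wd_sub_right, wd_self, sub_zero]

lemma mulVec_le {M : Matrix ι ι k} {c : ℝ} (hc : 0 ≤ c) (hM : ∀ x y, ‖M x y‖ ≤ c) (v : ι → k) :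
    ‖M *ᵥ v‖ ≤ cn ι * (c * ‖v‖) := by
  refine (pi_norm_le_iff_of_nonneg (by have := cn_nonneg (ι := ι); positivity)).2 fun x => ?_
  have h1 : ‖M x‖ ≤ c := (pi_norm_le_iff_of_nonneg hc).2 fun y => hM x y
  refine (dot_le (M x) v).trans ?_
  exact mul_le_mul_of_nonneg_left (mul_le_mul_of_nonneg_right h1 (norm_nonneg _)) cn_nonneg

lemma vecMul_le {M : Matrix ι ι k} {c : ℝ} (hc : 0 ≤ c) (hM : ∀ x y, ‖M x y‖ ≤ c) (v : ι → k) :
    ‖v ᵥ* M‖ ≤ cn ι * (c * ‖v‖) := by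
  refine (pi_norm_le_iff_of_nonneg (by have := cn_nonneg (ι := ι); positivity)).2 fun y => ?_
  have h1 : ‖fun x => M x y‖ ≤ c := (pi_norm_le_iff_of_nonneg hc).2 fun x => hM x y
  refine (dot_le v (fun x => M x y)).trans ?_
  rw [mul_comm ‖v‖]
  exact mul_le_mul_of_nonneg_left (mul_le_mul_of_nonneg_right h1 (norm_nonneg _)) cn_nonneg

end Basic

section Core

variable {k : Type*} [NormedField k] {ι : Type*} [Fintype ι] [DecidableEq ι]

/-- the repelling hyperplane (normalised row) -/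
def yy (g : Matrix ι ι k) (i j : ι) : ι → k := fun y => g i y / g i j

/-- the attracting point (normalised column) -/
def uu (g : Matrix ι ι k) (i j : ι) : ι → k := fun x => g x j / g i j

/-- the remainder of the rank one part -/
def EE (g : Matrix ι ι k) (i j : ι) : Matrix ι ι k :=
  Matrix.of fun x y => g x y - g x j * g i y / g i j

/-- near-wall, sizes `a` (largest entry) and `b` (inverse), pivot `(i, j)`, constant `C` -/
structure NWn (C a b : ℝ) (g h : Matrix ι ι k) (i j : ι) : Prop where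
  one_le : 1 ≤ C
  a_pos : 0 < a
  b_pos : 0 < b
  gh : g * h = 1
  hg : h * g = 1
  piv : ∀ x y, ‖g x y‖ ≤ ‖g i j‖
  lo : a ≤ C * ‖g i j‖
  hi : ‖g i j‖ ≤ C * a
  inv : ∀ x y, ‖h x y‖ ≤ C * b
  ee : ∀ x y, ‖EE g i j x y‖ ≤ C / b

variable {C a b : ℝ} {g h : Matrix ι ι k} {i j : ι}

namespace NWn

lemma C_pos (H : NWn C a b g h i j) : 0 < C := lt_of_lt_of_le one_pos H.one_le

lemma n_pos (H : NWn C a b g h i j) : 0 < ‖g i j‖ := by
  have h1 := H.lo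
  have h2 := H.a_pos
  by_contra hn
  have h3 : ‖g i j‖ = 0 := le_antisymm (not_lt.1 hn) (norm_nonneg _)
  rw [h3, mul_zero] at h1
  linarith

lemma ne (H : NWn C a b g h i j) : g i j ≠ 0 := norm_pos_iff.1 H.n_pos

lemma mono {C' : ℝ} (H : NWn C a b g h i j) (hC : C ≤ C') : NWn C' a b g h i j := by
  have h1 := H.a_pos
  have h2 := H.b_pos
  refine ⟨H.one_le.trans hC, H.a_pos, H.b_pos, H.gh, H.hg, H.piv, ?_, ?_, fun x y => ?_,
    fun x y => ?_⟩
  · exact H.lo.trans (mul_le_mul_of_nonneg_right hC (norm_nonneg _))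
  · exact H.hi.trans (mul_le_mul_of_nonneg_right hC h1.le)
  · exact (H.inv x y).trans (mul_le_mul_of_nonneg_right hC h2.le)
  · exact (H.ee x y).trans (div_le_div_of_nonneg_right hC h2.le)

lemma yy_j (H : NWn C a b g h i j) : yy g i j j = 1 := div_self H.ne

lemma uu_i (H : NWn C a b g h i j) : uu g i j i = 1 := div_self H.ne

lemma yy_norm (H : NWn C a b g h i j) : ‖yy g i j‖ = 1 := by
  apply le_antisymm
  · refine (pi_norm_le_iff_of_nonneg zero_le_one).2 fun y => ?_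
    rw [yy, norm_div]
    exact div_le_one_of_le₀ (H.piv _ _) (norm_nonneg _)
  · have := norm_le_pi_norm (yy g i j) j
    rwa [H.yy_j, norm_one] at this

lemma uu_norm (H : NWn C a b g h i j) : ‖uu g i j‖ = 1 := by
  apply le_antisymm
  · refine (pi_norm_le_iff_of_nonneg zero_le_one).2 fun x => ?_
    rw [uu, norm_div]
    exact div_le_one_of_le₀ (H.piv _ _) (norm_nonneg _)
  · have := norm_le_pi_norm (uu g i j) i
    rwa [H.uu_i, norm_one] at this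

lemma yy_ne (H : NWn C a b g h i j) : yy g i j ≠ 0 := fun h0 => by
  have := H.yy_norm
  rw [h0, norm_zero] at this
  exact zero_ne_one this

lemma uu_ne (H : NWn C a b g h i j) : uu g i j ≠ 0 := fun h0 => by
  have := H.uu_norm
  rw [h0, norm_zero] at this
  exact zero_ne_one this

lemma EE_row (H : NWn C a b g h i j) (y : ι) : EE g i j i y = 0 := by
  have := H.ne
  simp only [EE, Matrix.of_apply]
  field_simp
  ring

lemma EE_col (H : NWn C a b g h i j) (x : ι) : EE g i j x j = 0 := by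
  have := H.ne
  simp only [EE, Matrix.of_apply]
  field_simp
  ring

lemma g_eq (H : NWn C a b g h i j) (x y : ι) :
    g x y = g i j * uu g i j x * yy g i j y + EE g i j x y := by
  have := H.ne
  simp only [EE, uu, yy, Matrix.of_apply]
  field_simp
  ring

lemma mulVec_eq (H : NWn C a b g h i j) (v : ι → k) :
    g *ᵥ v = (g i j * (yy g i j ⬝ᵥ v)) • uu g i j + EE g i j *ᵥ v := by
  ext x
  simp only [Matrix.mulVec, dotProduct, Pi.add_apply, Pi.smul_apply, smul_eq_mul]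
  rw [Finset.mul_sum, Finset.sum_mul, ← Finset.sum_add_distrib]
  refine Finset.sum_congr rfl fun y _ => ?_
  rw [H.g_eq x y]
  ring

lemma vecMul_eq (H : NWn C a b g h i j) (l : ι → k) :
    l ᵥ* g = (g i j * (l ⬝ᵥ uu g i j)) • yy g i j + l ᵥ* EE g i j := by
  ext y
  simp only [Matrix.vecMul, dotProduct, Pi.add_apply, Pi.smul_apply, smul_eq_mul]
  rw [Finset.mul_sum, Finset.sum_mul, ← Finset.sum_add_distrib]
  refine Finset.sum_congr rfl fun x _ => ?_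
  rw [H.g_eq x y]
  ring

lemma EE_mulVec_le (H : NWn C a b g h i j) (v : ι → k) :
    ‖EE g i j *ᵥ v‖ ≤ cn ι * (C / b * ‖v‖) :=
  mulVec_le (div_nonneg H.C_pos.le H.b_pos.le) H.ee v

lemma vecMul_EE_le (H : NWn C a b g h i j) (v : ι → k) :
    ‖v ᵥ* EE g i j‖ ≤ cn ι * (C / b * ‖v‖) :=
  vecMul_le (div_nonneg H.C_pos.le H.b_pos.le) H.ee v

/-- the pivot coordinate of a translated hyperplane -/
lemma vecMul_j (H : NWn C a b g h i j) (l : ι → k) :
    (l ᵥ* g) j = g i j * (l ⬝ᵥ uu g i j) := by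
  rw [H.vecMul_eq, Pi.add_apply, Pi.smul_apply, H.yy_j, smul_eq_mul, mul_one]
  have : (l ᵥ* EE g i j) j = 0 := by
    simp only [Matrix.vecMul, dotProduct]
    exact Finset.sum_eq_zero fun x _ => by rw [H.EE_col, mul_zero]
  rw [this, add_zero]

/-- the pivot coordinate of a translated point -/
lemma mulVec_i (H : NWn C a b g h i j) (v : ι → k) :
    (g *ᵥ v) i = g i j * (yy g i j ⬝ᵥ v) := by
  rw [H.mulVec_eq, Pi.add_apply, Pi.smul_apply, H.uu_i, smul_eq_mul, mul_one]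
  have : (EE g i j *ᵥ v) i = 0 := by
    simp only [Matrix.mulVec, dotProduct]
    exact Finset.sum_eq_zero fun x _ => by rw [H.EE_row, zero_mul]
  rw [this, add_zero]

/-- **The disc.** -/
theorem disc (H : NWn C a b g h i j) {δ : ℝ} (hδ : 0 < δ) {l : ι → k}
    (hl : δ * ‖l‖ ≤ ‖l ⬝ᵥ uu g i j‖) :
    ‖wd (l ᵥ* g) (yy g i j)‖ ≤ 2 * cn ι * C ^ 2 / δ * (1 / (a * b)) * ‖l ᵥ* g‖ := by
  have ha := H.a_pos
  have hb := H.b_pos
  have hC := H.C_pos
  have hn := cn_nonneg (ι := ι)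
  have e1 : wd (l ᵥ* g) (yy g i j) = wd (l ᵥ* EE g i j) (yy g i j) := by
    rw [H.vecMul_eq, wd_add_left, wd_smul_left, wd_self, smul_zero, zero_add]
  have h1 : ‖wd (l ᵥ* g) (yy g i j)‖ ≤ 2 * (cn ι * (C / b * ‖l‖)) := by
    rw [e1]
    refine (wd_le _ _).trans ?_
    rw [H.yy_norm, mul_one]
    exact mul_le_mul_of_nonneg_left (H.vecMul_EE_le l) (by norm_num)
  have h2 : a * (δ * ‖l‖) ≤ C * ‖l ᵥ* g‖ := by
    have h3 := norm_le_pi_norm (l ᵥ* g) j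
    rw [H.vecMul_j, norm_mul] at h3
    calc a * (δ * ‖l‖) ≤ (C * ‖g i j‖) * ‖l ⬝ᵥ uu g i j‖ :=
          mul_le_mul H.lo hl (by positivity) (by positivity)
      _ = C * (‖g i j‖ * ‖l ⬝ᵥ uu g i j‖) := by ring
      _ ≤ C * ‖l ᵥ* g‖ := mul_le_mul_of_nonneg_left h3 hC.le
  refine h1.trans ?_
  have h4 : ‖l‖ ≤ C / (a * δ) * ‖l ᵥ* g‖ := by
    rw [div_mul_eq_mul_div, le_div_iff₀ (by positivity)]
    calc ‖l‖ * (a * δ) = a * (δ * ‖l‖) := by ring
      _ ≤ _ := h2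
  calc 2 * (cn ι * (C / b * ‖l‖)) ≤ 2 * (cn ι * (C / b * (C / (a * δ) * ‖l ᵥ* g‖))) := by
        gcongr
    _ = _ := by field_simp

/-- **The strip.** -/
theorem strip (H : NWn C a b g h i j) {δ : ℝ} (hδ : 0 < δ) {v : ι → k}
    (hv : δ * ‖g *ᵥ v‖ ≤ ‖wd (uu g i j) (g *ᵥ v)‖) :
    ‖yy g i j ⬝ᵥ v‖ ≤ 2 * cn ι * C ^ 2 / δ * (1 / (a * b)) * ‖v‖ := by
  have ha := H.a_pos
  have hb := H.b_pos
  have hC := H.C_pos
  have hn := cn_nonneg (ι := ι)
  have e1 : wd (uu g i j) (g *ᵥ v) = wd (uu g i j) (EE g i j *ᵥ v) := by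
    rw [H.mulVec_eq, wd_add_right, wd_smul_right, wd_self, smul_zero, zero_add]
  have h1 : ‖wd (uu g i j) (g *ᵥ v)‖ ≤ 2 * (cn ι * (C / b * ‖v‖)) := by
    rw [e1]
    refine (wd_le _ _).trans ?_
    rw [H.uu_norm, one_mul]
    exact mul_le_mul_of_nonneg_left (H.EE_mulVec_le v) (by norm_num)
  have h2 : a * ‖yy g i j ⬝ᵥ v‖ ≤ C * ‖g *ᵥ v‖ := by
    have h3 := norm_le_pi_norm (g *ᵥ v) i
    rw [H.mulVec_i, norm_mul] at h3
    calc a * ‖yy g i j ⬝ᵥ v‖ ≤ (C * ‖g i j‖) * ‖yy g i j ⬝ᵥ v‖ :=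
          mul_le_mul_of_nonneg_right H.lo (norm_nonneg _)
      _ = C * (‖g i j‖ * ‖yy g i j ⬝ᵥ v‖) := by ring
      _ ≤ C * ‖g *ᵥ v‖ := mul_le_mul_of_nonneg_left h3 hC.le
  have h4 : ‖g *ᵥ v‖ ≤ 2 * (cn ι * (C / b * ‖v‖)) / δ := by
    rw [le_div_iff₀ hδ, mul_comm]
    exact hv.trans h1
  have h5 : ‖yy g i j ⬝ᵥ v‖ ≤ C / a * ‖g *ᵥ v‖ := by
    rw [div_mul_eq_mul_div, le_div_iff₀ ha, mul_comm]
    exact h2
  calc ‖yy g i j ⬝ᵥ v‖ ≤ C / a * ‖g *ᵥ v‖ := h5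
    _ ≤ C / a * (2 * (cn ι * (C / b * ‖v‖)) / δ) :=
        mul_le_mul_of_nonneg_left h4 (by positivity)
    _ = _ := by field_simp

/-- a lower bound for translated points -/
theorem le_mulVec (H : NWn C a b g h i j) (v : ι → k) : ‖v‖ ≤ cn ι * C * b * ‖g *ᵥ v‖ := by
  have e : v = h *ᵥ (g *ᵥ v) := by rw [Matrix.mulVec_mulVec, H.hg, Matrix.one_mulVec]
  have h1 := mulVec_le (mul_nonneg H.C_pos.le H.b_pos.le) H.inv (g *ᵥ v)
  rw [← e] at h1
  refine h1.trans (le_of_eq ?_)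
  ring

/-- **Local Lipschitz property for points**, at the anisotropic scale of the strip. -/
theorem lip (H : NWn C a b g h i j) {ε : ℝ} (hε : 0 ≤ ε) {v w : ι → k} (h1 : ‖v - w‖ ≤ ε)
    (h2 : ‖yy g i j ⬝ᵥ (v - w)‖ ≤ ε / (a * b)) :
    ‖wd (g *ᵥ v) (g *ᵥ w)‖ * ‖w‖ ≤ 4 * cn ι ^ 2 * C ^ 2 * ε * (‖g *ᵥ v‖ * ‖g *ᵥ w‖) := by
  have ha := H.a_pos
  have hb := H.b_pos
  have hC := H.C_pos
  have hn := cn_nonneg (ι := ι)
  have hn1 := one_le_cn i
  have e1 : g *ᵥ (v - w) = g *ᵥ v - g *ᵥ w := Matrix.mulVec_sub _ _ _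
  have h3 : ‖g *ᵥ (v - w)‖ ≤ 2 * cn ι * C * ε / b := by
    rw [H.mulVec_eq]
    refine (norm_add_le _ _).trans ?_
    rw [norm_smul, H.uu_norm, mul_one, norm_mul]
    have h4 : ‖g i j‖ * ‖yy g i j ⬝ᵥ (v - w)‖ ≤ C * ε / b := by
      calc ‖g i j‖ * ‖yy g i j ⬝ᵥ (v - w)‖ ≤ (C * a) * (ε / (a * b)) :=
            mul_le_mul H.hi h2 (norm_nonneg _) (by positivity)
        _ = C * ε / b := by field_simp
    have h5 : ‖EE g i j *ᵥ (v - w)‖ ≤ cn ι * (C / b * ε) :=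
      (H.EE_mulVec_le _).trans (by gcongr)
    have h6 : C * ε / b ≤ cn ι * (C / b * ε) := by
      calc C * ε / b = 1 * (C / b * ε) := by ring
        _ ≤ cn ι * (C / b * ε) := mul_le_mul_of_nonneg_right hn1 (by positivity)
    calc ‖g i j‖ * ‖yy g i j ⬝ᵥ (v - w)‖ + ‖EE g i j *ᵥ (v - w)‖
        ≤ cn ι * (C / b * ε) + cn ι * (C / b * ε) := add_le_add (h4.trans h6) h5
      _ = 2 * cn ι * C * ε / b := by ring
  have h7 : ‖wd (g *ᵥ v) (g *ᵥ w)‖ ≤ 2 * (‖g *ᵥ v‖ * (2 * cn ι * C * ε / b)) := by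
    have e2 : wd (g *ᵥ v) (g *ᵥ w) = wd (g *ᵥ v) (g *ᵥ w - g *ᵥ v) := wd_sub_self _ _
    rw [e2]
    refine (wd_le _ _).trans ?_
    rw [← norm_neg (g *ᵥ w - g *ᵥ v), neg_sub, ← e1]
    gcongr
  have h8 := H.le_mulVec w
  calc ‖wd (g *ᵥ v) (g *ᵥ w)‖ * ‖w‖
      ≤ (2 * (‖g *ᵥ v‖ * (2 * cn ι * C * ε / b))) * (cn ι * C * b * ‖g *ᵥ w‖) :=
        mul_le_mul h7 h8 (norm_nonneg _) (by positivity)
    _ = _ := by field_simp; ring

/-! ### Hyperplanes: the action `ν ↦ ν h` -/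

/-- the component of `ν` transversal to `yy` -/
def tr (g : Matrix ι ι k) (i j : ι) (ν : ι → k) : ι → k := ν - ν j • yy g i j

lemma tr_j (H : NWn C a b g h i j) (ν : ι → k) : tr g i j ν j = 0 := by
  simp only [tr, Pi.sub_apply, Pi.smul_apply, H.yy_j, smul_eq_mul, mul_one, sub_self]

lemma wd_tr (H : NWn C a b g h i j) (ν : ι → k) :
    wd ν (yy g i j) = wd (tr g i j ν) (yy g i j) := by
  have e : ν = tr g i j ν + ν j • yy g i j := by simp [tr]
  conv_lhs => rw [e]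
  rw [wd_add_left, wd_smul_left, wd_self, smul_zero, add_zero]

lemma tr_le (H : NWn C a b g h i j) (ν : ι → k) : ‖tr g i j ν‖ ≤ ‖wd ν (yy g i j)‖ := by
  refine (pi_norm_le_iff_of_nonneg (norm_nonneg _)).2 fun x => ?_
  have e : tr g i j ν x = wd ν (yy g i j) (x, j) := by
    simp only [tr, wd, Pi.sub_apply, Pi.smul_apply, H.yy_j, smul_eq_mul, mul_one]
  rw [e]
  exact norm_le_pi_norm _ _

lemma wd_le_tr (H : NWn C a b g h i j) (ν : ι → k) :
    ‖wd ν (yy g i j)‖ ≤ 2 * ‖tr g i j ν‖ := by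
  rw [H.wd_tr]
  refine (wd_le _ _).trans ?_
  rw [H.yy_norm, mul_one]

/-- `yy` is sent to the hyperplane `e_i` -/
lemma yy_vecMul (H : NWn C a b g h i j) :
    yy g i j ᵥ* h = (g i j)⁻¹ • (Pi.single i 1 : ι → k) := by
  have e1 : yy g i j = (g i j)⁻¹ • g i := by
    ext y; simp [yy, div_eq_inv_mul]
  have e2 : (g i) ᵥ* h = (Pi.single i 1 : ι → k) := by
    have : (g i) ᵥ* h = (g * h) i := by
      ext y; rfl
    rw [this, H.gh]
    ext y
    rw [Matrix.one_apply, Pi.single_apply]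
    by_cases hy : i = y
    · rw [if_pos hy, if_pos hy.symm]
    · rw [if_neg hy, if_neg (Ne.symm hy)]
  rw [e1, Matrix.smul_vecMul, e2]

lemma vecMul_h (H : NWn C a b g h i j) (ν : ι → k) :
    ν ᵥ* h = (ν j * (g i j)⁻¹) • (Pi.single i 1 : ι → k) + tr g i j ν ᵥ* h := by
  have e : ν = tr g i j ν + ν j • yy g i j := by simp [tr]
  conv_lhs => rw [e]
  rw [Matrix.add_vecMul, Matrix.smul_vecMul, H.yy_vecMul, smul_smul, add_comm]

/-- the transversal part is expanded by `b` -/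
lemma tr_le_vecMul (H : NWn C a b g h i j) (ν : ι → k) :
    b * ‖tr g i j ν‖ ≤ cn ι * C * ‖tr g i j ν ᵥ* h‖ := by
  set w := tr g i j ν with hw
  have hb := H.b_pos
  have e1 : w = (w ᵥ* h) ᵥ* g := by rw [Matrix.vecMul_vecMul, H.hg, Matrix.vecMul_one]
  have e2 : g i j * ((w ᵥ* h) ⬝ᵥ uu g i j) = 0 := by
    rw [← H.vecMul_j, ← e1]
    exact H.tr_j ν
  have e3 : w = (w ᵥ* h) ᵥ* EE g i j := by
    conv_lhs => rw [e1, H.vecMul_eq, e2, zero_smul, zero_add]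
  have h1 := H.vecMul_EE_le (w ᵥ* h)
  rw [← e3] at h1
  calc b * ‖w‖ ≤ b * (cn ι * (C / b * ‖w ᵥ* h‖)) := mul_le_mul_of_nonneg_left h1 hb.le
    _ = _ := by field_simp

/-- the pivot coordinate is bounded by the norm of the image -/
lemma coord_le (H : NWn C a b g h i j) (ν : ι → k) :
    ‖ν j * (g i j)⁻¹‖ ≤ cn ι * ‖ν ᵥ* h‖ := by
  have e1 : ν j = g i j * ((ν ᵥ* h) ⬝ᵥ uu g i j) := by
    rw [← H.vecMul_j, Matrix.vecMul_vecMul, H.hg, Matrix.vecMul_one]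
  have e2 : ν j * (g i j)⁻¹ = (ν ᵥ* h) ⬝ᵥ uu g i j := by
    rw [e1]
    have := H.ne
    field_simp
  rw [e2]
  refine (dot_le _ _).trans ?_
  rw [H.uu_norm, mul_one]

/-- **Hyperplanes, lower bound.** -/
theorem le_vecMul_h (H : NWn C a b g h i j) (ν : ι → k) :
    b * (‖wd ν (yy g i j)‖ + 1 / (a * b) * ‖ν‖) ≤ 8 * cn ι ^ 2 * C * ‖ν ᵥ* h‖ := by
  have ha := H.a_pos
  have hb := H.b_pos
  have hC := H.C_pos
  have hn := one_le_cn i
  have h0 : ‖tr g i j ν ᵥ* h‖ ≤ (1 + cn ι) * ‖ν ᵥ* h‖ := by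
    have e : tr g i j ν ᵥ* h = ν ᵥ* h - (ν j * (g i j)⁻¹) • (Pi.single i 1 : ι → k) := by
      rw [H.vecMul_h ν]; abel
    rw [e]
    refine (norm_sub_le _ _).trans ?_
    rw [norm_smul, Pi.norm_single, norm_one, mul_one]
    linarith [H.coord_le ν]
  have h1 := H.tr_le_vecMul ν
  have h2 : b * ‖wd ν (yy g i j)‖ ≤ 2 * (cn ι * C * ((1 + cn ι) * ‖ν ᵥ* h‖)) := by
    calc b * ‖wd ν (yy g i j)‖ ≤ b * (2 * ‖tr g i j ν‖) :=
          mul_le_mul_of_nonneg_left (H.wd_le_tr ν) hb.le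
      _ = 2 * (b * ‖tr g i j ν‖) := by ring
      _ ≤ 2 * (cn ι * C * ‖tr g i j ν ᵥ* h‖) := by linarith
      _ ≤ _ := by gcongr
  have h3 : ‖ν‖ / a ≤ cn ι * C * ‖ν ᵥ* h‖ := by
    have e : ν = (ν ᵥ* h) ᵥ* g := by rw [Matrix.vecMul_vecMul, H.hg, Matrix.vecMul_one]
    have h4 := vecMul_le (M := g) (norm_nonneg _) H.piv (ν ᵥ* h)
    rw [← e] at h4
    rw [div_le_iff₀ ha]
    refine h4.trans ?_
    calc cn ι * (‖g i j‖ * ‖ν ᵥ* h‖) ≤ cn ι * ((C * a) * ‖ν ᵥ* h‖) := by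
          have := H.hi
          gcongr
      _ = _ := by ring
  have h5 : b * (1 / (a * b) * ‖ν‖) = ‖ν‖ / a := by field_simp
  rw [mul_add, h5]
  have h6 : 0 ≤ C * ‖ν ᵥ* h‖ := by positivity
  have h7 : cn ι ≤ cn ι ^ 2 := by rw [sq]; exact le_mul_of_one_le_left (by linarith) hn
  nlinarith [mul_le_mul_of_nonneg_right h7 h6]

/-- **Hyperplanes, Lipschitz bound**: the translate of `ν` varies at the scale
`max (‖ν ∧ yy‖, 1 / (a b))`. -/
theorem lip_h (H : NWn C a b g h i j) (ν ν' : ι → k) :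
    ‖wd (ν ᵥ* h) (ν' ᵥ* h)‖ * (‖wd ν' (yy g i j)‖ + 1 / (a * b) * ‖ν'‖) ≤
      16 * cn ι ^ 3 * C ^ 2 * ‖ν' - ν‖ * (‖ν ᵥ* h‖ * ‖ν' ᵥ* h‖) := by
  have ha := H.a_pos
  have hb := H.b_pos
  have hC := H.C_pos
  have hn := one_le_cn i
  have h1 : ‖wd (ν ᵥ* h) (ν' ᵥ* h)‖ ≤ 2 * (‖ν ᵥ* h‖ * (cn ι * (C * b * ‖ν' - ν‖))) := by
    rw [wd_sub_self, ← Matrix.sub_vecMul]
    refine (wd_le _ _).trans ?_
    have := vecMul_le (mul_nonneg hC.le hb.le) H.inv (ν' - ν)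
    gcongr
  have h2 := H.le_vecMul_h ν'
  have h3 : 0 ≤ ‖wd ν' (yy g i j)‖ + 1 / (a * b) * ‖ν'‖ := by positivity
  calc ‖wd (ν ᵥ* h) (ν' ᵥ* h)‖ * (‖wd ν' (yy g i j)‖ + 1 / (a * b) * ‖ν'‖)
      ≤ (2 * (‖ν ᵥ* h‖ * (cn ι * (C * b * ‖ν' - ν‖)))) *
        (‖wd ν' (yy g i j)‖ + 1 / (a * b) * ‖ν'‖) := mul_le_mul_of_nonneg_right h1 h3
    _ = (2 * (‖ν ᵥ* h‖ * (cn ι * (C * ‖ν' - ν‖)))) *
        (b * (‖wd ν' (yy g i j)‖ + 1 / (a * b) * ‖ν'‖)) := by ring
    _ ≤ (2 * (‖ν ᵥ* h‖ * (cn ι * (C * ‖ν' - ν‖)))) * (8 * cn ι ^ 2 * C * ‖ν' ᵥ* h‖) := by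
        have hn0 := cn_nonneg (ι := ι)
        exact mul_le_mul_of_nonneg_left h2 (by positivity)
    _ = _ := by ring

end NWn

/-- closeness of the repelling hyperplanes from the wedge -/
lemma yy_sub_le {C a b : ℝ} {g h g' h' : Matrix ι ι k} {i j : ι} (H : NWn C a b g h i j)
    (H' : NWn C a b g' h' i j) : ‖yy g' i j - yy g i j‖ ≤ ‖wd (yy g' i j) (yy g i j)‖ := by
  refine (pi_norm_le_iff_of_nonneg (norm_nonneg _)).2 fun x => ?_
  have e : (yy g' i j - yy g i j) x = wd (yy g' i j) (yy g i j) (x, j) := by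
    simp only [wd, Pi.sub_apply, H.yy_j, H'.yy_j]
    ring
  rw [e]
  exact norm_le_pi_norm _ _

/-- **Capacity, matrix form.** -/
theorem cap {C a b D : ℝ} {g h g' h' : Matrix ι ι k} {i j : ι} (H : NWn C a b g h i j)
    (H' : NWn C a b g' h' i j) (hD : 1 ≤ D) (hy : ‖yy g' i j - yy g i j‖ ≤ D / (a * b))
    (x z : ι) : ‖(g' * h) x z‖ ≤ 3 * cn ι * C ^ 2 * D := by
  have ha := H.a_pos
  have hb := H.b_pos
  have hC := H.C_pos
  have hn := one_le_cn i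
  have h1 : ‖yy g' i j ᵥ* h‖ ≤ 2 * cn ι * C * D / a := by
    have e : yy g' i j ᵥ* h = yy g i j ᵥ* h + (yy g' i j - yy g i j) ᵥ* h := by
      rw [← Matrix.add_vecMul]; congr 1; abel
    rw [e]
    refine (norm_add_le _ _).trans ?_
    have h2 : ‖yy g i j ᵥ* h‖ ≤ C / a := by
      rw [H.yy_vecMul, norm_smul, Pi.norm_single, norm_one, mul_one, norm_inv,
        inv_eq_one_div, div_le_div_iff₀ H.n_pos ha, one_mul]
      exact H.lo
    have h3 : ‖(yy g' i j - yy g i j) ᵥ* h‖ ≤ cn ι * C * D / a := by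
      refine (vecMul_le (mul_nonneg hC.le hb.le) H.inv _).trans ?_
      calc cn ι * (C * b * ‖yy g' i j - yy g i j‖) ≤ cn ι * (C * b * (D / (a * b))) := by
            gcongr
        _ = _ := by field_simp
    have h4 : C / a ≤ cn ι * C * D / a := by
      refine div_le_div_of_nonneg_right ?_ ha.le
      calc C = 1 * C * 1 := by ring
        _ ≤ cn ι * C * D := by gcongr
    calc ‖yy g i j ᵥ* h‖ + ‖(yy g' i j - yy g i j) ᵥ* h‖ ≤ cn ι * C * D / a + cn ι * C * D / a :=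
          add_le_add (h2.trans h4) h3
      _ = _ := by ring
  have e : (g' * h) x z = (g' i j * uu g' i j x) * (yy g' i j ᵥ* h) z +
      EE g' i j x ⬝ᵥ (fun y => h y z) := by
    simp only [Matrix.mul_apply, Matrix.vecMul, dotProduct]
    rw [Finset.mul_sum, ← Finset.sum_add_distrib]
    refine Finset.sum_congr rfl fun y _ => ?_
    rw [H'.g_eq x y]
    ring
  rw [e]
  refine (norm_add_le _ _).trans ?_
  have h5 : ‖(g' i j * uu g' i j x) * (yy g' i j ᵥ* h) z‖ ≤ 2 * cn ι * C ^ 2 * D := by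
    rw [norm_mul, norm_mul]
    have hu : ‖uu g' i j x‖ ≤ 1 := (norm_le_pi_norm _ _).trans H'.uu_norm.le
    have hz : ‖(yy g' i j ᵥ* h) z‖ ≤ 2 * cn ι * C * D / a := (norm_le_pi_norm _ _).trans h1
    calc ‖g' i j‖ * ‖uu g' i j x‖ * ‖(yy g' i j ᵥ* h) z‖
        ≤ (C * a) * 1 * (2 * cn ι * C * D / a) :=
          mul_le_mul (mul_le_mul H'.hi hu (norm_nonneg _) (by positivity)) hz (norm_nonneg _)
            (by positivity)
      _ = _ := by field_simp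
  have h6 : ‖EE g' i j x ⬝ᵥ (fun y => h y z)‖ ≤ cn ι * C ^ 2 * D := by
    refine (dot_le _ _).trans ?_
    have e1 : ‖EE g' i j x‖ ≤ C / b :=
      (pi_norm_le_iff_of_nonneg (by positivity)).2 fun y => H'.ee x y
    have e2 : ‖(fun y => h y z)‖ ≤ C * b :=
      (pi_norm_le_iff_of_nonneg (by positivity)).2 fun y => H.inv y z
    calc cn ι * (‖EE g' i j x‖ * ‖(fun y => h y z)‖) ≤ cn ι * ((C / b) * (C * b)) := by
          gcongr
      _ = cn ι * C ^ 2 * 1 := by field_simp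
      _ ≤ cn ι * C ^ 2 * D := by gcongr
  calc _ ≤ 2 * cn ι * C ^ 2 * D + cn ι * C ^ 2 * D := add_le_add h5 h6
    _ = _ := by ring

end Core

end Vale.Agent.P092.H87.N
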