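import Vale.Agent.P092.H87.EndE

/-!
P092, block (END) of the products theorem, part F: the isomorphism of the groups.
-/

open scoped InnerProductSpace

namespace Vale.Agent.P092.H87

set_option linter.unusedSectionVars false
set_option linter.style.haveILetI false

variable {H : Type*} [NormedAddCommGroup H] [InnerProductSpace ℂ H] [CompleteSpace H]

/-- two Hilbert bases with the same index set are exchanged by a unitary -/
lemma exists_unitary {ι : Type*} (b b' : HilbertBasis ι ℂ H) :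
    ∃ w : unitary (H →L[ℂ] H), ∀ i, (w : H →L[ℂ] H) (b i) = b' i := by
  classical
  refine ⟨Unitary.linearIsometryEquiv.symm (b.repr.trans b'.repr.symm), fun i => ?_⟩
  show b'.repr.symm (b.repr (b i)) = b' i
  rw [b.repr_self, b'.repr_symm_single]

/-- two continuous operators which agree on a Hilbert basis are equal -/
lemma ext_basis {ι : Type*} (b : HilbertBasis ι ℂ H) {A B : H →L[ℂ] H}
    (h : ∀ i, A (b i) = B (b i)) : A = B := by
  ext x
  refine eqOn_cl (S := Set.range b) (A := A) (B := B) ?_ ?_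
  · rintro _ ⟨v, rfl⟩
    exact h v
  · show x ∈ (Submodule.span ℂ (Set.range b)).topologicalClosure
    rw [b.dense_span]
    trivial

section Group

variable {Λ Γ : Type*} [Group Λ] [Group Γ] (V : Λ →* unitary (H →L[ℂ] H))
  (R : Γ →* unitary (H →L[ℂ] H)) {D : VonNeumannAlgebra H}

lemma ext_vec (b : HilbertBasis Λ ℂ H) {ξ₀ : H} (hb : ∀ v, b v = op V v ξ₀)
    {A B : H →L[ℂ] H} (hA : ∀ v, A * op V v = op V v * A) (hB : ∀ v, B * op V v = op V v * B)
    (h : A ξ₀ = B ξ₀) : A = B := by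
  refine ext_basis b fun v => ?_
  rw [hb]
  have h1 : A (op V v ξ₀) = op V v (A ξ₀) := congrArg (fun A : H →L[ℂ] H => A ξ₀) (hA v)
  have h2 : B (op V v ξ₀) = op V v (B ξ₀) := congrArg (fun A : H →L[ℂ] H => A ξ₀) (hB v)
  rw [h1, h2, h]

/-- the right regular representation -/
lemma exists_right (b : HilbertBasis Λ ℂ H) {ξ₀ : H} (hb : ∀ v, b v = op V v ξ₀) :
    ∃ ρ : Λ → unitary (H →L[ℂ] H), (∀ v u, (ρ v : H →L[ℂ] H) * op V u = op V u * ρ v) ∧
      ∀ v, (ρ v : H →L[ℂ] H) ξ₀ = op V v⁻¹ ξ₀ := by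
  have h1 : ∀ v : Λ, ∃ w : unitary (H →L[ℂ] H), ∀ u, (w : H →L[ℂ] H) (b u) = b (u * v⁻¹) := by
    intro v
    have hon : Orthonormal ℂ (fun u => b (u * v⁻¹)) :=
      b.orthonormal.comp _ (mul_left_injective v⁻¹)
    have hr : Set.range (fun u => b (u * v⁻¹)) = Set.range b :=
      (Equiv.mulRight v⁻¹).surjective.range_comp b
    obtain ⟨w, hw⟩ := exists_unitary b (HilbertBasis.mk hon (by rw [hr, b.dense_span]))
    refine ⟨w, fun u => ?_⟩
    rw [hw, HilbertBasis.coe_mk]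
  choose ρ hρ using h1
  refine ⟨ρ, fun v u => ?_, fun v => ?_⟩
  · refine ext_basis b fun t => ?_
    show (ρ v : H →L[ℂ] H) (op V u (b t)) = op V u ((ρ v : H →L[ℂ] H) (b t))
    have e1 : op V u (b t) = b (u * t) := by
      rw [hb, hb, op_mul]
      rfl
    have e2 : op V u (b (t * v⁻¹)) = b (u * (t * v⁻¹)) := by
      rw [hb, hb, op_mul V u]
      rfl
    rw [e1, hρ, hρ, e2, mul_assoc]
  · have h2 := hρ v 1
    rw [one_mul, hb, hb, op_one] at h2
    exact h2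

/-- **(END), unitary form**: `w` is a unitary commuting with `V(Λ)` and conjugates `R g` to
a multiple of a canonical unitary. -/
theorem end_unitary {ι : Type*} (b' : HilbertBasis ι ℂ H) (b : HilbertBasis Λ ℂ H) {ξ₀ : H}
    (hb : ∀ v, b v = op V v ξ₀)
    (hV : ∀ g, ∀ T ∈ D, cj V g T ∈ D) (hR : ∀ g, ∀ T ∈ D, cj R g T ∈ D)
    (hVR : ∀ v g, op V v * op R g = op R g * op V v)
    (h1 : ∃ T ∈ D, T ≠ 0 ∧ FiniteDimensional ℂ (LinearMap.range (T : H →ₗ[ℂ] H)))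
    (h2 : ∀ z, z ∈ D → z ∈ D.commutant → (∀ g, op V g * z = z * op V g) → ∃ μ : ℂ, z = μ • 1)
    (h3 : ∀ z, z ∈ D → z ∈ D.commutant → (∀ g, op R g * z = z * op R g) → ∃ μ : ℂ, z = μ • 1)
    (h4 : TrZero b' V D) (h5 : ∀ N : Subgroup Λ, N.Normal → Finite N → N = ⊥) :
    ∃ (w : unitary (H →L[ℂ] H)) (δ : Γ →* Λ) (χ : Γ →* ℂ),
      (∀ v, (w : H →L[ℂ] H) * op V v = op V v * w) ∧ (∀ g, ‖χ g‖ = 1) ∧
      ∀ g, ∀ ρ : H →L[ℂ] H, (∀ v, ρ * op V v = op V v * ρ) → ρ ξ₀ = op V (δ g)⁻¹ ξ₀ →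
        op R g * w = χ g • ((w : H →L[ℂ] H) * ρ) := by
  obtain ⟨ζ, bζ, δ, χ, hbζ, hχ, hδ, -, -⟩ := end_main V R b' b hb hV hR hVR h1 h2 h3 h4 h5
  obtain ⟨w, hw⟩ := exists_unitary b bζ
  have hw1 : (w : H →L[ℂ] H) ξ₀ = ζ := by
    have h6 := hw 1
    rwa [hb, hbζ, op_one] at h6
  have hwV : ∀ v, (w : H →L[ℂ] H) * op V v = op V v * w := by
    intro v
    refine ext_basis b fun t => ?_
    show (w : H →L[ℂ] H) (op V v (b t)) = op V v ((w : H →L[ℂ] H) (b t))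
    have e1 : op V v (b t) = b (v * t) := by
      rw [hb, hb, op_mul]
      rfl
    have e2 : op V v (bζ t) = bζ (v * t) := by
      rw [hbζ, hbζ, op_mul]
      rfl
    rw [e1, hw, hw, e2]
  refine ⟨w, δ, χ, hwV, hχ, fun g ρ hρ hρ1 => ?_⟩
  refine ext_vec V b hb ?_ ?_ ?_
  · intro v
    rw [mul_assoc, hwV, ← mul_assoc, ← hVR, mul_assoc]
  · intro v
    rw [smul_mul_assoc, mul_assoc, hρ, ← mul_assoc, hwV, mul_assoc, mul_smul_comm]
  · show op R g ((w : H →L[ℂ] H) ξ₀) = χ g • (w : H →L[ℂ] H) (ρ ξ₀)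
    have h6 : (w : H →L[ℂ] H) (op V (δ g)⁻¹ ξ₀) = op V (δ g)⁻¹ ((w : H →L[ℂ] H) ξ₀) :=
      congrArg (fun A : H →L[ℂ] H => A ξ₀) (hwV (δ g)⁻¹)
    rw [hρ1, h6, hw1, hδ]

/-- **(END), group form**: the two groups are isomorphic. -/
theorem end_group {ι : Type*} (b' : HilbertBasis ι ℂ H) (b : HilbertBasis Λ ℂ H) {ξ₀ : H}
    (hb : ∀ v, b v = op V v ξ₀)
    (hV : ∀ g, ∀ T ∈ D, cj V g T ∈ D) (hR : ∀ g, ∀ T ∈ D, cj R g T ∈ D)
    (hVR : ∀ v g, op V v * op R g = op R g * op V v)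
    (h1 : ∃ T ∈ D, T ≠ 0 ∧ FiniteDimensional ℂ (LinearMap.range (T : H →ₗ[ℂ] H)))
    (h2 : ∀ z, z ∈ D → z ∈ D.commutant → (∀ g, op V g * z = z * op V g) → ∃ μ : ℂ, z = μ • 1)
    (h3 : ∀ z, z ∈ D → z ∈ D.commutant → (∀ g, op R g * z = z * op R g) → ∃ μ : ℂ, z = μ • 1)
    (h4 : TrZero b' V D) (h5 : ∀ N : Subgroup Λ, N.Normal → Finite N → N = ⊥)
    (h6 : ∀ g, ∀ μ : ℂ, op R g = μ • 1 → g = 1)
    (h7 : ∀ A : H →L[ℂ] H, (∀ g, A * op R g = op R g * A) →
      ∀ B : H →L[ℂ] H, (∀ v, B * op V v = op V v * B) → A * B = B * A) :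
    ∃ (w : unitary (H →L[ℂ] H)) (δ : Γ ≃* Λ) (χ : Γ →* ℂ),
      (∀ v, (w : H →L[ℂ] H) * op V v = op V v * w) ∧ (∀ g, ‖χ g‖ = 1) ∧
      ∀ g, ∀ ρ : H →L[ℂ] H, (∀ v, ρ * op V v = op V v * ρ) → ρ ξ₀ = op V (δ g)⁻¹ ξ₀ →
        op R g * w = χ g • ((w : H →L[ℂ] H) * ρ) := by
  obtain ⟨w, δ, χ, hwV, hχ, hδ⟩ := end_unitary V R b' b hb hV hR hVR h1 h2 h3 h4 h5
  obtain ⟨ρ, hρV, hρ1⟩ := exists_right V b hb
  have hww : (w : H →L[ℂ] H) * star (w : H →L[ℂ] H) = 1 := Unitary.coe_mul_star_self w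
  have hww' : star (w : H →L[ℂ] H) * (w : H →L[ℂ] H) = 1 := Unitary.coe_star_mul_self w
  have hkey : ∀ g, op R g = χ g • ((w : H →L[ℂ] H) * (ρ (δ g)) * star (w : H →L[ℂ] H)) := by
    intro g
    have h8 := hδ g (ρ (δ g)) (hρV _) (hρ1 _)
    have h9 := congrArg (· * star (w : H →L[ℂ] H)) h8
    rw [mul_assoc, hww, mul_one, smul_mul_assoc] at h9
    exact h9
  have hinj : Function.Injective δ := by
    rw [injective_iff_map_eq_one]
    intro g hg
    refine h6 g (χ g) ?_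
    have h8 : (ρ (δ g) : H →L[ℂ] H) = 1 := by
      refine ext_vec V b hb (hρV _) (fun v => by rw [one_mul, mul_one]) ?_
      rw [hρ1, hg, inv_one, op_one]
    rw [hkey g, h8, mul_one, hww]
  have hsurj : Function.Surjective δ := by
    intro v
    -- the closed span of the vectors `b u`, `u` in the range
    set S : Set H := {x | ∃ u ∈ δ.range, x = b u} with hS
    set P : H →L[ℂ] H := (cl S).starProjection with hP
    have hPs : star P = P := (isStarProjection_starProjection (U := cl S)).isSelfAdjoint.star_eq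
    have hb1 : b 1 = ξ₀ := by
      rw [hb, op_one]
      rfl
    have hρb : ∀ v u, (ρ v : H →L[ℂ] H) (b u) = b (u * v⁻¹) := by
      intro v u
      have h8 : (ρ v : H →L[ℂ] H) (op V u ξ₀) = op V u ((ρ v : H →L[ℂ] H) ξ₀) :=
        congrArg (fun A : H →L[ℂ] H => A ξ₀) (hρV v u)
      rw [hb, h8, hρ1, hb, op_mul]
      rfl
    have hinv : ∀ v ∈ δ.range, ∀ x ∈ cl S, (ρ v : H →L[ℂ] H) x ∈ cl S := by
      intro v hv x hx
      refine map_cl ?_ hx
      rintro _ ⟨u, hu, rfl⟩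
      rw [hρb]
      exact subset_cl _ ⟨_, mul_mem hu (inv_mem hv), rfl⟩
    have hstar : ∀ v, star (ρ v : H →L[ℂ] H) = ρ v⁻¹ := by
      intro v
      have h8 : (ρ v⁻¹ : H →L[ℂ] H) * ρ v = 1 := by
        refine ext_basis b fun u => ?_
        show (ρ v⁻¹ : H →L[ℂ] H) ((ρ v : H →L[ℂ] H) (b u)) = b u
        rw [hρb, hρb, inv_inv, inv_mul_cancel_right]
      have h9 : (ρ v : H →L[ℂ] H) * star (ρ v : H →L[ℂ] H) = 1 := Unitary.coe_mul_star_self (ρ v)
      calc star (ρ v : H →L[ℂ] H) = ((ρ v⁻¹ : H →L[ℂ] H) * ρ v) * star (ρ v : H →L[ℂ] H) := by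
            rw [h8, one_mul]
        _ = ρ v⁻¹ := by rw [mul_assoc, h9, mul_one]
    have hcomm : ∀ v ∈ δ.range, P * ρ v = ρ v * P := by
      have h8 : ∀ v ∈ δ.range, P * ρ v * P = ρ v * P := by
        intro v hv
        ext x
        show P ((ρ v : H →L[ℂ] H) (P x)) = _
        rw [hP, Submodule.starProjection_eq_self_iff.2
          (hinv v hv _ (Submodule.starProjection_apply_mem _ _))]
        rfl
      intro v hv
      have h9 := congrArg star (h8 v⁻¹ (inv_mem hv))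
      rw [star_mul, star_mul, star_mul, hstar, inv_inv, hPs] at h9
      rw [← h8 v hv, mul_assoc, h9]
    -- hence `w P w*` commutes with `R`
    have h8 : ∀ g, ((w : H →L[ℂ] H) * P * star (w : H →L[ℂ] H)) * op R g =
        op R g * ((w : H →L[ℂ] H) * P * star (w : H →L[ℂ] H)) := by
      intro g
      have h9 := hcomm (δ g) ⟨g, rfl⟩
      rw [hkey g, mul_smul_comm, smul_mul_assoc]
      congr 1
      calc (w : H →L[ℂ] H) * P * star (w : H →L[ℂ] H) *
            ((w : H →L[ℂ] H) * (ρ (δ g)) * star (w : H →L[ℂ] H))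
          = (w : H →L[ℂ] H) * P * (star (w : H →L[ℂ] H) * (w : H →L[ℂ] H)) * (ρ (δ g)) *
              star (w : H →L[ℂ] H) := by noncomm_ring
        _ = (w : H →L[ℂ] H) * (P * ρ (δ g)) * star (w : H →L[ℂ] H) := by
              rw [hww']; noncomm_ring
        _ = (w : H →L[ℂ] H) * (ρ (δ g)) * (star (w : H →L[ℂ] H) * (w : H →L[ℂ] H)) * P *
              star (w : H →L[ℂ] H) := by rw [h9, hww']; noncomm_ring
        _ = _ := by noncomm_ring
    -- and `w ρ_v w*` commutes with `V`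
    have hwV' : ∀ u, star (w : H →L[ℂ] H) * op V u = op V u * star (w : H →L[ℂ] H) := by
      intro u
      calc star (w : H →L[ℂ] H) * op V u
          = star (w : H →L[ℂ] H) * op V u * ((w : H →L[ℂ] H) * star (w : H →L[ℂ] H)) := by
            rw [hww, mul_one]
        _ = star (w : H →L[ℂ] H) * (op V u * (w : H →L[ℂ] H)) * star (w : H →L[ℂ] H) := by
            noncomm_ring
        _ = (star (w : H →L[ℂ] H) * (w : H →L[ℂ] H)) * op V u * star (w : H →L[ℂ] H) := by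
            rw [← hwV]; noncomm_ring
        _ = _ := by rw [hww', one_mul]
    have h9 : ∀ u, ((w : H →L[ℂ] H) * (ρ v⁻¹) * star (w : H →L[ℂ] H)) * op V u =
        op V u * ((w : H →L[ℂ] H) * (ρ v⁻¹) * star (w : H →L[ℂ] H)) := by
      intro u
      rw [mul_assoc, hwV', mul_assoc, ← mul_assoc (ρ v⁻¹ : H →L[ℂ] H), hρV]
      rw [← mul_assoc (w : H →L[ℂ] H), ← mul_assoc (w : H →L[ℂ] H), hwV]
      noncomm_ring
    have h10 := h7 _ h8 _ h9
    have h11 : P * ρ v⁻¹ = ρ v⁻¹ * P := by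
      have h12 := congrArg (fun A => star (w : H →L[ℂ] H) * A * (w : H →L[ℂ] H)) h10
      calc P * (ρ v⁻¹ : H →L[ℂ] H) = (star (w : H →L[ℂ] H) * (w : H →L[ℂ] H)) * P *
            (star (w : H →L[ℂ] H) * (w : H →L[ℂ] H)) * ρ v⁻¹ *
              (star (w : H →L[ℂ] H) * (w : H →L[ℂ] H)) := by
            rw [hww', one_mul, mul_one, mul_one]
        _ = star (w : H →L[ℂ] H) * ((w : H →L[ℂ] H) * P * star (w : H →L[ℂ] H) *
              ((w : H →L[ℂ] H) * (ρ v⁻¹) * star (w : H →L[ℂ] H))) * (w : H →L[ℂ] H) := by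
            noncomm_ring
        _ = star (w : H →L[ℂ] H) * ((w : H →L[ℂ] H) * (ρ v⁻¹) * star (w : H →L[ℂ] H) *
              ((w : H →L[ℂ] H) * P * star (w : H →L[ℂ] H))) * (w : H →L[ℂ] H) := h12
        _ = (star (w : H →L[ℂ] H) * (w : H →L[ℂ] H)) * (ρ v⁻¹) *
              (star (w : H →L[ℂ] H) * (w : H →L[ℂ] H)) * P *
                (star (w : H →L[ℂ] H) * (w : H →L[ℂ] H)) := by noncomm_ring
        _ = _ := by rw [hww', one_mul, mul_one, mul_one]
    have h12 : P ξ₀ = ξ₀ := by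
      rw [hP]
      refine Submodule.starProjection_eq_self_iff.2 (subset_cl _ ⟨1, one_mem _, hb1.symm⟩)
    have h13 : b v ∈ cl S := by
      have h14 : P (b v) = b v := by
        have h15 : P ((ρ v⁻¹ : H →L[ℂ] H) ξ₀) = (ρ v⁻¹ : H →L[ℂ] H) (P ξ₀) :=
          congrArg (fun A : H →L[ℂ] H => A ξ₀) h11
        rw [h12, hρ1, inv_inv, ← hb] at h15
        exact h15
      rw [← h14]
      exact Submodule.starProjection_apply_mem _ _
    by_contra hcon
    have h14 : cl S ≤ (ℂ ∙ (b v))ᗮ := by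
      refine cl_le (Submodule.isClosed_orthogonal _) ?_
      rintro _ ⟨u, hu, rfl⟩
      rw [SetLike.mem_coe, Submodule.mem_orthogonal_singleton_iff_inner_right]
      refine b.orthonormal.2 ?_
      rintro rfl
      exact hcon hu
    have h15 := h14 h13
    rw [Submodule.mem_orthogonal_singleton_iff_inner_right, inner_self_eq_norm_sq_to_K,
      b.orthonormal.1] at h15
    norm_num at h15
  exact ⟨w, MulEquiv.ofBijective δ ⟨hinj, hsurj⟩, χ, hwV, hχ, hδ⟩

end Group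

end Vale.Agent.P092.H87
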