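import Mathlib

/-!
P092 (helper87), team N, [N-GAPB] (#6876 (2a)): the contraction lemma.

`k` any local field.  `m` is a probability measure on the `n × j` matrices `Y` (frames), for
instance Haar measure on the unit ball (`mY`, `frm_mY`).  For an element `h = U d V` of `GL_n(k)`
with `U, V, U⁻¹, V⁻¹` bounded and `‖d l‖ ≪ ‖d i‖` for `i < j ≤ l`, the frame `h Y` is close to
`U J` (`J` the first `j` columns of `1`) modulo `GL_j(k)`, for all `Y` outside a set of small
measure, uniformly.  So for each bounded function `G` of frames, continuous on the injective ones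
and invariant under `GL_j(k)`, `∫ G (h f Y) - ∫ G (h Y) → 0` for all fixed `f`.
-/

set_option linter.all false

open Matrix MeasureTheory Topology Filter

namespace Vale.Agent.P092.H87.Contr

section alg

variable {k : Type} [NontriviallyNormedField k]

theorem norm_det_le {j : ℕ} {B : ℝ} (hB : 0 ≤ B) (M : Matrix (Fin j) (Fin j) k)
    (h : ∀ a b, ‖M a b‖ ≤ B) : ‖M.det‖ ≤ j.factorial * B ^ j := by
  rw [det_apply]
  refine (norm_sum_le _ _).trans ?_
  have h1 : ∀ σ ∈ (Finset.univ : Finset (Equiv.Perm (Fin j))),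
      ‖Equiv.Perm.sign σ • ∏ i, M (σ i) i‖ ≤ B ^ j := by
    intro σ _
    have e : ‖Equiv.Perm.sign σ • ∏ i, M (σ i) i‖ = ‖∏ i, M (σ i) i‖ := by
      rcases Int.units_eq_one_or (Equiv.Perm.sign σ) with h | h <;> rw [h] <;> simp
    rw [e, norm_prod]
    calc ∏ i, ‖M (σ i) i‖ ≤ ∏ _i : Fin j, B :=
          Finset.prod_le_prod (fun _ _ => norm_nonneg _) fun i _ => h _ _
      _ = B ^ j := by simp
  refine (Finset.sum_le_sum h1).trans ?_
  simp [Finset.card_univ, Fintype.card_perm]

theorem norm_adj_le {j : ℕ} {B : ℝ} (hB : 1 ≤ B) (M : Matrix (Fin j) (Fin j) k)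
    (h : ∀ a b, ‖M a b‖ ≤ B) (a b : Fin j) : ‖M.adjugate a b‖ ≤ j.factorial * B ^ j := by
  rw [adjugate_apply]
  refine norm_det_le (by linarith) _ fun a' b' => ?_
  rw [updateRow_apply]
  split_ifs with e
  · rw [Pi.single_apply]
    split_ifs
    · rw [norm_one]; exact hB
    · rw [norm_zero]; linarith
  · exact h _ _

/-- the first `j` rows -/
def top {n j : ℕ} (hj : j ≤ n) (Y : Matrix (Fin n) (Fin j) k) : Matrix (Fin j) (Fin j) k :=
  fun a b => Y (Fin.castLE hj a) b

/-- the first `j` columns of `1` -/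
def J (k : Type) [NontriviallyNormedField k] (n j : ℕ) : Matrix (Fin n) (Fin j) k :=
  fun a b => if (a : ℕ) = (b : ℕ) then 1 else 0

/-- the injective frames -/
def Inj (k : Type) [NontriviallyNormedField k] (n j : ℕ) : Set (Matrix (Fin n) (Fin j) k) :=
  {Y | ∃ L : Matrix (Fin j) (Fin n) k, L * Y = 1}

theorem top_J {n j : ℕ} (hj : j ≤ n) : top hj (J k n j) = 1 := by
  ext a b
  simp [top, J, Matrix.one_apply, Fin.ext_iff]

theorem top_add {n j : ℕ} (hj : j ≤ n) (Y Z : Matrix (Fin n) (Fin j) k) :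
    top hj (Y + Z) = top hj Y + top hj Z := rfl

theorem top_smul {n j : ℕ} (hj : j ≤ n) (s : k) (Y : Matrix (Fin n) (Fin j) k) :
    top hj (s • Y) = s • top hj Y := rfl

theorem top_mul {n j : ℕ} (hj : j ≤ n) (Y : Matrix (Fin n) (Fin j) k)
    (g : Matrix (Fin j) (Fin j) k) : top hj (Y * g) = top hj Y * g := by
  ext a b
  simp [top, Matrix.mul_apply]

/-- `top` is the multiplication by the matrix of the projection -/
theorem top_eq {n j : ℕ} (hj : j ≤ n) (Y : Matrix (Fin n) (Fin j) k) :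
    (J k n j)ᵀ * Y = top hj Y := by
  ext a b
  rw [Matrix.mul_apply, Finset.sum_eq_single (Fin.castLE hj a)]
  · simp [J, top]
  · intro x _ hx
    have : (x : ℕ) ≠ (a : ℕ) := fun e => hx (Fin.ext e)
    simp [J, this]
  · simp

theorem inj_of_top {n j : ℕ} (hj : j ≤ n) {Y : Matrix (Fin n) (Fin j) k}
    (h : (top hj Y).det ≠ 0) : Y ∈ Inj k n j := by
  refine ⟨(top hj Y)⁻¹ * (J k n j)ᵀ, ?_⟩
  rw [Matrix.mul_assoc, top_eq hj, nonsing_inv_mul _ (isUnit_iff_ne_zero.2 h)]

theorem inj_mul {n j : ℕ} {Y : Matrix (Fin n) (Fin j) k} (h : Y ∈ Inj k n j)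
    {V V' : Matrix (Fin n) (Fin n) k} (hV : V' * V = 1) : V * Y ∈ Inj k n j := by
  obtain ⟨L, hL⟩ := h
  refine ⟨L * V', ?_⟩
  calc L * V' * (V * Y) = L * (V' * V) * Y := by simp only [Matrix.mul_assoc]
    _ = 1 := by rw [hV, Matrix.mul_one, hL]

theorem J_mem {n j : ℕ} (hj : j ≤ n) : J k n j ∈ Inj k n j :=
  inj_of_top hj (by rw [top_J, det_one]; exact one_ne_zero)

theorem isOpen_Inj (n j : ℕ) : IsOpen (Inj k n j) := by
  rw [isOpen_iff_mem_nhds]
  rintro Y ⟨L, hL⟩
  have hc : Continuous fun Z : Matrix (Fin n) (Fin j) k => (L * Z).det :=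
    (continuous_const.matrix_mul continuous_id).matrix_det
  have h0 : {Z : Matrix (Fin n) (Fin j) k | (L * Z).det ≠ 0} ∈ 𝓝 Y :=
    (isOpen_ne.preimage hc).mem_nhds (by simp [hL])
  refine mem_of_superset h0 fun Z hZ => ⟨(L * Z)⁻¹ * L, ?_⟩
  rw [Matrix.mul_assoc, nonsing_inv_mul _ (isUnit_iff_ne_zero.2 hZ)]

theorem continuous_top {n j : ℕ} (hj : j ≤ n) :
    Continuous (top hj : Matrix (Fin n) (Fin j) k → _) := by
  refine continuous_matrix fun a b => ?_
  exact (continuous_id.matrix_elem (Fin.castLE hj a) b)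

end alg

section meas

variable {k : Type} [NontriviallyNormedField k] [ProperSpace k] [MeasurableSpace k]
  [BorelSpace k]

/-- The conditions on the measure on the frames: a probability measure, on the unit ball, such
that `V Y` is in general position for almost all `Y`, for all invertible `V`. -/
structure Frm {n j : ℕ} (hj : j ≤ n) (m : Measure (Fin n → Fin j → k)) : Prop where
  prob : IsProbabilityMeasure m
  bd : ∀ᵐ Y ∂m, ∀ a b, ‖Y a b‖ ≤ 1
  gen : ∀ V V' : Matrix (Fin n) (Fin n) k, V * V' = 1 →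
    ∀ᵐ Y ∂m, (top hj (V * Matrix.of Y)).det ≠ 0

/-- General position, for Haar measure. -/
theorem gen_haar {n j : ℕ} (hj : j ≤ n) (ν : Measure (Fin n → Fin j → k)) [SFinite ν]
    [ν.IsAddLeftInvariant] (V V' : Matrix (Fin n) (Fin n) k) (hV : V * V' = 1) :
    ∀ᵐ Y ∂ν, (top hj (V * Matrix.of Y)).det ≠ 0 := by
  set A : Set (Fin n → Fin j → k) := {Y | (top hj (V * Matrix.of Y)).det = 0} with hA
  let μ : Measure k := Measure.addHaar
  let Y1 : Fin n → Fin j → k := V' * J k n j
  have hcont : Continuous fun z : (Fin n → Fin j → k) =>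
      (top hj (V * Matrix.of z)).det :=
    ((continuous_top hj).comp (continuous_const.matrix_mul continuous_id)).matrix_det
  have hcl : IsClosed A := isClosed_eq hcont continuous_const
  let S : Set ((Fin n → Fin j → k) × k) := {z | z.2 • Y1 + z.1 ∈ A}
  have hS : MeasurableSet S := by
    have : Continuous fun z : (Fin n → Fin j → k) × k => z.2 • Y1 + z.1 :=
      (continuous_snd.smul continuous_const).add continuous_fst
    exact (hcl.preimage this).measurableSet
  have h1 : (ν.prod μ) S = 0 := by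
    rw [Measure.measure_prod_null hS]
    refine Eventually.of_forall fun Y => ?_
    have hfin : (Prod.mk Y ⁻¹' S).Finite := by
      set M : Matrix (Fin j) (Fin j) k := top hj (V * Matrix.of Y) with hM
      have hsub : Prod.mk Y ⁻¹' S ⊆ {s : k | (-M).charpoly.IsRoot s} := by
        intro s hs
        have e1 : (top hj (V * Matrix.of (s • Y1 + Y))).det = 0 := hs
        have e2 : V * Matrix.of (s • Y1 + Y) = s • J k n j + V * Matrix.of Y := by
          have : (Matrix.of (s • Y1 + Y) : Matrix (Fin n) (Fin j) k)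
              = s • (V' * J k n j) + Matrix.of Y := rfl
          rw [this, Matrix.mul_add, Matrix.mul_smul, ← Matrix.mul_assoc, hV, Matrix.one_mul]
        rw [e2, top_add, top_smul, top_J] at e1
        show (-M).charpoly.eval s = 0
        rw [eval_charpoly, sub_neg_eq_add, ← e1]
        congr 2
        ext a b
        simp [Matrix.one_apply, Matrix.diagonal_apply]
      refine Set.Finite.subset ?_ hsub
      exact Polynomial.finite_setOf_isRoot (charpoly_monic _).ne_zero
    exact hfin.measure_zero μ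
  have h2 : (μ.prod ν) (Prod.swap ⁻¹' S) = 0 := by
    rw [← Measure.prod_swap (μ := μ) (ν := ν), Measure.map_apply measurable_swap hS] at h1
    exact h1
  rw [Measure.measure_prod_null (measurable_swap hS)] at h2
  have h3 : ∀ s : k, ν (Prod.mk s ⁻¹' (Prod.swap ⁻¹' S)) = ν A := fun s =>
    measure_preimage_add ν (s • Y1) A
  have h4 : ∀ᵐ s ∂μ, ν A = 0 := by
    filter_upwards [h2] with s hs
    rw [← h3 s]; exact hs
  have h5 : ν A = 0 := by
    by_contra hne
    have : μ Set.univ = 0 := by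
      rw [ae_iff] at h4
      simpa [hne] using h4
    have h6 : μ (Metric.closedBall (0 : k) 1) = 0 := measure_mono_null (Set.subset_univ _) this
    exact (Metric.measure_closedBall_pos μ (0 : k) one_pos).ne' h6
  rw [ae_iff]
  convert h5 using 2
  ext Y
  simp [hA]

/-- Haar measure on the unit ball, normalised -/
noncomputable def mY (k : Type) [NontriviallyNormedField k] [ProperSpace k] [MeasurableSpace k]
    [BorelSpace k] (n j : ℕ) : Measure (Fin n → Fin j → k) :=
  ((Measure.addHaar : Measure (Fin n → Fin j → k)) (Metric.closedBall 0 1))⁻¹ •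
    (Measure.addHaar : Measure (Fin n → Fin j → k)).restrict (Metric.closedBall 0 1)

theorem frm_mY {n j : ℕ} (hj : j ≤ n) : Frm hj (mY k n j) where
  prob := by
    constructor
    rw [mY, Measure.smul_apply, Measure.restrict_apply_univ, smul_eq_mul]
    exact ENNReal.inv_mul_cancel (Metric.measure_closedBall_pos _ _ one_pos).ne'
      (isCompact_closedBall _ _).measure_lt_top.ne
  bd := by
    have h1 : ∀ᵐ Y ∂(Measure.addHaar : Measure (Fin n → Fin j → k)).restrict
        (Metric.closedBall 0 1), Y ∈ Metric.closedBall (0 : Fin n → Fin j → k) 1 :=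
      ae_restrict_mem Metric.isClosed_closedBall.measurableSet
    refine Measure.ae_smul_measure ?_ _
    filter_upwards [h1] with Y hY a b
    rw [mem_closedBall_zero_iff] at hY
    exact (norm_le_pi_norm (Y a) b).trans ((norm_le_pi_norm Y a).trans hY)
  gen := fun V V' hV =>
    Measure.ae_smul_measure (ae_restrict_of_ae (gen_haar hj _ V V' hV)) _

variable {n j : ℕ}

/-- the box of matrices with entries of norm at most `C` -/
def box (k : Type) [NontriviallyNormedField k] (n j : ℕ) (C : ℝ) :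
    Set (Matrix (Fin n) (Fin j) k) := {M | ∀ a b, ‖M a b‖ ≤ C}

theorem isCompact_box (C : ℝ) : IsCompact (box k n j C) := by
  have h : IsCompact (Set.univ.pi fun _ : Fin n => Set.univ.pi fun _ : Fin j =>
      Metric.closedBall (0 : k) C) :=
    isCompact_univ_pi fun _ => isCompact_univ_pi fun _ => isCompact_closedBall _ _
  have e : box k n j C = (Set.univ.pi fun _ : Fin n => Set.univ.pi fun _ : Fin j =>
      Metric.closedBall (0 : k) C) := by
    ext M
    constructor
    · intro hM a _ b _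
      exact mem_closedBall_zero_iff.2 (hM a b)
    · intro hM a b
      exact mem_closedBall_zero_iff.1 (hM a (Set.mem_univ a) b (Set.mem_univ b))
  rw [e]
  exact h

/-- the invertible matrices with bounded entries and bounded inverse -/
def gbox (k : Type) [NontriviallyNormedField k] (n : ℕ) (C : ℝ) :
    Set (Matrix (Fin n) (Fin n) k × Matrix (Fin n) (Fin n) k) :=
  (box k n n C ×ˢ box k n n C) ∩ {p | p.1 * p.2 = 1}

theorem isCompact_gbox (C : ℝ) : IsCompact (gbox k n C) :=
  ((isCompact_box C).prod (isCompact_box C)).inter_right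
    (isClosed_eq (continuous_fst.matrix_mul continuous_snd) continuous_const)

/-- the size of the top minor of `V Y` -/
noncomputable def tp (hj : j ≤ n) (V : Matrix (Fin n) (Fin n) k) (Y : Fin n → Fin j → k) : ℝ :=
  ‖(top hj (V * Matrix.of Y)).det‖

theorem continuous_tp (hj : j ≤ n) : Continuous fun z : Matrix (Fin n) (Fin n) k ×
    (Fin n → Fin j → k) => tp hj z.1 z.2 := by
  refine Continuous.norm ?_
  exact ((continuous_top hj).comp (continuous_fst.matrix_mul continuous_snd)).matrix_det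

theorem tp_local {hj : j ≤ n} {m : Measure (Fin n → Fin j → k)} [IsFiniteMeasure m]
    {V : Matrix (Fin n) (Fin n) k} (hV : ∀ᵐ Y ∂m, tp hj V Y ≠ 0) {η : ENNReal} (hη : 0 < η) :
    ∀ᶠ z : ℝ × Matrix (Fin n) (Fin n) k in 𝓝 ((0 : ℝ), V), m {Y | tp hj z.2 Y < z.1} < η := by
  have h2 : Tendsto (fun z : ℝ × Matrix (Fin n) (Fin n) k => m {Y | tp hj z.2 Y < z.1})
      (𝓝 ((0 : ℝ), V)) (𝓝 (m ∅)) := by
    haveI : FirstCountableTopology (Matrix (Fin n) (Fin n) k) :=
      inferInstanceAs (FirstCountableTopology (Fin n → Fin n → k))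
    refine tendsto_measure_of_ae_tendsto_indicator_of_isFiniteMeasure _
      MeasurableSet.empty (fun z => ?_) ?_
    · have : Continuous fun Y : Fin n → Fin j → k => tp hj z.2 Y :=
        (continuous_tp hj).comp (Continuous.prodMk continuous_const continuous_id)
      exact (isOpen_Iio.preimage this).measurableSet
    · filter_upwards [hV] with Y hY
      have hc2 : Continuous fun z : ℝ × Matrix (Fin n) (Fin n) k => tp hj z.2 Y - z.1 :=
        ((continuous_tp hj).comp (Continuous.prodMk continuous_snd continuous_const)).sub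
          continuous_fst
      have h3 : ∀ᶠ z : ℝ × Matrix (Fin n) (Fin n) k in 𝓝 ((0 : ℝ), V),
          0 < tp hj z.2 Y - z.1 := by
        refine (hc2.tendsto _).eventually (lt_mem_nhds ?_)
        show 0 < tp hj V Y - 0
        rw [sub_zero]
        exact lt_of_le_of_ne (norm_nonneg _) (Ne.symm hY)
      filter_upwards [h3] with z hz
      simp only [Set.mem_setOf_eq, Set.mem_empty_iff_false, iff_false, not_lt]
      linarith
  rw [measure_empty] at h2
  exact h2.eventually (gt_mem_nhds hη)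

/-- **Uniform general position.** -/
theorem null_top {hj : j ≤ n} {m : Measure (Fin n → Fin j → k)} (hm : Frm hj m) (C : ℝ)
    {η : ℝ} (hη : 0 < η) : ∃ c : ℝ, 0 < c ∧ ∀ V V' : Matrix (Fin n) (Fin n) k,
      (∀ a b, ‖V a b‖ ≤ C) → (∀ a b, ‖V' a b‖ ≤ C) → V * V' = 1 →
        m {Y | ‖(top hj (V * Matrix.of Y)).det‖ < c} < ENNReal.ofReal η := by
  have := hm.prob
  have hK : IsCompact (Prod.fst '' gbox k n C) := (isCompact_gbox C).image continuous_fst
  have h := hK.eventually_forall_of_forall_eventually (x₀ := (0 : ℝ))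
    (P := fun c V => m {Y | tp hj V Y < c} < ENNReal.ofReal η) (by
      rintro V ⟨p, hp, rfl⟩
      refine tp_local ?_ (ENNReal.ofReal_pos.2 hη)
      filter_upwards [hm.gen p.1 p.2 hp.2] with Y hY
      exact (norm_pos_iff.2 hY).ne')
  obtain ⟨δ, hδ, hh⟩ := Metric.eventually_nhds_iff.1 h
  refine ⟨δ / 2, half_pos hδ, fun V V' hV hV' e => ?_⟩
  refine hh (y := δ / 2) ?_ V ⟨(V, V'), ⟨⟨hV, hV'⟩, e⟩, rfl⟩
  rw [Real.dist_eq, sub_zero, abs_of_pos (half_pos hδ)]
  linarith

/-- The functions of frames: bounded, continuous on the injective frames, invariant under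
`GL_j(k)`. -/
structure Gf (G : Matrix (Fin n) (Fin j) k → ℝ) : Prop where
  le : ∀ Y ∈ Inj k n j, |G Y| ≤ 1
  cont : ContinuousOn G (Inj k n j)
  inv : ∀ Y ∈ Inj k n j, ∀ g g' : Matrix (Fin j) (Fin j) k, g * g' = 1 → G (Y * g) = G Y

theorem Gf.contAt {G : Matrix (Fin n) (Fin j) k → ℝ} (hG : Gf G)
    {Y : Matrix (Fin n) (Fin j) k} (hY : Y ∈ Inj k n j) : ContinuousAt G Y :=
  hG.cont.continuousAt ((isOpen_Inj n j).mem_nhds hY)

theorem gbox_inv {C : ℝ} {U : Matrix (Fin n) (Fin n) k} (hU : U ∈ Prod.fst '' gbox k n C) :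
    ∃ U', (∀ a b, ‖U a b‖ ≤ C) ∧ (∀ a b, ‖U' a b‖ ≤ C) ∧ U * U' = 1 ∧ U' * U = 1 := by
  obtain ⟨p, hp, rfl⟩ := hU
  exact ⟨p.2, hp.1.1, hp.1.2, hp.2, mul_eq_one_comm.mp hp.2⟩

/-- Uniform continuity near the frames `U J`. -/
theorem Gf.unif (hj : j ≤ n) {G : Matrix (Fin n) (Fin j) k → ℝ} (hG : Gf G) (C : ℝ) {ε : ℝ}
    (hε : 0 < ε) : ∃ δ : ℝ, 0 < δ ∧ ∀ U U' : Matrix (Fin n) (Fin n) k,
      (∀ a b, ‖U a b‖ ≤ C) → (∀ a b, ‖U' a b‖ ≤ C) → U * U' = 1 →
      ∀ E : Matrix (Fin n) (Fin j) k, (∀ a b, ‖E a b‖ ≤ δ) →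
        |G (U * (J k n j + E)) - G (U * J k n j)| < ε := by
  have hK : IsCompact (Prod.fst '' gbox k n C) := (isCompact_gbox C).image continuous_fst
  have h := hK.eventually_forall_of_forall_eventually (x₀ := (0 : Fin n → Fin j → k))
    (P := fun E U => |G (U * (J k n j + Matrix.of E)) - G (U * J k n j)| < ε) (by
      intro U hU
      obtain ⟨U', -, -, -, e⟩ := gbox_inv hU
      have hmem : U * J k n j ∈ Inj k n j := inj_mul (J_mem hj) e
      have hcA := hG.contAt hmem
      have f1 : ContinuousAt (fun z : (Fin n → Fin j → k) × Matrix (Fin n) (Fin n) k =>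
          G (z.2 * (J k n j + Matrix.of z.1))) ((0 : Fin n → Fin j → k), U) := by
        have hc : Continuous fun z : (Fin n → Fin j → k) × Matrix (Fin n) (Fin n) k =>
            z.2 * (J k n j + Matrix.of z.1) :=
          continuous_snd.matrix_mul (continuous_const.add continuous_fst)
        refine ContinuousAt.comp (f := fun z : (Fin n → Fin j → k) × Matrix (Fin n) (Fin n) k =>
            z.2 * (J k n j + Matrix.of z.1)) (g := G) ?_ hc.continuousAt
        have e0 : U * (J k n j + Matrix.of (0 : Fin n → Fin j → k)) = U * J k n j := by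
          have : (Matrix.of (0 : Fin n → Fin j → k) : Matrix (Fin n) (Fin j) k) = 0 := rfl
          rw [this, add_zero]
        simp only [e0]
        exact hcA
      have f2 : ContinuousAt (fun z : (Fin n → Fin j → k) × Matrix (Fin n) (Fin n) k =>
          G (z.2 * J k n j)) ((0 : Fin n → Fin j → k), U) := by
        have hc : Continuous fun z : (Fin n → Fin j → k) × Matrix (Fin n) (Fin n) k =>
            z.2 * J k n j := continuous_snd.matrix_mul continuous_const
        exact ContinuousAt.comp (f := fun z : (Fin n → Fin j → k) × Matrix (Fin n) (Fin n) k =>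
            z.2 * J k n j) (g := G) hcA hc.continuousAt
      have f3 := (f1.sub f2).abs
      refine f3.eventually (gt_mem_nhds ?_)
      have e0 : (Matrix.of (0 : Fin n → Fin j → k) : Matrix (Fin n) (Fin j) k) = 0 := rfl
      simp only [Pi.sub_apply, e0, add_zero, sub_self, abs_zero]
      exact hε)
  obtain ⟨δ, hδ, hh⟩ := Metric.eventually_nhds_iff.1 h
  refine ⟨δ / 2, half_pos hδ, fun U U' hU hU' e E hE => ?_⟩
  have hE' : ∀ E : Fin n → Fin j → k, (∀ a b, ‖E a b‖ ≤ δ / 2) → dist E 0 < δ := by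
    intro E hE
    rw [dist_zero_right]
    refine lt_of_le_of_lt ?_ (half_lt_self hδ)
    rw [pi_norm_le_iff_of_nonneg (half_pos hδ).le]
    intro a
    rw [pi_norm_le_iff_of_nonneg (half_pos hδ).le]
    exact hE a
  exact hh (y := E) (hE' E hE) U ⟨(U, U'), ⟨⟨hU, hU'⟩, e⟩, rfl⟩

theorem norm_inv_le {B c : ℝ} (hB : 1 ≤ B) (hc : 0 < c) (P : Matrix (Fin j) (Fin j) k)
    (h : ∀ a b, ‖P a b‖ ≤ B) (hdet : c ≤ ‖P.det‖) (a b : Fin j) :
    ‖P⁻¹ a b‖ ≤ j.factorial * B ^ j / c := by
  rw [inv_def, Ring.inverse_eq_inv', Matrix.smul_apply, smul_eq_mul, norm_mul, norm_inv]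
  rw [div_eq_inv_mul]
  refine mul_le_mul ?_ (norm_adj_le hB P h a b) (norm_nonneg _) (inv_nonneg.2 hc.le)
  exact inv_anti₀ hc hdet

/-- **The pointwise contraction.** -/
theorem contr (hj : j ≤ n) {B c T : ℝ} (hB : 1 ≤ B) (hc : 0 < c) (hT0 : 0 < T) {d : Fin n → k}
    (hd : ∀ i, d i ≠ 0)
    (hT : ∀ i l : Fin n, (i : ℕ) < j → j ≤ (l : ℕ) → T * ‖d l‖ ≤ ‖d i‖)
    {W : Matrix (Fin n) (Fin j) k} (hW : ∀ a b, ‖W a b‖ ≤ B) (hdet : c ≤ ‖(top hj W).det‖) :
    ∃ (g g' : Matrix (Fin j) (Fin j) k) (E : Matrix (Fin n) (Fin j) k), g * g' = 1 ∧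
      diagonal d * W * g = J k n j + E ∧
      ∀ a b, ‖E a b‖ ≤ j * (B * (j.factorial * B ^ j / c)) / T := by
  set P : Matrix (Fin j) (Fin j) k := top hj W with hP
  have hdP : IsUnit P.det := isUnit_iff_ne_zero.2 (norm_pos_iff.1 (hc.trans_le hdet))
  have hdd : diagonal (fun b : Fin j => (d (Fin.castLE hj b))⁻¹) *
      diagonal (fun b : Fin j => d (Fin.castLE hj b)) = (1 : Matrix (Fin j) (Fin j) k) := by
    rw [diagonal_mul_diagonal, ← diagonal_one]
    refine congrArg diagonal (funext fun b => ?_)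
    exact inv_mul_cancel₀ (hd _)
  have hbd : ∀ (a : Fin n) (b : Fin j), ‖(W * P⁻¹) a b‖ ≤ j * (B * (j.factorial * B ^ j / c)) := by
    intro a b
    rw [Matrix.mul_apply]
    refine (norm_sum_le _ _).trans ?_
    refine (Finset.sum_le_card_nsmul _ _ (B * (j.factorial * B ^ j / c)) fun x _ => ?_).trans ?_
    · rw [norm_mul]
      exact mul_le_mul (hW a x) (norm_inv_le hB hc P (fun a b => hW _ b) hdet x b)
        (norm_nonneg _) (by linarith)
    · simp
  have hnn : 0 ≤ j * (B * (j.factorial * B ^ j / c)) / T := by positivity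
  refine ⟨P⁻¹ * diagonal fun b => (d (Fin.castLE hj b))⁻¹,
    (diagonal fun b => d (Fin.castLE hj b)) * P,
    diagonal d * W * (P⁻¹ * diagonal fun b => (d (Fin.castLE hj b))⁻¹) - J k n j, ?_, ?_, ?_⟩
  · calc P⁻¹ * diagonal (fun b => (d (Fin.castLE hj b))⁻¹) *
          (diagonal (fun b => d (Fin.castLE hj b)) * P)
        = P⁻¹ * (diagonal (fun b => (d (Fin.castLE hj b))⁻¹) *
          diagonal (fun b => d (Fin.castLE hj b))) * P := by simp only [Matrix.mul_assoc]
      _ = 1 := by rw [hdd, Matrix.mul_one, nonsing_inv_mul _ hdP]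
  · rw [add_sub_cancel]
  · intro a b
    have e1 : (diagonal d * W * (P⁻¹ * diagonal fun b => (d (Fin.castLE hj b))⁻¹)) a b
        = d a * (W * P⁻¹) a b * (d (Fin.castLE hj b))⁻¹ := by
      have : diagonal d * W * (P⁻¹ * diagonal fun b => (d (Fin.castLE hj b))⁻¹)
          = diagonal d * (W * P⁻¹) * diagonal fun b => (d (Fin.castLE hj b))⁻¹ := by
        simp only [Matrix.mul_assoc]
      rw [this, mul_diagonal, diagonal_mul]
    rw [Matrix.sub_apply, e1]
    by_cases ha : (a : ℕ) < j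
    · have e2 : (W * P⁻¹) a b = (1 : Matrix (Fin j) (Fin j) k) ⟨a, ha⟩ b := by
        rw [← mul_nonsing_inv P hdP, hP, ← top_mul]
        rfl
      rw [e2, Matrix.one_apply]
      by_cases hab : (⟨a, ha⟩ : Fin j) = b
      · have h1 : (a : ℕ) = b := by rw [← hab]
        have h2 : Fin.castLE hj b = a := Fin.ext (by simp [h1])
        rw [if_pos hab, h2, mul_one, mul_inv_cancel₀ (hd a)]
        simp only [J, if_pos h1, sub_self, norm_zero]
        exact hnn
      · have h1 : ¬ (a : ℕ) = b := fun e => hab (Fin.ext e)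
        rw [if_neg hab]
        simp only [J, if_neg h1, mul_zero, zero_mul, sub_self, norm_zero]
        exact hnn
    · have h1 : ¬ (a : ℕ) = b := fun e => ha (e ▸ b.2)
      simp only [J, if_neg h1, sub_zero]
      rw [norm_mul, norm_mul, norm_inv]
      have hb : 0 < ‖d (Fin.castLE hj b)‖ := norm_pos_iff.2 (hd _)
      have h2 : T * ‖d a‖ ≤ ‖d (Fin.castLE hj b)‖ := hT _ _ (by simp) (not_lt.1 ha)
      have h3 : ‖d a‖ * ‖d (Fin.castLE hj b)‖⁻¹ ≤ 1 / T := by
        rw [← div_eq_mul_inv, div_le_div_iff₀ hb hT0]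
        linarith
      calc ‖d a‖ * ‖(W * P⁻¹) a b‖ * ‖d (Fin.castLE hj b)‖⁻¹
          = (‖d a‖ * ‖d (Fin.castLE hj b)‖⁻¹) * ‖(W * P⁻¹) a b‖ := by ring
        _ ≤ 1 / T * (j * (B * (j.factorial * B ^ j / c))) :=
            mul_le_mul h3 (hbd a b) (norm_nonneg _) (by positivity)
        _ = _ := by ring

/-- Measurability. -/
theorem Gf.aesm {hj : j ≤ n} {m : Measure (Fin n → Fin j → k)} (hm : Frm hj m)
    {G : Matrix (Fin n) (Fin j) k → ℝ} (hG : Gf G) {A A' : Matrix (Fin n) (Fin n) k}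
    (hA : A' * A = 1) : AEStronglyMeasurable (fun Y : Fin n → Fin j → k => G (A * Matrix.of Y)) m
    := by
  set O : Set (Fin n → Fin j → k) := {Y | tp hj 1 Y ≠ 0} with hO
  have hopen : IsOpen O := isOpen_ne.preimage
    ((continuous_tp hj).comp (Continuous.prodMk continuous_const continuous_id))
  have hae : ∀ᵐ Y ∂m, Y ∈ O := by
    filter_upwards [hm.gen 1 1 (Matrix.mul_one 1)] with Y hY
    exact (norm_pos_iff.2 hY).ne'
  rw [← Measure.restrict_eq_self_of_ae_mem hae]
  refine ContinuousOn.aestronglyMeasurable ?_ hopen.measurableSet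
  have hc : Continuous fun Y : Fin n → Fin j → k => A * Matrix.of Y :=
    continuous_const.matrix_mul continuous_id
  refine hG.cont.comp hc.continuousOn fun Y hY => ?_
  refine inj_mul (inj_of_top hj ?_) hA
  have : (top hj ((1 : Matrix (Fin n) (Fin n) k) * Matrix.of Y)).det ≠ 0 :=
    norm_ne_zero_iff.1 hY
  rwa [Matrix.one_mul] at this

theorem ae_inj {hj : j ≤ n} {m : Measure (Fin n → Fin j → k)} (hm : Frm hj m)
    {A A' : Matrix (Fin n) (Fin n) k} (hA : A' * A = 1) :
    ∀ᵐ Y ∂m, A * Matrix.of Y ∈ Inj k n j := by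
  filter_upwards [hm.gen 1 1 (Matrix.mul_one 1)] with Y hY
  refine inj_mul (inj_of_top hj ?_) hA
  rwa [Matrix.one_mul] at hY

theorem Gf.integrable {hj : j ≤ n} {m : Measure (Fin n → Fin j → k)} (hm : Frm hj m)
    {G : Matrix (Fin n) (Fin j) k → ℝ} (hG : Gf G) {A A' : Matrix (Fin n) (Fin n) k}
    (hA : A' * A = 1) : Integrable (fun Y : Fin n → Fin j → k => G (A * Matrix.of Y)) m := by
  have := hm.prob
  refine Integrable.of_bound (hG.aesm hm hA) 1 ?_
  filter_upwards [ae_inj hm hA] with Y hY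
  exact hG.le _ hY

/-- entries of products -/
theorem mul_le' {a b c : ℕ} {C D : ℝ} (hC : 0 ≤ C) {M : Matrix (Fin a) (Fin b) k}
    {N : Matrix (Fin b) (Fin c) k} (hM : ∀ x y, ‖M x y‖ ≤ C) (hN : ∀ x y, ‖N x y‖ ≤ D)
    (x : Fin a) (y : Fin c) : ‖(M * N) x y‖ ≤ b * (C * D) := by
  rw [Matrix.mul_apply]
  refine (norm_sum_le _ _).trans ?_
  refine (Finset.sum_le_card_nsmul _ _ (C * D) fun z _ => ?_).trans ?_
  · rw [norm_mul]
    exact mul_le_mul (hM x z) (hN z y) (norm_nonneg _) hC
  · simp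

/-- The decompositions: `h = U d V`, `U, V` and their inverses bounded by `C`, the gap at `j` of
`d` is at least `T`. -/
structure Dec (j : ℕ) (C T : ℝ) (h : Matrix (Fin n) (Fin n) k) (d : Fin n → k)
    (U U' V V' : Matrix (Fin n) (Fin n) k) : Prop where
  hU : ∀ a b, ‖U a b‖ ≤ C
  hU' : ∀ a b, ‖U' a b‖ ≤ C
  hV : ∀ a b, ‖V a b‖ ≤ C
  hV' : ∀ a b, ‖V' a b‖ ≤ C
  uu : U * U' = 1
  vv : V * V' = 1
  ne : ∀ i, d i ≠ 0
  gap : ∀ i l : Fin n, (i : ℕ) < j → j ≤ (l : ℕ) → T * ‖d l‖ ≤ ‖d i‖
  eq : h = U * diagonal d * V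

theorem Dec.inv {C T : ℝ} {h : Matrix (Fin n) (Fin n) k} {d : Fin n → k}
    {U U' V V' : Matrix (Fin n) (Fin n) k} (H : Dec j C T h d U U' V V') :
    V' * diagonal (fun i => (d i)⁻¹) * U' * h = 1 := by
  have e1 : V' * V = 1 := mul_eq_one_comm.mp H.vv
  have e2 : U' * U = 1 := mul_eq_one_comm.mp H.uu
  have e3 : diagonal (fun i => (d i)⁻¹) * diagonal d = (1 : Matrix (Fin n) (Fin n) k) := by
    rw [diagonal_mul_diagonal, ← diagonal_one]
    exact congrArg diagonal (funext fun i => inv_mul_cancel₀ (H.ne i))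
  rw [H.eq]
  calc V' * diagonal (fun i => (d i)⁻¹) * U' * (U * diagonal d * V)
      = V' * (diagonal (fun i => (d i)⁻¹) * (U' * U) * diagonal d) * V := by
        simp only [Matrix.mul_assoc]
    _ = 1 := by rw [e2, Matrix.mul_one, e3, Matrix.mul_one, e1]

/-- **The contraction: almost all frames go to `U J`.** -/
theorem con_pt {hj : j ≤ n} {m : Measure (Fin n → Fin j → k)} (hm : Frm hj m)
    {G : Matrix (Fin n) (Fin j) k → ℝ} (hG : Gf G) (C : ℝ) {ε : ℝ} (hε : 0 < ε) :
    ∃ T : ℝ, 0 < T ∧ ∀ (h : Matrix (Fin n) (Fin n) k) (d : Fin n → k)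
      (U U' V V' : Matrix (Fin n) (Fin n) k), Dec j C T h d U U' V V' →
        |(∫ Y, G (h * Matrix.of Y) ∂m) - G (U * J k n j)| ≤ ε := by
  have hprob := hm.prob
  obtain ⟨δ, hδ, hunif⟩ := hG.unif hj C (half_pos hε)
  obtain ⟨c, hc, hnull⟩ := null_top hm C (η := ε / 4) (by linarith)
  set B : ℝ := max 1 (n * (C * 1)) with hB
  have hB1 : 1 ≤ B := le_max_left _ _
  set K : ℝ := j * (B * (j.factorial * B ^ j / c)) with hK
  have hK0 : 0 ≤ K := by positivity
  refine ⟨(K + 1) / δ, by positivity, fun h d U U' V V' H => ?_⟩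
  have hint := hG.integrable hm H.inv
  have hint2 : Integrable (fun _ : Fin n → Fin j → k => G (U * J k n j)) m :=
    integrable_const _
  have e0 : (∫ Y, G (h * Matrix.of Y) ∂m) - G (U * J k n j)
      = ∫ Y, (G (h * Matrix.of Y) - G (U * J k n j)) ∂m := by
    rw [integral_sub hint hint2]
    simp
  set Bd : Set (Fin n → Fin j → k) := {Y | ‖(top hj (V * Matrix.of Y)).det‖ < c} with hBd
  have hBdm : MeasurableSet Bd := by
    have : Continuous fun Y : Fin n → Fin j → k => tp hj V Y :=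
      (continuous_tp hj).comp (Continuous.prodMk continuous_const continuous_id)
    exact (isOpen_Iio.preimage this).measurableSet
  have hUJ : U * J k n j ∈ Inj k n j := inj_mul (J_mem hj) (mul_eq_one_comm.mp H.uu)
  have hT0 : 0 < (K + 1) / δ := by positivity
  have hpt : ∀ᵐ Y ∂m, ‖G (h * Matrix.of Y) - G (U * J k n j)‖ ≤
      ε / 2 + Bd.indicator (fun _ => (2 : ℝ)) Y := by
    filter_upwards [hm.bd, ae_inj hm H.inv] with Y hY hYi
    by_cases hb : Y ∈ Bd
    · rw [Set.indicator_of_mem hb, Real.norm_eq_abs]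
      have h1 := hG.le _ hYi
      have h2 := hG.le _ hUJ
      have h3 := abs_sub (G (h * Matrix.of Y)) (G (U * J k n j))
      linarith
    · rw [Set.indicator_of_notMem hb, add_zero, Real.norm_eq_abs]
      have hW : ∀ a b, ‖(V * Matrix.of Y) a b‖ ≤ B := by
        intro a b
        have hC : 0 ≤ C := (norm_nonneg _).trans (H.hV a a)
        exact (mul_le' hC H.hV (fun x y => hY x y) a b).trans (le_max_right _ _)
      obtain ⟨g, g', E, hgg, hE, hEb⟩ := contr hj hB1 hc hT0 H.ne H.gap hW (not_lt.1 hb)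
      have hE2 : ∀ a b, ‖E a b‖ ≤ δ := by
        intro a b
        refine (hEb a b).trans ?_
        rw [div_div_eq_mul_div, div_le_iff₀ (by linarith : (0:ℝ) < K + 1)]
        nlinarith
      have e1 : G (h * Matrix.of Y) = G (U * (J k n j + E)) := by
        rw [← hG.inv _ hYi g g' hgg, ← hE, H.eq]
        congr 1
        simp only [Matrix.mul_assoc]
      rw [e1]
      exact (hunif U U' H.hU H.hU' H.uu E hE2).le
  have hind : Integrable (fun Y => ε / 2 + Bd.indicator (fun _ => (2 : ℝ)) Y) m :=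
    (integrable_const _).add ((integrable_const _).indicator hBdm)
  rw [e0]
  refine (norm_integral_le_of_norm_le hind hpt).trans ?_
  rw [integral_add (integrable_const _) ((integrable_const _).indicator hBdm),
    integral_indicator_const _ hBdm]
  have hmB : m.real Bd ≤ ε / 4 := by
    have := hnull V V' H.hV H.hV' H.vv
    exact ENNReal.toReal_le_of_le_ofReal (by linarith) this.le
  simp only [integral_const, probReal_univ, one_smul, smul_eq_mul]
  linarith

/-- **The contraction lemma.** -/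
theorem con {hj : j ≤ n} {m : Measure (Fin n → Fin j → k)} (hm : Frm hj m)
    {G : Matrix (Fin n) (Fin j) k → ℝ} (hG : Gf G) (C : ℝ)
    {f f' : Matrix (Fin n) (Fin n) k} (hf : f * f' = 1) {ε : ℝ} (hε : 0 < ε) :
    ∃ T : ℝ, 0 < T ∧ ∀ (h : Matrix (Fin n) (Fin n) k) (d : Fin n → k)
      (U U' V V' : Matrix (Fin n) (Fin n) k), Dec j C T h d U U' V V' →
        |(∫ Y, G (h * f * Matrix.of Y) ∂m) - ∫ Y, G (h * Matrix.of Y) ∂m| ≤ ε := by
  -- a bound of the entries of `f`, `f'`
  obtain ⟨F, hF0, hF, hF'⟩ : ∃ F : ℝ, 0 ≤ F ∧ (∀ a b, ‖f a b‖ ≤ F) ∧ ∀ a b, ‖f' a b‖ ≤ F := by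
    refine ⟨∑ a, ∑ b, (‖f a b‖ + ‖f' a b‖), Finset.sum_nonneg fun a _ =>
      Finset.sum_nonneg fun b _ => by positivity, fun a b => ?_, fun a b => ?_⟩
    · have h1 := Finset.single_le_sum (f := fun b => ‖f a b‖ + ‖f' a b‖)
        (fun b _ => by positivity) (Finset.mem_univ b)
      have h2 := Finset.single_le_sum (f := fun a => ∑ b, (‖f a b‖ + ‖f' a b‖))
        (fun a _ => Finset.sum_nonneg fun b _ => by positivity) (Finset.mem_univ a)
      have h3 := norm_nonneg (f' a b)
      linarith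
    · have h1 := Finset.single_le_sum (f := fun b => ‖f a b‖ + ‖f' a b‖)
        (fun b _ => by positivity) (Finset.mem_univ b)
      have h2 := Finset.single_le_sum (f := fun a => ∑ b, (‖f a b‖ + ‖f' a b‖))
        (fun a _ => Finset.sum_nonneg fun b _ => by positivity) (Finset.mem_univ a)
      have h3 := norm_nonneg (f a b)
      linarith
  set C' : ℝ := max C (max (n * (C * F)) (n * (F * C))) with hC'
  obtain ⟨T1, hT1, h1⟩ := con_pt hm hG C (half_pos hε)
  obtain ⟨T2, hT2, h2⟩ := con_pt hm hG C' (half_pos hε)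
  refine ⟨max T1 T2, lt_max_of_lt_left hT1, fun h d U U' V V' H => ?_⟩
  have H1 : Dec j C T1 h d U U' V V' :=
    { H with gap := fun i l hi hl => (mul_le_mul_of_nonneg_right (le_max_left _ _)
        (norm_nonneg _)).trans (H.gap i l hi hl) }
  have H2 : Dec j C' T2 (h * f) d U U' (V * f) (f' * V') :=
    { hU := fun a b => (H.hU a b).trans (le_max_left _ _)
      hU' := fun a b => (H.hU' a b).trans (le_max_left _ _)
      hV := fun a b => by
        have hC : 0 ≤ C := (norm_nonneg _).trans (H.hV a a)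
        exact (mul_le' hC H.hV hF a b).trans ((le_max_left _ _).trans (le_max_right _ _))
      hV' := fun a b =>
        (mul_le' hF0 hF' H.hV' a b).trans ((le_max_right _ _).trans (le_max_right _ _))
      uu := H.uu
      vv := by
        calc V * f * (f' * V') = V * (f * f') * V' := by simp only [Matrix.mul_assoc]
          _ = 1 := by rw [hf, Matrix.mul_one, H.vv]
      ne := H.ne
      gap := fun i l hi hl => (mul_le_mul_of_nonneg_right (le_max_right _ _)
        (norm_nonneg _)).trans (H.gap i l hi hl)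
      eq := by rw [H.eq]; simp only [Matrix.mul_assoc] }
  have a1 := h1 h d U U' V V' H1
  have a2 := h2 (h * f) d U U' (V * f) (f' * V') H2
  rw [abs_sub_le_iff] at a1 a2 ⊢
  constructor <;> linarith [a1.1, a1.2, a2.1, a2.2]

end meas

end Vale.Agent.P092.H87.Contr
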