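import Mathlib.Analysis.VonNeumannAlgebra.Basic
import Mathlib.Analysis.InnerProductSpace.l2Space
import Mathlib.Analysis.InnerProductSpace.PiL2
import Mathlib.Analysis.InnerProductSpace.Projection.FiniteDimensional
import Mathlib.LinearAlgebra.Eigenspace.Triangularizable
import Mathlib.Analysis.Complex.Polynomial.Basic

/-!
P092, block (END) of the products theorem, part A: projections of a von Neumann algebra,
minimal finite rank projections, minimal central projections.
-/

open scoped InnerProductSpace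

namespace Vale.Agent.P092.H87

set_option linter.unusedSectionVars false
set_option linter.style.haveILetI false

variable {H : Type*} [NormedAddCommGroup H] [InnerProductSpace ℂ H] [CompleteSpace H]

/-- the projection on a closed subspace invariant under the commutant is in the algebra -/
lemma starProj_mem {D : VonNeumannAlgebra H} (K : Submodule ℂ H) [K.HasOrthogonalProjection]
    (hK : ∀ y ∈ D.commutant, ∀ x ∈ K, y x ∈ K) : K.starProjection ∈ D := by
  have h : IsStarProjection K.starProjection := isStarProjection_starProjection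
  rw [VonNeumannAlgebra.IsStarProjection.mem_iff h]
  intro y hy
  rw [Submodule.range_starProjection]
  intro x hx
  exact hK y hy x hx

/-- the projection on a closed subspace invariant under the algebra is in the commutant -/
lemma starProj_mem' {D : VonNeumannAlgebra H} (K : Submodule ℂ H) [K.HasOrthogonalProjection]
    (hK : ∀ y ∈ D, ∀ x ∈ K, y x ∈ K) : K.starProjection ∈ D.commutant := by
  refine starProj_mem K fun y hy x hx => hK y ?_ x hx
  rwa [VonNeumannAlgebra.commutant_commutant] at hy

lemma comm_of {D : VonNeumannAlgebra H} {T y : H →L[ℂ] H} (hT : T ∈ D) (hy : y ∈ D.commutant)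
    (x : H) : y (T x) = T (y x) := by
  have h := VonNeumannAlgebra.mem_commutant_iff.1 hy T hT
  exact (congrArg (fun A : H →L[ℂ] H => A x) h).symm

/-- the closed subspace spanned by a set -/
noncomputable def cl (S : Set H) : Submodule ℂ H := (Submodule.span ℂ S).topologicalClosure

instance (S : Set H) : (cl S).HasOrthogonalProjection := by
  haveI : CompleteSpace (cl S) :=
    (Submodule.isClosed_topologicalClosure (Submodule.span ℂ S)).completeSpace_coe
  infer_instance

lemma subset_cl (S : Set H) {x : H} (hx : x ∈ S) : x ∈ cl S :=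
  Submodule.le_topologicalClosure _ (Submodule.subset_span hx)

lemma cl_le {S : Set H} {K : Submodule ℂ H} (hK : IsClosed (K : Set H)) (h : S ⊆ K) :
    cl S ≤ K :=
  Submodule.topologicalClosure_minimal _ (Submodule.span_le.2 h) hK

/-- two operators which agree on a set agree on its closed span -/
lemma eqOn_cl {S : Set H} {A B : H →L[ℂ] H} (h : ∀ x ∈ S, A x = B x) {x : H} (hx : x ∈ cl S) :
    A x = B x := by
  have h1 : cl S ≤ (LinearMap.eqLocus (A : H →ₗ[ℂ] H) (B : H →ₗ[ℂ] H)) :=
    cl_le (isClosed_eq A.continuous B.continuous) h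
  exact h1 hx

/-- an operator which maps a set into a closed span maps the closed span into it -/
lemma map_cl {S S' : Set H} {A : H →L[ℂ] H} (h : ∀ x ∈ S, A x ∈ cl S') {x : H} (hx : x ∈ cl S) :
    A x ∈ cl S' := by
  have h1 : cl S ≤ (cl S').comap (A : H →ₗ[ℂ] H) := by
    refine cl_le ?_ h
    exact (Submodule.isClosed_topologicalClosure (Submodule.span ℂ S')).preimage A.continuous
  exact h1 hx

/-- minimal finite dimensional subspaces invariant under the commutant -/
structure MinK (D : VonNeumannAlgebra H) (K : Submodule ℂ H) : Prop where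
  fin : FiniteDimensional ℂ K
  ne : K ≠ ⊥
  inv : ∀ y ∈ D.commutant, ∀ x ∈ K, y x ∈ K
  min : ∀ K' : Submodule ℂ H, K' ≤ K → K' ≠ ⊥ →
    (∀ y ∈ D.commutant, ∀ x ∈ K', y x ∈ K') → K' = K

lemma exists_minK {D : VonNeumannAlgebra H} {T : H →L[ℂ] H} (hT : T ∈ D) (h0 : T ≠ 0)
    (hf : FiniteDimensional ℂ (LinearMap.range (T : H →ₗ[ℂ] H))) : ∃ K, MinK D K := by
  classical
  let P : ℕ → Prop := fun n => ∃ K : Submodule ℂ H, FiniteDimensional ℂ K ∧ K ≠ ⊥ ∧
    (∀ y ∈ D.commutant, ∀ x ∈ K, y x ∈ K) ∧ Module.finrank ℂ K = n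
  have hP : ∃ n, P n := by
    refine ⟨_, LinearMap.range (T : H →ₗ[ℂ] H), hf, ?_, ?_, rfl⟩
    · intro h
      apply h0
      ext x
      have : T x ∈ LinearMap.range (T : H →ₗ[ℂ] H) := ⟨x, rfl⟩
      rw [h] at this
      simpa using this
    · rintro y hy _ ⟨x, rfl⟩
      exact ⟨y x, (comm_of hT hy x).symm⟩
  obtain ⟨K, hKf, hK0, hKi, hKn⟩ := Nat.find_spec hP
  refine ⟨K, hKf, hK0, hKi, fun K' hle hne hinv => ?_⟩
  haveI := hKf
  haveI : FiniteDimensional ℂ K' := Submodule.finiteDimensional_of_le hle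
  have h1 : P (Module.finrank ℂ K') := ⟨K', inferInstance, hne, hinv, rfl⟩
  have h2 := Nat.find_min' hP h1
  exact Submodule.eq_of_le_of_finrank_le hle (by rw [hKn]; exact h2)

/-- compressions to a minimal subspace are scalar -/
lemma MinK.scalar {D : VonNeumannAlgebra H} {K : Submodule ℂ H} (hK : MinK D K)
    {S : H →L[ℂ] H} (hS : S ∈ D) (hSK : ∀ x ∈ K, S x ∈ K) : ∃ μ : ℂ, ∀ x ∈ K, S x = μ • x := by
  haveI := hK.fin
  haveI : Nontrivial K := Submodule.nontrivial_iff_ne_bot.2 hK.ne
  let f : Module.End ℂ K := (S : H →ₗ[ℂ] H).restrict hSK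
  obtain ⟨μ, hμ⟩ := Module.End.exists_eigenvalue f
  obtain ⟨v, hv⟩ := hμ.exists_hasEigenvector
  let K' : Submodule ℂ H := K ⊓ LinearMap.ker ((S : H →ₗ[ℂ] H) - μ • LinearMap.id)
  have hmem : ∀ x, x ∈ K' ↔ x ∈ K ∧ S x = μ • x := by
    intro x
    simp only [K', Submodule.mem_inf, LinearMap.mem_ker, LinearMap.sub_apply,
      LinearMap.smul_apply, LinearMap.id_apply, ContinuousLinearMap.coe_coe, sub_eq_zero]
  have h1 : K' = K := by
    refine hK.min K' inf_le_left ?_ ?_
    · intro h
      have h2 : (v : H) ∈ K' := by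
        rw [hmem]
        refine ⟨v.2, ?_⟩
        have := hv.apply_eq_smul
        exact congrArg Subtype.val this
      rw [h] at h2
      exact hv.2 (Subtype.ext (by simpa using h2))
    · intro y hy x hx
      rw [hmem] at hx ⊢
      refine ⟨hK.inv y hy x hx.1, ?_⟩
      rw [← comm_of hS hy, hx.2, map_smul]
  refine ⟨μ, fun x hx => ?_⟩
  rw [← h1, hmem] at hx
  exact hx.2

/-- projections of the centre -/
structure Zp (D : VonNeumannAlgebra H) (p : H →L[ℂ] H) : Prop where
  proj : IsStarProjection p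
  mem : p ∈ D
  mem' : p ∈ D.commutant

/-- minimal projections of the centre -/
structure MinC (D : VonNeumannAlgebra H) (c : H →L[ℂ] H) : Prop where
  zp : Zp D c
  ne : c ≠ 0
  min : ∀ p, Zp D p → p * c = 0 ∨ p * c = c

lemma MinC.eq_of {D : VonNeumannAlgebra H} {c c' : H →L[ℂ] H} (h : MinC D c) (h' : MinC D c')
    (hne : c * c' ≠ 0) : c = c' := by
  have hcc : c * c' = c' * c := VonNeumannAlgebra.mem_commutant_iff.1 h'.zp.mem' c h.zp.mem
  have h1 : c * c' = c' := (h'.min c h.zp).resolve_left hne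
  have h2 : c' * c = c := (h.min c' h'.zp).resolve_left (by rwa [← hcc])
  rw [← h1, hcc, h2]

/-- the central cover of a minimal subspace -/
lemma MinK.minC {D : VonNeumannAlgebra H} {K : Submodule ℂ H} (hK : MinK D K) :
    MinC D (cl {y : H | ∃ T ∈ D, ∃ x ∈ K, y = T x}).starProjection := by
  set S : Set H := {y : H | ∃ T ∈ D, ∃ x ∈ K, y = T x} with hS
  have hKS : ∀ x ∈ K, x ∈ cl S := fun x hx => subset_cl _ ⟨1, one_mem D, x, hx, rfl⟩
  refine ⟨⟨isStarProjection_starProjection, ?_, ?_⟩, ?_, ?_⟩
  · refine starProj_mem _ fun y hy x hx => map_cl ?_ hx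
    rintro _ ⟨T, hT, x, hx, rfl⟩
    exact subset_cl _ ⟨T, hT, y x, hK.inv y hy x hx, comm_of hT hy x⟩
  · refine starProj_mem' _ fun y hy x hx => map_cl ?_ hx
    rintro _ ⟨T, hT, x, hx, rfl⟩
    exact subset_cl _ ⟨y * T, mul_mem hy hT, x, hx, rfl⟩
  · intro h
    apply hK.ne
    rw [Submodule.eq_bot_iff]
    intro x hx
    have := Submodule.starProjection_eq_self_iff.2 (hKS x hx)
    rw [← this, h]
    rfl
  · intro p hp
    obtain ⟨μ, hμ⟩ := hK.scalar hp.mem (hK.inv p hp.mem')
    have hpp : ∀ x, p (p x) = p x := fun x =>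
      congrArg (fun A : H →L[ℂ] H => A x) hp.proj.isIdempotentElem
    obtain ⟨v, hv, hv0⟩ := Submodule.exists_mem_ne_zero_of_ne_bot hK.ne
    have hμ2 : μ * μ = μ := by
      have h1 := hpp v
      rw [hμ v hv, map_smul, hμ v hv, smul_smul] at h1
      exact smul_left_injective ℂ hv0 h1
    rcases mul_eq_left₀' hμ2 with h0 | h1
    · left
      ext x
      have h2 := Submodule.starProjection_apply_mem (cl S) x
      have h3 := eqOn_cl (A := p) (B := 0) (S := S) (by
        rintro _ ⟨T, hT, x, hx, rfl⟩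
        rw [comm_of hT hp.mem' x, hμ x hx, h0, zero_smul, map_zero]
        rfl) h2
      exact h3
    · right
      ext x
      have h2 := Submodule.starProjection_apply_mem (cl S) x
      have h3 := eqOn_cl (A := p) (B := 1) (S := S) (by
        rintro _ ⟨T, hT, x, hx, rfl⟩
        rw [comm_of hT hp.mem' x, hμ x hx, h1, one_smul]
        rfl) h2
      exact h3
  where
  mul_eq_left₀' {μ : ℂ} (h : μ * μ = μ) : μ = 0 ∨ μ = 1 := by
    by_cases h0 : μ = 0
    · exact Or.inl h0
    · right
      exact mul_left_cancel₀ h0 (by rw [h, mul_one])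

end Vale.Agent.P092.H87
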