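import Vale.Agent.P092.H87.EndA

/-!
P092, block (END) of the products theorem, part B: finiteness of the stabiliser of a block.
-/

open scoped InnerProductSpace

namespace Vale.Agent.P092.H87

set_option linter.unusedSectionVars false
set_option linter.style.haveILetI false

variable {H : Type*} [NormedAddCommGroup H] [InnerProductSpace ℂ H] [CompleteSpace H]

/-! ### unitary representations -/

section Rep

variable {G : Type*} [Group G] (W : G →* unitary (H →L[ℂ] H))

/-- the operator `W g` -/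
noncomputable def op (g : G) : H →L[ℂ] H := (W g : H →L[ℂ] H)

lemma star_op (g : G) : star (op W g) = op W g⁻¹ := by
  unfold op
  rw [map_inv]
  rfl

lemma op_mul (g h : G) : op W (g * h) = op W g * op W h := by
  unfold op
  rw [map_mul]
  rfl

lemma op_one : op W 1 = 1 := by
  unfold op
  rw [map_one]
  rfl

lemma op_mul_inv (g : G) : op W g * op W g⁻¹ = 1 := by
  rw [← op_mul, mul_inv_cancel, op_one]

lemma op_inv_mul (g : G) : op W g⁻¹ * op W g = 1 := by
  rw [← op_mul, inv_mul_cancel, op_one]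

/-- conjugation -/
noncomputable def cj (g : G) (T : H →L[ℂ] H) : H →L[ℂ] H := op W g * T * op W g⁻¹

lemma cj_mul (g : G) (S T : H →L[ℂ] H) : cj W g (S * T) = cj W g S * cj W g T := by
  unfold cj
  calc op W g * (S * T) * op W g⁻¹ = op W g * S * 1 * T * op W g⁻¹ := by noncomm_ring
    _ = _ := by rw [← op_inv_mul W g]; noncomm_ring

lemma cj_cj (g h : G) (T : H →L[ℂ] H) : cj W g (cj W h T) = cj W (g * h) T := by
  unfold cj
  rw [op_mul, mul_inv_rev, op_mul]
  noncomm_ring

lemma cj_one (T : H →L[ℂ] H) : cj W 1 T = T := by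
  unfold cj
  rw [inv_one, op_one]
  noncomm_ring

lemma cj_inv_cj (g : G) (T : H →L[ℂ] H) : cj W g⁻¹ (cj W g T) = T := by
  rw [cj_cj, inv_mul_cancel, cj_one]

lemma cj_cj_inv (g : G) (T : H →L[ℂ] H) : cj W g (cj W g⁻¹ T) = T := by
  rw [cj_cj, mul_inv_cancel, cj_one]

lemma cj_zero (g : G) : cj W g 0 = 0 := by
  unfold cj
  rw [mul_zero, zero_mul]

lemma star_cj (g : G) (T : H →L[ℂ] H) : star (cj W g T) = cj W g (star T) := by
  unfold cj
  rw [star_mul, star_mul, star_op, star_op, inv_inv, mul_assoc]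

lemma cj_inj (g : G) {S T : H →L[ℂ] H} (h : cj W g S = cj W g T) : S = T := by
  rw [← cj_inv_cj W g S, h, cj_inv_cj]

lemma norm_op (g : G) (x : H) : ‖op W g x‖ = ‖x‖ := by
  have h : ⟪op W g x, op W g x⟫_ℂ = ⟪x, x⟫_ℂ := by
    rw [← ContinuousLinearMap.adjoint_inner_right, ← ContinuousLinearMap.star_eq_adjoint, star_op]
    have : op W g⁻¹ (op W g x) = x :=
      congrArg (fun A : H →L[ℂ] H => A x) (op_inv_mul W g)
    rw [this]
  rw [inner_self_eq_norm_sq_to_K, inner_self_eq_norm_sq_to_K] at h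
  have h' : ‖op W g x‖ ^ 2 = ‖x‖ ^ 2 := by exact_mod_cast h
  exact (sq_eq_sq₀ (norm_nonneg _) (norm_nonneg _)).1 h'

variable {D : VonNeumannAlgebra H} (hW : ∀ g, ∀ T ∈ D, cj W g T ∈ D)

include hW

lemma cj_commutant (g : G) {y : H →L[ℂ] H} (hy : y ∈ D.commutant) :
    cj W g y ∈ D.commutant := by
  rw [VonNeumannAlgebra.mem_commutant_iff] at hy ⊢
  intro T hT
  have h := hy _ (hW g⁻¹ T hT)
  have h2 := congrArg (cj W g) h
  rwa [cj_mul, cj_mul, cj_cj_inv] at h2

lemma Zp.cj {p : H →L[ℂ] H} (hp : Zp D p) (g : G) : Zp D (cj W g p) := by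
  refine ⟨⟨?_, ?_⟩, hW g p hp.mem, cj_commutant W hW g hp.mem'⟩
  · show H87.cj W g p * H87.cj W g p = H87.cj W g p
    rw [← cj_mul, hp.proj.isIdempotentElem.eq]
  · show star (H87.cj W g p) = H87.cj W g p
    rw [star_cj, hp.proj.isSelfAdjoint.star_eq]

lemma MinC.cj {c : H →L[ℂ] H} (hc : MinC D c) (g : G) : MinC D (cj W g c) := by
  refine ⟨hc.zp.cj W hW g, ?_, fun p hp => ?_⟩
  · intro h
    apply hc.ne
    rw [← cj_inv_cj W g c, h, cj_zero]
  · have h := hc.min _ (hp.cj W hW g⁻¹)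
    rcases h with h | h
    · left
      have h2 := congrArg (H87.cj W g) h
      rwa [cj_mul, cj_cj_inv, cj_zero] at h2
    · right
      have h2 := congrArg (H87.cj W g) h
      rwa [cj_mul, cj_cj_inv] at h2

end Rep

/-! ### traces of operators on a finite dimensional corner -/

section Tr

variable {K : Submodule ℂ H} [FiniteDimensional ℂ K] {ι : Type*} (b : HilbertBasis ι ℂ H)

lemma sum_basis (x : H) :
    K.starProjection x = ∑ i, ⟪((stdOrthonormalBasis ℂ K i : K) : H), x⟫_ℂ •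
      ((stdOrthonormalBasis ℂ K i : K) : H) := by
  have h := (stdOrthonormalBasis ℂ K).sum_repr' (K.orthogonalProjectionOnto x)
  have h2 := congrArg (Subtype.val) h
  rw [Submodule.starProjection_apply, ← h2, AddSubmonoidClass.coe_finsetSum]
  refine Finset.sum_congr rfl fun i _ => ?_
  rw [SetLike.val_smul]
  congr 1
  rw [Submodule.coe_inner, ← Submodule.starProjection_apply]
  rw [← Submodule.inner_starProjection_left_eq_right,
    Submodule.starProjection_eq_self_iff.2 (stdOrthonormalBasis ℂ K i).2]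

lemma tr_basis {A : H →L[ℂ] H} (hA : ∀ x, A x ∈ K) :
    HasSum (fun j => ⟪b j, A (b j)⟫_ℂ) (∑ i, ⟪((stdOrthonormalBasis ℂ K i : K) : H),
      A ((stdOrthonormalBasis ℂ K i : K) : H)⟫_ℂ) := by
  have h1 : ∀ j, ⟪b j, A (b j)⟫_ℂ = ∑ i, ⟪ContinuousLinearMap.adjoint A
      ((stdOrthonormalBasis ℂ K i : K) : H), b j⟫_ℂ *
        ⟪b j, ((stdOrthonormalBasis ℂ K i : K) : H)⟫_ℂ := by
    intro j
    conv_lhs => rw [← Submodule.starProjection_eq_self_iff.2 (hA (b j)), sum_basis, inner_sum]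
    refine Finset.sum_congr rfl fun i _ => ?_
    rw [inner_smul_right, ContinuousLinearMap.adjoint_inner_left]
  simp_rw [h1]
  refine hasSum_sum fun i _ => ?_
  have h2 := b.hasSum_inner_mul_inner (ContinuousLinearMap.adjoint A
      ((stdOrthonormalBasis ℂ K i : K) : H)) ((stdOrthonormalBasis ℂ K i : K) : H)
  rwa [ContinuousLinearMap.adjoint_inner_left] at h2

end Tr

end Vale.Agent.P092.H87
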