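import Vale.Agent.P092.H87.EndB

/-!
P092, block (END) of the products theorem, part C: the stabiliser of a block is finite.
-/

open scoped InnerProductSpace

namespace Vale.Agent.P092.H87

set_option linter.unusedSectionVars false
set_option linter.style.haveILetI false

variable {H : Type*} [NormedAddCommGroup H] [InnerProductSpace ℂ H] [CompleteSpace H]

/-- the space of a block -/
def blockSet (D : VonNeumannAlgebra H) (K : Submodule ℂ H) : Set H :=
  {y | ∃ T ∈ D, ∃ x ∈ K, y = T x}

/-- the central cover of a minimal projection -/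
noncomputable def cc (D : VonNeumannAlgebra H) (K : Submodule ℂ H) : H →L[ℂ] H :=
  (cl (blockSet D K)).starProjection

lemma MinK.minC_cc {D : VonNeumannAlgebra H} {K : Submodule ℂ H} (hK : MinK D K) :
    MinC D (cc D K) := hK.minC

section Stab

variable {Λ : Type*} [Group Λ] (V : Λ →* unitary (H →L[ℂ] H))
  {D : VonNeumannAlgebra H} {K : Submodule ℂ H}

lemma op_apply_inv (g : Λ) (x : H) : op V g (op V g⁻¹ x) = x :=
  congrArg (fun A : H →L[ℂ] H => A x) (op_mul_inv V g)

lemma op_inv_apply (g : Λ) (x : H) : op V g⁻¹ (op V g x) = x :=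
  congrArg (fun A : H →L[ℂ] H => A x) (op_inv_mul V g)

lemma inner_op_left (g : Λ) (x y : H) : ⟪op V g x, y⟫_ℂ = ⟪x, op V g⁻¹ y⟫_ℂ := by
  rw [← star_op, ContinuousLinearMap.star_eq_adjoint, ContinuousLinearMap.adjoint_inner_right]

lemma inner_op_right (g : Λ) (x y : H) : ⟪x, op V g y⟫_ℂ = ⟪op V g⁻¹ x, y⟫_ℂ := by
  rw [← star_op, ContinuousLinearMap.star_eq_adjoint, ContinuousLinearMap.adjoint_inner_left]

/-- for `v` in the stabiliser there is a nonzero intertwiner -/
lemma exists_inter (hK : MinK D K) {v : Λ} (hv : cj V v (cc D K) = cc D K) :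
    haveI := hK.fin
    ∃ T ∈ D, K.starProjection * T * op V v * K.starProjection ≠ 0 := by
  haveI := hK.fin
  by_contra hcon
  push Not at hcon
  apply hK.ne
  rw [Submodule.eq_bot_iff]
  intro x hx
  have h1 : cc D K (op V v x) = op V v x := by
    have h2 : cc D K x = x := by
      refine Submodule.starProjection_eq_self_iff.2 (subset_cl _ ⟨1, one_mem D, x, hx, rfl⟩)
    conv_lhs => rw [← hv]
    show op V v (cc D K (op V v⁻¹ (op V v x))) = op V v x
    rw [op_inv_apply, h2]
  have h3 : cc D K (op V v x) = 0 := by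
    rw [cc, Submodule.starProjection_apply_eq_zero_iff]
    have h4 : cl (blockSet D K) ≤ (ℂ ∙ (op V v x))ᗮ := by
      refine cl_le (Submodule.isClosed_orthogonal _) ?_
      rintro _ ⟨T, hT, y, hy, rfl⟩
      rw [SetLike.mem_coe, Submodule.mem_orthogonal_singleton_iff_inner_right]
      have h5 := hcon (star T) (star_mem hT)
      have h6 := congrArg (fun A : H →L[ℂ] H => A x) h5
      have h7 : K.starProjection (star T (op V v x)) = 0 := by
        have h8 : K.starProjection x = x := Submodule.starProjection_eq_self_iff.2 hx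
        have h9 : (K.starProjection * star T * op V v * K.starProjection) x =
          K.starProjection (star T (op V v (K.starProjection x))) := rfl
        rw [h8] at h9
        rw [← h9]
        exact h6
      rw [Submodule.starProjection_apply_eq_zero_iff, Submodule.mem_orthogonal] at h7
      have h10 := h7 y hy
      rw [ContinuousLinearMap.star_eq_adjoint, ContinuousLinearMap.adjoint_inner_right] at h10
      rw [← inner_conj_symm, h10, map_zero]
    rw [Submodule.mem_orthogonal]
    intro u hu
    have h5 := h4 hu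
    rw [Submodule.mem_orthogonal_singleton_iff_inner_right] at h5
    rw [← inner_conj_symm, h5, map_zero]
  rw [h1] at h3
  have := congrArg (op V v⁻¹) h3
  rwa [op_inv_apply, map_zero] at this

/-- the stabiliser of a block -/
def stab (V : Λ →* unitary (H →L[ℂ] H)) (c : H →L[ℂ] H) : Subgroup Λ where
  carrier := {v | cj V v c = c}
  mul_mem' {a b} ha hb := by
    show cj V (a * b) c = c
    rw [← cj_cj, show cj V b c = c from hb, show cj V a c = c from ha]
  one_mem' := cj_one V c
  inv_mem' {a} ha := by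
    show cj V a⁻¹ c = c
    have := cj_inv_cj V a c
    rwa [show cj V a c = c from ha] at this

lemma mem_stab {c : H →L[ℂ] H} {v : Λ} : v ∈ stab V c ↔ cj V v c = c := Iff.rfl

/-- the trace condition -/
def TrZero {ι : Type*} (b : HilbertBasis ι ℂ H) (V : Λ →* unitary (H →L[ℂ] H))
    (D : VonNeumannAlgebra H) : Prop :=
  ∀ T ∈ D, FiniteDimensional ℂ (LinearMap.range (T : H →ₗ[ℂ] H)) → ∀ v : Λ, v ≠ 1 →
    ∑' j, ⟪b j, T (op V v (b j))⟫_ℂ = 0

theorem stab_finite {ι : Type*} (b : HilbertBasis ι ℂ H) (hV : ∀ g, ∀ T ∈ D, cj V g T ∈ D)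
    (hK : MinK D K) (h4 : TrZero b V D) : Finite (stab V (cc D K)) := by
  classical
  haveI := hK.fin
  set z := K.starProjection with hz
  have hzs : star z = z := (isStarProjection_starProjection (U := K)).isSelfAdjoint.star_eq
  have hzz : z * z = z := (isStarProjection_starProjection (U := K)).isIdempotentElem.eq
  have hzD : z ∈ D := starProj_mem K hK.inv
  have hzK : ∀ x, z x ∈ K := fun x => Submodule.starProjection_apply_mem K x
  choose T hTD hT0 using fun v : stab V (cc D K) => exists_inter V hK v.2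
  -- the operators `a v`
  let a : stab V (cc D K) → (H →L[ℂ] H) := fun v => z * T v * op V (v : Λ) * z
  have haK : ∀ v x, a v x ∈ K := fun v x => hzK _
  let w : stab V (cc D K) → PiLp 2 (fun _ : Fin (Module.finrank ℂ K) => K) := fun v =>
    WithLp.toLp 2 fun i => ⟨a v ((stdOrthonormalBasis ℂ K i : K) : H), haK v _⟩
  have hw : ∀ u v, ⟪w u, w v⟫_ℂ = ∑ i, ⟪a u ((stdOrthonormalBasis ℂ K i : K) : H),
      a v ((stdOrthonormalBasis ℂ K i : K) : H)⟫_ℂ := by
    intro u v
    rw [PiLp.inner_apply]
    rfl
  have h1 : ∀ v, w v ≠ 0 := by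
    intro v h
    apply hT0 v
    ext x
    show a v x = 0
    have h2 : a v x = a v (z x) := by
      show (z * T v * op V (v : Λ) * z) x = (z * T v * op V (v : Λ) * z) (z x)
      have h3 : (z * T v * op V (v : Λ) * z) (z x) = (z * T v * op V (v : Λ) * (z * z)) x := rfl
      rw [h3, hzz]
    rw [h2, hz, sum_basis, map_sum]
    refine Finset.sum_eq_zero fun i _ => ?_
    rw [map_smul]
    have h3 : a v ((stdOrthonormalBasis ℂ K i : K) : H) = 0 := by
      have := congrArg (fun y : PiLp 2 (fun _ : Fin (Module.finrank ℂ K) => K) => (y i : H)) h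
      exact this
    rw [h3, smul_zero]
  have h2 : ∀ u v, u ≠ v → ⟪w u, w v⟫_ℂ = 0 := by
    intro u v huv
    rw [hw]
    -- the operator `(a u)* (a v)`
    set B : H →L[ℂ] H := z * op V (u : Λ)⁻¹ * star (T u) * z * T v * op V (u : Λ) *
      (op V (u : Λ)⁻¹ * (op V (v : Λ) * z * op V (v : Λ)⁻¹) * op V (u : Λ)) with hB
    have hBD : B ∈ D := by
      have e1 : B = z * cj V (u : Λ)⁻¹ (star (T u) * z * T v) *
          cj V (u : Λ)⁻¹ (cj V (v : Λ) z) := by
        simp only [cj, inv_inv, hB]
        noncomm_ring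
      rw [e1]
      refine mul_mem (mul_mem hzD (hV _ _ (mul_mem (mul_mem (star_mem (hTD u)) hzD) (hTD v)))) ?_
      exact hV _ _ (hV _ _ hzD)
    have hBf : FiniteDimensional ℂ (LinearMap.range (B : H →ₗ[ℂ] H)) := by
      refine Submodule.finiteDimensional_of_le (S₂ := K) ?_
      rintro _ ⟨x, rfl⟩
      exact hzK _
    have hne : (u : Λ)⁻¹ * (v : Λ) ≠ 1 := by
      intro h
      apply huv
      apply Subtype.ext
      exact (inv_mul_eq_one.1 h)
    have h3 := h4 B hBD hBf _ hne
    have hA : B * op V ((u : Λ)⁻¹ * (v : Λ)) = star (a u) * a v := by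
      have e2 : star (a u) = z * op V (u : Λ)⁻¹ * star (T u) * z := by
        show star (z * T u * op V (u : Λ) * z) = _
        rw [star_mul, star_mul, star_mul, hzs, star_op]
        noncomm_ring
      rw [e2, hB, op_mul]
      show _ = z * op V (u : Λ)⁻¹ * star (T u) * z * (z * T v * op V (v : Λ) * z)
      calc z * op V (u : Λ)⁻¹ * star (T u) * z * T v * op V (u : Λ) *
            (op V (u : Λ)⁻¹ * (op V (v : Λ) * z * op V (v : Λ)⁻¹) * op V (u : Λ)) *
            (op V (u : Λ)⁻¹ * op V (v : Λ))
          = z * op V (u : Λ)⁻¹ * star (T u) * z * T v * (op V (u : Λ) * op V (u : Λ)⁻¹) *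
            (op V (v : Λ) * z * op V (v : Λ)⁻¹) * (op V (u : Λ) * op V (u : Λ)⁻¹) *
              op V (v : Λ) := by noncomm_ring
        _ = z * op V (u : Λ)⁻¹ * star (T u) * z * T v *
            op V (v : Λ) * z * (op V (v : Λ)⁻¹ * op V (v : Λ)) := by
              rw [op_mul_inv]; noncomm_ring
        _ = z * op V (u : Λ)⁻¹ * star (T u) * (z * z) * T v * op V (v : Λ) * z := by
              rw [op_inv_mul, hzz]; noncomm_ring
        _ = _ := by noncomm_ring
    have h5 : ∀ x, (star (a u) * a v) x ∈ K := by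
      intro x
      rw [← hA]
      exact hzK _
    have h6 := tr_basis b h5
    have h7 : ∀ j, ⟪b j, B (op V ((u : Λ)⁻¹ * (v : Λ)) (b j))⟫_ℂ =
        ⟪b j, (star (a u) * a v) (b j)⟫_ℂ := by
      intro j
      rw [← hA]
      rfl
    simp_rw [h7] at h3
    rw [h6.tsum_eq] at h3
    rw [← h3]
    refine Finset.sum_congr rfl fun i _ => ?_
    show _ = ⟪_, star (a u) (a v _)⟫_ℂ
    rw [ContinuousLinearMap.star_eq_adjoint, ContinuousLinearMap.adjoint_inner_right]
  have h3 : LinearIndependent ℂ w := linearIndependent_of_ne_zero_of_inner_eq_zero h1 h2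
  exact h3.finite

end Stab

end Vale.Agent.P092.H87
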