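import Vale.Agent.P092.H87.EndC

/-!
P092, block (END) of the products theorem, part D: the block is spanned by one vector.
-/

open scoped InnerProductSpace

namespace Vale.Agent.P092.H87

set_option linter.unusedSectionVars false
set_option linter.style.haveILetI false

variable {H : Type*} [NormedAddCommGroup H] [InnerProductSpace ℂ H] [CompleteSpace H]

lemma inner_proj {p : H →L[ℂ] H} (hp : IsStarProjection p) (x y : H) :
    ⟪p x, y⟫_ℂ = ⟪p x, p y⟫_ℂ := by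
  have h1 : star p = p := hp.isSelfAdjoint.star_eq
  have h2 : p (p x) = p x := congrArg (fun A : H →L[ℂ] H => A x) hp.isIdempotentElem.eq
  conv_lhs => rw [← h2]
  rw [← ContinuousLinearMap.adjoint_inner_right, ← ContinuousLinearMap.star_eq_adjoint, h1]

/-- Bessel's inequality for pairwise orthogonal projections -/
lemma bessel_proj {ι : Type*} {p : ι → (H →L[ℂ] H)} (hp : ∀ i, IsStarProjection (p i))
    (ho : ∀ i j, i ≠ j → p i * p j = 0) (F : Finset ι) (x : H) :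
    ∑ i ∈ F, ‖p i x‖ ^ 2 ≤ ‖x‖ ^ 2 := by
  classical
  have hstar : ∀ i, star (p i) = p i := fun i => (hp i).isSelfAdjoint.star_eq
  have ho' : ∀ i j, i ≠ j → ⟪p i x, p j x⟫_ℂ = 0 := by
    intro i j hij
    have h1 : p i (p j x) = 0 := congrArg (fun A : H →L[ℂ] H => A x) (ho i j hij)
    rw [← ContinuousLinearMap.adjoint_inner_right, ← ContinuousLinearMap.star_eq_adjoint,
      hstar, h1, inner_zero_right]
  set y := ∑ i ∈ F, p i x with hy
  have h1 : ‖y‖ ^ 2 = ∑ i ∈ F, ‖p i x‖ ^ 2 := by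
    have h2 : ⟪y, y⟫_ℂ = ∑ i ∈ F, ⟪p i x, p i x⟫_ℂ := by
      rw [hy, sum_inner]
      refine Finset.sum_congr rfl fun i hi => ?_
      rw [inner_sum, Finset.sum_eq_single i]
      · intro j _ hji
        exact ho' i j hji.symm
      · intro h
        exact absurd hi h
    simp_rw [inner_self_eq_norm_sq_to_K] at h2
    exact_mod_cast h2
  have h3 : RCLike.re ⟪y, x⟫_ℂ = ∑ i ∈ F, ‖p i x‖ ^ 2 := by
    rw [hy, sum_inner, map_sum]
    refine Finset.sum_congr rfl fun i _ => ?_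
    rw [inner_proj (hp i), inner_self_eq_norm_sq_to_K]
    norm_cast
  have h4 := @norm_sub_sq ℂ H _ _ _ y x
  have h5 : 0 ≤ ‖y - x‖ ^ 2 := sq_nonneg _
  rw [h4, h1, h3] at h5
  linarith

section Main

variable {Λ Γ : Type*} [Group Λ] [Group Γ] (V : Λ →* unitary (H →L[ℂ] H))
  (R : Γ →* unitary (H →L[ℂ] H)) {D : VonNeumannAlgebra H} {c : H →L[ℂ] H}

/-- the closed span of the ranges of the projections `cj W g c` -/
noncomputable def orb (W : Γ →* unitary (H →L[ℂ] H)) (c : H →L[ℂ] H) : Submodule ℂ H :=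
  cl {y | ∃ g x, y = cj W g c x}

lemma orb_eq_top (W : Γ →* unitary (H →L[ℂ] H)) (hW : ∀ g, ∀ T ∈ D, cj W g T ∈ D)
    (hc : MinC D c)
    (h : ∀ z, z ∈ D → z ∈ D.commutant → (∀ g, op W g * z = z * op W g) → ∃ μ : ℂ, z = μ • 1) :
    ∀ x : H, x ∈ cl {y | ∃ g x, y = cj W g c x} := by
  set S : Set H := {y | ∃ g x, y = cj W g c x} with hS
  have hz : ∀ g, Zp D (cj W g c) := fun g => hc.zp.cj W hW g
  have h1 : ∀ y ∈ D.commutant, ∀ x ∈ cl S, y x ∈ cl S := by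
    intro y hy x hx
    refine map_cl ?_ hx
    rintro _ ⟨g, x, rfl⟩
    rw [comm_of (hz g).mem hy]
    exact subset_cl _ ⟨g, _, rfl⟩
  have h2 : ∀ y ∈ D, ∀ x ∈ cl S, y x ∈ cl S := by
    intro y hy x hx
    refine map_cl ?_ hx
    rintro _ ⟨g, x, rfl⟩
    rw [← comm_of hy (hz g).mem']
    exact subset_cl _ ⟨g, _, rfl⟩
  have h3 : ∀ g, ∀ x ∈ cl S, op W g x ∈ cl S := by
    intro g x hx
    refine map_cl ?_ hx
    rintro _ ⟨g', x, rfl⟩
    refine subset_cl _ ⟨g * g', op W g x, ?_⟩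
    show op W g (op W g' (c (op W g'⁻¹ x))) = op W (g * g') (c (op W (g * g')⁻¹ (op W g x)))
    have e1 : op W (g * g')⁻¹ (op W g x) = op W g'⁻¹ x := by
      rw [mul_inv_rev, op_mul]
      show op W g'⁻¹ (op W g⁻¹ (op W g x)) = _
      rw [op_inv_apply]
    rw [e1, op_mul]
    rfl
  have h4 : ∀ g, op W g * (cl S).starProjection = (cl S).starProjection * op W g := by
    intro g
    have h5 : ∀ g, (cl S).starProjection * op W g * (cl S).starProjection =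
        op W g * (cl S).starProjection := by
      intro g
      ext x
      show (cl S).starProjection (op W g ((cl S).starProjection x)) = _
      rw [Submodule.starProjection_eq_self_iff.2 (h3 g _ (Submodule.starProjection_apply_mem _ _))]
      rfl
    have h6 := congrArg star (h5 g⁻¹)
    have h7 : star (cl S).starProjection = (cl S).starProjection :=
      (isStarProjection_starProjection (U := cl S)).isSelfAdjoint.star_eq
    rw [star_mul, star_mul, star_mul, star_op, inv_inv, h7] at h6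
    rw [← h5 g, mul_assoc, h6]
  obtain ⟨μ, hμ⟩ := h _ (starProj_mem (cl S) h1) (starProj_mem' (cl S) h2) h4
  obtain ⟨x, hx⟩ : ∃ x, c x ≠ 0 := by
    by_contra hcon
    push Not at hcon
    exact hc.ne (ContinuousLinearMap.ext hcon)
  have h5 : (cl S).starProjection (c x) = c x := by
    refine Submodule.starProjection_eq_self_iff.2 (subset_cl _ ⟨1, x, ?_⟩)
    rw [cj_one]
  have h6 : μ = 1 := by
    rw [hμ] at h5
    have h7 : μ • c x = (1 : ℂ) • c x := by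
      rw [one_smul]
      exact h5
    exact smul_left_injective ℂ hx h7
  intro x
  rw [← Submodule.starProjection_eq_self_iff, hμ, h6, one_smul]
  rfl

/-- a central projection which is not zero meets one of the blocks of a total orbit -/
lemma exists_meet (W : Γ →* unitary (H →L[ℂ] H)) (hW : ∀ g, ∀ T ∈ D, cj W g T ∈ D)
    (hc : MinC D c)
    (h : ∀ z, z ∈ D → z ∈ D.commutant → (∀ g, op W g * z = z * op W g) → ∃ μ : ℂ, z = μ • 1)
    {c' : H →L[ℂ] H} (hc' : MinC D c') : ∃ g, c' = cj W g c := by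
  by_contra hcon
  push Not at hcon
  apply hc'.ne
  ext x
  have h1 := orb_eq_top W hW hc h x
  refine eqOn_cl (A := c') (B := 0) ?_ h1
  rintro _ ⟨g, x, rfl⟩
  have h2 : c' * cj W g c = 0 := by
    by_contra hne
    exact hcon g (hc'.eq_of (hc.cj W hW g) hne)
  exact congrArg (fun A : H →L[ℂ] H => A x) h2

theorem stab_normal (hV : ∀ g, ∀ T ∈ D, cj V g T ∈ D) (hR : ∀ g, ∀ T ∈ D, cj R g T ∈ D)
    (hVR : ∀ v g, op V v * op R g = op R g * op V v)
    (hc : MinC D c)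
    (h3 : ∀ z, z ∈ D → z ∈ D.commutant → (∀ g, op R g * z = z * op R g) → ∃ μ : ℂ, z = μ • 1) :
    (stab V c).Normal := by
  have hcomm : ∀ v g T, cj V v (cj R g T) = cj R g (cj V v T) := by
    intro v g T
    unfold cj
    calc op V v * (op R g * T * op R g⁻¹) * op V v⁻¹
        = (op V v * op R g) * T * (op R g⁻¹ * op V v⁻¹) := by noncomm_ring
      _ = _ := by rw [hVR, ← hVR v⁻¹]; noncomm_ring
  refine ⟨fun s hs v => ?_⟩
  obtain ⟨g, hg⟩ := exists_meet R hR hc h3 (hc.cj V hV v⁻¹)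
  have h4 : cj V s (cj V v⁻¹ c) = cj V v⁻¹ c := by
    rw [hg, hcomm, show cj V s c = c from hs]
  show cj V (v * s * v⁻¹) c = c
  rw [mul_assoc, ← cj_cj, ← cj_cj, h4, cj_cj_inv]

/-- **the block is of rank one** -/
theorem rank_one (hV : ∀ g, ∀ T ∈ D, cj V g T ∈ D) (hc : MinC D c)
    (hst : ∀ v, cj V v c = c → v = 1) (b : HilbertBasis Λ ℂ H) {ξ₀ : H} (hξ : ‖ξ₀‖ = 1)
    (hb : ∀ v, b v = op V v ξ₀) {ζ : H} (hζ : ‖ζ‖ = 1) (hcζ : c ζ = ζ) :
    ∀ x, c x = ⟪ζ, x⟫_ℂ • ζ := by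
  classical
  have hproj : ∀ v, IsStarProjection (cj V v c) := fun v => (hc.zp.cj V hV v).proj
  have ho : ∀ u v, u ≠ v → cj V u c * cj V v c = 0 := by
    intro u v huv
    by_contra hne
    have h1 := (hc.cj V hV u).eq_of (hc.cj V hV v) hne
    have h2 := congrArg (cj V v⁻¹) h1
    rw [cj_inv_cj, cj_cj] at h2
    have h3 := hst _ h2
    exact huv (inv_mul_eq_one.1 h3).symm
  -- the norms
  have hn : ∀ v, ‖c (b v)‖ = ‖cj V v⁻¹ c ξ₀‖ := by
    intro v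
    rw [hb]
    show _ = ‖op V v⁻¹ (c (op V v⁻¹⁻¹ ξ₀))‖
    rw [inv_inv, norm_op]
  have hle : ∀ F : Finset Λ, ∑ v ∈ F, ‖c (b v)‖ ^ 2 ≤ 1 := by
    intro F
    have h1 := bessel_proj (p := fun v => cj V v⁻¹ c) (fun v => hproj v⁻¹)
      (fun u v huv => ho _ _ (fun h => huv (inv_injective h))) F ξ₀
    rw [hξ, one_pow] at h1
    simp_rw [hn]
    exact h1
  have hsum : Summable fun v => ‖c (b v)‖ ^ 2 :=
    summable_of_sum_le (fun v => sq_nonneg _) hle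
  have htsum : ∑' v, ‖c (b v)‖ ^ 2 ≤ 1 := by
    exact hsum.tsum_le_of_sum_le hle
  have hpars : HasSum (fun v => ‖⟪ζ, c (b v)⟫_ℂ‖ ^ 2) 1 := by
    have h1 := b.hasSum_inner_mul_inner ζ ζ
    have h2 : ∀ v, ⟪ζ, b v⟫_ℂ * ⟪b v, ζ⟫_ℂ = ((‖⟪ζ, c (b v)⟫_ℂ‖ ^ 2 : ℝ) : ℂ) := by
      intro v
      have e1 : ⟪ζ, c (b v)⟫_ℂ = ⟪ζ, b v⟫_ℂ := by
        have := inner_proj hc.zp.proj ζ (b v)
        rw [hcζ] at this
        exact this.symm
      rw [e1, ← inner_conj_symm (b v) ζ, RCLike.mul_conj]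
      push_cast
      rfl
    simp_rw [h2] at h1
    rw [inner_self_eq_norm_sq_to_K, hζ] at h1
    have h3 : ((1 : ℝ) : ℂ) ^ 2 = ((1 : ℝ) : ℂ) := by norm_num
    have h4 : HasSum (fun v => ((‖⟪ζ, c (b v)⟫_ℂ‖ ^ 2 : ℝ) : ℂ)) ((1 : ℝ) : ℂ) := by
      simpa using h1
    exact_mod_cast h4
  have hdiff : HasSum (fun v => ‖c (b v)‖ ^ 2 - ‖⟪ζ, c (b v)⟫_ℂ‖ ^ 2)
      (∑' v, ‖c (b v)‖ ^ 2 - 1) := hsum.hasSum.sub hpars
  have hnn : ∀ v, 0 ≤ ‖c (b v)‖ ^ 2 - ‖⟪ζ, c (b v)⟫_ℂ‖ ^ 2 := by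
    intro v
    have h1 : ‖⟪ζ, c (b v)⟫_ℂ‖ ≤ ‖c (b v)‖ := by
      have := norm_inner_le_norm (𝕜 := ℂ) ζ (c (b v))
      rwa [hζ, one_mul] at this
    have h2 : ‖⟪ζ, c (b v)⟫_ℂ‖ ^ 2 ≤ ‖c (b v)‖ ^ 2 :=
      pow_le_pow_left₀ (norm_nonneg _) h1 2
    linarith
  have hz0 : ∑' v, ‖c (b v)‖ ^ 2 - 1 = 0 := by
    have h1 : 0 ≤ ∑' v, ‖c (b v)‖ ^ 2 - 1 := hdiff.nonneg hnn
    linarith
  rw [hz0] at hdiff
  have hz1 := (hasSum_zero_iff_of_nonneg hnn).1 hdiff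
  have hkey : ∀ v, c (b v) = ⟪ζ, b v⟫_ℂ • ζ := by
    intro v
    have h1 : ‖c (b v)‖ ^ 2 - ‖⟪ζ, c (b v)⟫_ℂ‖ ^ 2 = 0 := congrFun hz1 v
    have e1 : ⟪ζ, c (b v)⟫_ℂ = ⟪ζ, b v⟫_ℂ := by
      have := inner_proj hc.zp.proj ζ (b v)
      rw [hcζ] at this
      exact this.symm
    have h2 : ‖c (b v) - ⟪ζ, c (b v)⟫_ℂ • ζ‖ ^ 2 = 0 := by
      rw [@norm_sub_sq ℂ H _ _ _, inner_smul_right, norm_smul, hζ, mul_one,
        ← inner_conj_symm (c (b v)) ζ, RCLike.mul_conj]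
      have h3 : RCLike.re (((‖⟪ζ, c (b v)⟫_ℂ‖ : ℝ) : ℂ) ^ 2) = ‖⟪ζ, c (b v)⟫_ℂ‖ ^ 2 := by
        norm_cast
      have h4 : RCLike.re ((RCLike.ofReal ‖⟪ζ, c (b v)⟫_ℂ‖ : ℂ) ^ 2) =
        ‖⟪ζ, c (b v)⟫_ℂ‖ ^ 2 := h3
      rw [h4]
      linarith
    have h3 : c (b v) - ⟪ζ, c (b v)⟫_ℂ • ζ = 0 := by
      rw [← norm_eq_zero]
      exact pow_eq_zero_iff (two_ne_zero) |>.1 h2
    rw [← e1]
    exact sub_eq_zero.1 h3
  -- both sides are continuous linear maps which agree on a basis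
  intro x
  let B : H →L[ℂ] H := (innerSL ℂ ζ).smulRight ζ
  have hB : ∀ x, B x = ⟪ζ, x⟫_ℂ • ζ := fun x => rfl
  rw [← hB]
  refine eqOn_cl (S := Set.range b) (A := c) (B := B) ?_ ?_
  · rintro _ ⟨v, rfl⟩
    rw [hkey, hB]
  · show x ∈ (Submodule.span ℂ (Set.range b)).topologicalClosure
    rw [b.dense_span]
    trivial

end Main

end Vale.Agent.P092.H87
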