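import Vale.Agent.P092.H87.EndD

/-!
P092, block (END) of the products theorem, part E: the end of the proof.
-/

open scoped InnerProductSpace

namespace Vale.Agent.P092.H87

set_option linter.unusedSectionVars false
set_option linter.style.haveILetI false

variable {H : Type*} [NormedAddCommGroup H] [InnerProductSpace ℂ H] [CompleteSpace H]

section Main

variable {Λ Γ : Type*} [Group Λ] [Group Γ] (V : Λ →* unitary (H →L[ℂ] H))
  (R : Γ →* unitary (H →L[ℂ] H)) {D : VonNeumannAlgebra H}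

/-- **(END), first form**: there is a block of rank one. -/
theorem exists_rank_one {ι : Type*} (b' : HilbertBasis ι ℂ H) (b : HilbertBasis Λ ℂ H) {ξ₀ : H}
    (hb : ∀ v, b v = op V v ξ₀)
    (hV : ∀ g, ∀ T ∈ D, cj V g T ∈ D) (hR : ∀ g, ∀ T ∈ D, cj R g T ∈ D)
    (hVR : ∀ v g, op V v * op R g = op R g * op V v)
    (h1 : ∃ T ∈ D, T ≠ 0 ∧ FiniteDimensional ℂ (LinearMap.range (T : H →ₗ[ℂ] H)))
    (h3 : ∀ z, z ∈ D → z ∈ D.commutant → (∀ g, op R g * z = z * op R g) → ∃ μ : ℂ, z = μ • 1)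
    (h4 : TrZero b' V D) (h5 : ∀ N : Subgroup Λ, N.Normal → Finite N → N = ⊥) :
    ∃ (ζ : H) (c : H →L[ℂ] H), MinC D c ∧ ‖ζ‖ = 1 ∧ (∀ x, c x = ⟪ζ, x⟫_ℂ • ζ) ∧
      (∀ u v, u ≠ v → cj V u c * cj V v c = 0) := by
  obtain ⟨T, hT, hT0, hTf⟩ := h1
  obtain ⟨K, hK⟩ := exists_minK hT hT0 hTf
  have hc : MinC D (cc D K) := hK.minC_cc
  have hfin := stab_finite V b' hV hK h4
  have hnor := stab_normal V R hV hR hVR hc h3
  have hst : ∀ v, cj V v (cc D K) = cc D K → v = 1 := by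
    intro v hv
    have h6 := h5 _ hnor hfin
    have h7 : v ∈ stab V (cc D K) := hv
    rw [h6] at h7
    exact Subgroup.mem_bot.1 h7
  obtain ⟨x, hx⟩ : ∃ x, cc D K x ≠ 0 := by
    by_contra hcon
    push Not at hcon
    exact hc.ne (ContinuousLinearMap.ext hcon)
  set y := cc D K x with hy
  have hyn : ‖y‖ ≠ 0 := norm_ne_zero_iff.2 hx
  have hcy : cc D K y = y :=
    congrArg (fun A : H →L[ℂ] H => A x) hc.zp.proj.isIdempotentElem.eq
  have hζ : ‖((‖y‖ : ℂ)⁻¹) • y‖ = 1 := by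
    rw [norm_smul, norm_inv, Complex.norm_real, norm_norm]
    exact inv_mul_cancel₀ hyn
  have hξ : ‖ξ₀‖ = 1 := by
    have := b.orthonormal.1 1
    rwa [hb, norm_op] at this
  have hcζ : cc D K (((‖y‖ : ℂ)⁻¹) • y) = ((‖y‖ : ℂ)⁻¹) • y := by
    rw [map_smul, hcy]
  refine ⟨_, _, hc, hζ, rank_one V hV hc hst b hξ hb hζ hcζ, ?_⟩
  intro u v huv
  by_contra hne
  have h6 := (hc.cj V hV u).eq_of (hc.cj V hV v) hne
  have h7 := congrArg (cj V v⁻¹) h6
  rw [cj_inv_cj, cj_cj] at h7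
  exact huv (inv_mul_eq_one.1 (hst _ h7)).symm

/-- **(END)** -/
theorem end_main {ι : Type*} (b' : HilbertBasis ι ℂ H) (b : HilbertBasis Λ ℂ H) {ξ₀ : H}
    (hb : ∀ v, b v = op V v ξ₀)
    (hV : ∀ g, ∀ T ∈ D, cj V g T ∈ D) (hR : ∀ g, ∀ T ∈ D, cj R g T ∈ D)
    (hVR : ∀ v g, op V v * op R g = op R g * op V v)
    (h1 : ∃ T ∈ D, T ≠ 0 ∧ FiniteDimensional ℂ (LinearMap.range (T : H →ₗ[ℂ] H)))
    (h2 : ∀ z, z ∈ D → z ∈ D.commutant → (∀ g, op V g * z = z * op V g) → ∃ μ : ℂ, z = μ • 1)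
    (h3 : ∀ z, z ∈ D → z ∈ D.commutant → (∀ g, op R g * z = z * op R g) → ∃ μ : ℂ, z = μ • 1)
    (h4 : TrZero b' V D) (h5 : ∀ N : Subgroup Λ, N.Normal → Finite N → N = ⊥) :
    ∃ (ζ : H) (bζ : HilbertBasis Λ ℂ H) (δ : Γ →* Λ) (χ : Γ →* ℂ),
      (∀ v, bζ v = op V v ζ) ∧ (∀ g, ‖χ g‖ = 1) ∧
      (∀ g, op R g ζ = χ g • op V (δ g)⁻¹ ζ) ∧
      (ℂ ∙ ζ).starProjection ∈ D ∧ (ℂ ∙ ζ).starProjection ∈ D.commutant := by
  obtain ⟨ζ, c, hc, hζ, hcr, horth⟩ := exists_rank_one V R b' b hb hV hR hVR h1 h3 h4 h5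
  have hζ0 : ζ ≠ 0 := by
    rintro rfl
    simp at hζ
  have hcζ : c ζ = ζ := by
    rw [hcr, inner_self_eq_norm_sq_to_K, hζ]
    norm_num
  -- the projections of the orbit
  have hcV : ∀ v x, cj V v c x = ⟪op V v ζ, x⟫_ℂ • op V v ζ := by
    intro v x
    show op V v (c (op V v⁻¹ x)) = _
    rw [hcr, map_smul, inner_op_left]
  have hcR : ∀ g x, cj R g c x = ⟪op R g ζ, x⟫_ℂ • op R g ζ := by
    intro v x
    show op R v (c (op R v⁻¹ x)) = _
    rw [hcr, map_smul, inner_op_left]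
  have hon : Orthonormal ℂ (fun v => op V v ζ) := by
    refine ⟨fun v => by rw [norm_op, hζ], fun u v huv => ?_⟩
    have h6 := congrArg (fun A : H →L[ℂ] H => A (op V v ζ)) (horth u v huv)
    have h7 : cj V u c (cj V v c (op V v ζ)) = 0 := h6
    rw [hcV v, inner_self_eq_norm_sq_to_K, norm_op, hζ] at h7
    have h8 : cj V u c (op V v ζ) = 0 := by simpa using h7
    rw [hcV] at h8
    rcases smul_eq_zero.1 h8 with h9 | h9
    · exact h9
    · exact absurd h9 (norm_ne_zero_iff.1 (by rw [norm_op, hζ]; exact one_ne_zero))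
  have htot := orb_eq_top V hV hc h2
  have hsp : (⊤ : Submodule ℂ H) ≤ (Submodule.span ℂ (Set.range fun v => op V v ζ)).topologicalClosure := by
    intro x _
    have h6 : cl {y | ∃ g x, y = cj V g c x} ≤
        (Submodule.span ℂ (Set.range fun v => op V v ζ)).topologicalClosure := by
      refine cl_le (Submodule.isClosed_topologicalClosure _) ?_
      rintro _ ⟨g, x, rfl⟩
      rw [hcV]
      exact Submodule.smul_mem _ _ (Submodule.le_topologicalClosure _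
        (Submodule.subset_span ⟨g, rfl⟩))
    exact h6 (htot x)
  let bζ : HilbertBasis Λ ℂ H := HilbertBasis.mk hon hsp
  have hbζ : ∀ v, bζ v = op V v ζ := fun v => congrFun (HilbertBasis.coe_mk hon hsp) v
  -- the map `δ`
  have hδ : ∀ g, ∃ v, cj R g c = cj V v c := fun g =>
    exists_meet V hV hc h2 (hc.cj R hR g)
  choose d hd using hδ
  have hRζ : ∀ g, op R g ζ = ⟪op V (d g) ζ, op R g ζ⟫_ℂ • op V (d g) ζ := by
    intro g
    rw [← hcV, ← hd, hcR, inner_self_eq_norm_sq_to_K, norm_op, hζ]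
    norm_num
  have hχn : ∀ g, ‖⟪op V (d g) ζ, op R g ζ⟫_ℂ‖ = 1 := by
    intro g
    have h6 := congrArg norm (hRζ g)
    rw [norm_smul, norm_op, norm_op, hζ, mul_one] at h6
    exact h6.symm
  -- uniqueness
  have huniq : ∀ (g : Γ) (v : Λ) (μ : ℂ), op R g ζ = μ • op V v ζ →
      v = d g ∧ μ = ⟪op V (d g) ζ, op R g ζ⟫_ℂ := by
    intro g v μ h
    have h6 : v = d g := by
      by_contra hne
      have h7 := hon.2 (Ne.symm hne)
      have h8 := hχn g
      rw [h, inner_smul_right, h7, mul_zero, norm_zero] at h8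
      exact zero_ne_one h8
    subst h6
    refine ⟨rfl, ?_⟩
    rw [h, inner_smul_right, inner_self_eq_norm_sq_to_K, norm_op, hζ]
    norm_num
  have hcommζ : ∀ v g x, op R g (op V v x) = op V v (op R g x) := fun v g x =>
    (congrArg (fun A : H →L[ℂ] H => A x) (hVR v g)).symm
  have h11 := huniq 1 1 1 (by rw [op_one, op_one, one_smul])
  have hmul : ∀ g h, d h * d g = d (g * h) ∧
      ⟪op V (d g) ζ, op R g ζ⟫_ℂ * ⟪op V (d h) ζ, op R h ζ⟫_ℂ =
        ⟪op V (d (g * h)) ζ, op R (g * h) ζ⟫_ℂ := by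
    intro g h
    refine huniq (g * h) _ _ ?_
    rw [op_mul, op_mul]
    show op R g (op R h ζ) = _ • op V (d h) (op V (d g) ζ)
    conv_lhs => rw [hRζ h, map_smul, hcommζ, hRζ g, map_smul, smul_smul]
    rw [mul_comm]
  let δ : Γ →* Λ :=
    { toFun := fun g => (d g)⁻¹
      map_one' := by rw [← h11.1, inv_one]
      map_mul' := fun g h => by rw [← (hmul g h).1, mul_inv_rev] }
  let χ : Γ →* ℂ :=
    { toFun := fun g => ⟪op V (d g) ζ, op R g ζ⟫_ℂ
      map_one' := h11.2.symm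
      map_mul' := fun g h => (hmul g h).2.symm }
  have hcp : c = (ℂ ∙ ζ).starProjection := by
    ext x
    rw [hcr, Submodule.starProjection_unit_singleton ℂ hζ]
  refine ⟨ζ, bζ, δ, χ, hbζ, hχn, ?_, hcp ▸ hc.zp.mem, hcp ▸ hc.zp.mem'⟩
  intro g
  show op R g ζ = ⟪op V (d g) ζ, op R g ζ⟫_ℂ • op V ((d g)⁻¹)⁻¹ ζ
  rw [inv_inv]
  exact hRζ g

end Main

end Vale.Agent.P092.H87
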