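import Vale.Agent.P092.H87.StarE
import Vale.Agent.P092.H714.Fin
import Vale.Agent.P092.PA.Defs

/-!
P092: the adapter from the output of the block GLUE (`PA.Glu`) to the conclusion of END
(`H714.Fin.EndC`, `PA.Can`).
-/

open scoped InnerProductSpace
open ContinuousLinearMap

namespace Vale.Agent.P092.H87

set_option linter.unusedSectionVars false

open Vale.Agent.P092.H160 Vale.Agent.P092.H714.Fin

variable {Γ Λ K : Type} [Group Γ] [Group Λ] [NormedAddCommGroup K] [InnerProductSpace ℂ K]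
  [CompleteSpace K]

/-- `end_star` for a pair of representations in the letters of helper714. -/
theorem endC_of_set {ρ : Γ →* (K →L[ℂ] K)} {V : Λ →* (K →L[ℂ] K)} {ω : K} (h : Pr ρ V ω)
    {ι : Type*} (b' : HilbertBasis ι ℂ K) (S : Set (K →L[ℂ] K))
    (mul : ∀ s ∈ S, ∀ t ∈ S, s * t ∈ S) (hstar : ∀ s ∈ S, star s ∈ S) (hne : ∃ s ∈ S, s ≠ 0)
    (hHS : ∀ s ∈ S, Summable fun j => ‖s (b' j)‖ ^ 2)
    (hSV : ∀ v, ∀ s ∈ S, V v * s * V v⁻¹ ∈ S) (hSR : ∀ g, ∀ s ∈ S, ρ g * s * ρ g⁻¹ ∈ S)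
    (hO : ∀ s ∈ S, ∀ t ∈ S, ∀ v : Λ, v ≠ 1 → ∑' j, ⟪s (b' j), t (V v (b' j))⟫_ℂ = 0)
    (h5 : ∀ N : Subgroup Λ, N.Normal → Finite N → N = ⊥) : EndC ρ V ω := by
  have hRtot : (⊤ : Submodule ℂ K) ≤ (Submodule.span ℂ
      (Set.range fun g => op (toU ρ h.rreg.adj) g ω)).topologicalClosure := by
    have h1 := h.rreg.basis.dense_span
    have h2 : Set.range h.rreg.basis = Set.range fun g => op (toU ρ h.rreg.adj) g ω := by
      ext x
      constructor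
      · rintro ⟨g, rfl⟩
        exact ⟨g, (h.rreg.basis_apply g).symm⟩
      · rintro ⟨g, rfl⟩
        exact ⟨g, h.rreg.basis_apply g⟩
    rw [← h2, h1]
  obtain ⟨w, δ, χ, hw, hχ, hδ⟩ := end_star (toU V h.vreg.adj) (toU ρ h.rreg.adj)
    h.vreg.basis (ξ₀ := ω) (fun v => h.vreg.basis_apply v) b' S mul hstar hne hHS hSV hSR
    (fun v g => (h.comm g v).symm) hO hRtot (fun A hA B hB => (h.commute hB hA).symm) h5
    (fun g μ hg => h.inj hg)
  exact ⟨w, δ, χ, Unitary.coe_star_mul_self w, Unitary.coe_mul_star_self w, hw, hχ,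
    fun g A hA hA1 => hδ g A hA hA1⟩

/-- the picture of Team A is a picture of helper714 -/
theorem pr_of_pic (D : PA.Pic Γ Λ K) : Pr D.ρ D.V D.Ω := ⟨D.hρ, D.hV, D.comm⟩

/-- **GLUE implies END** -/
theorem endC_of_glu (D : PA.Pic Γ Λ K) (hG : PA.Glu D)
    (h5 : ∀ N : Subgroup Λ, N.Normal → Finite N → N = ⊥) : EndC D.ρ D.V D.Ω := by
  obtain ⟨S, -, -, mul, hstar, hne, hHS, hSV, hSR, hO⟩ := hG
  have hb : ∀ v, D.hV.basis v = D.V v D.Ω := fun v => D.hV.basis_apply v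
  refine endC_of_set (pr_of_pic D) D.hV.basis S mul hstar hne ?_ hSV hSR ?_ h5
  · intro s hs
    simp_rw [hb]
    exact hHS s hs
  · intro s hs t ht v hv
    simp_rw [hb]
    exact hO s hs t ht v hv

/-- an ICC group has no nontrivial finite normal subgroups -/
theorem no_finite_normal (hΛ : ∀ v : Λ, v ≠ 1 → Set.Infinite {y : Λ | ∃ h, y = h * v * h⁻¹}) :
    ∀ N : Subgroup Λ, N.Normal → Finite N → N = ⊥ := by
  intro N hN hf
  rw [Subgroup.eq_bot_iff_forall]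
  intro v hv
  by_contra hne
  refine hΛ v hne ((Set.toFinite (N : Set Λ)).subset ?_)
  rintro _ ⟨h, rfl⟩
  exact hN.conj_mem v hv h

/-- the conclusion in the form `PA.Can` -/
theorem can_of_endC (D : PA.Pic Γ Λ K) (h : EndC D.ρ D.V D.Ω) : PA.Can D := by
  obtain ⟨w, δ, χ, hw1, hw2, hw, hχ, hδ⟩ := h
  obtain ⟨ρ', hρV, hρ1⟩ := exists_right (toU D.V D.hV.adj) D.hV.basis (ξ₀ := D.Ω)
    (fun v => D.hV.basis_apply v)
  have hwi : ∀ x y, ⟪w x, w y⟫_ℂ = ⟪x, y⟫_ℂ := by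
    intro x y
    rw [← adjoint_inner_right]
    have : adjoint w (w y) = y := congrArg (fun A : K →L[ℂ] K => A y) hw1
    rw [this]
  have hwV : ∀ v x, w (D.V v x) = D.V v (w x) := fun v x =>
    congrArg (fun A : K →L[ℂ] K => A x) (hw v)
  refine ⟨w D.Ω, fun g => (δ g)⁻¹, χ, ?_, ?_, ?_, hχ, ?_⟩
  · have h1 := hwi D.Ω D.Ω
    rw [inner_self_eq_norm_sq_to_K, inner_self_eq_norm_sq_to_K, D.hV.norm_one] at h1
    have h2 : ‖w D.Ω‖ ^ 2 = 1 := by
      have h3 : ((‖w D.Ω‖ ^ 2 : ℝ) : ℂ) = ((1 : ℝ) : ℂ) := by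
        push_cast
        simpa using h1
      exact_mod_cast h3
    nlinarith [norm_nonneg (w D.Ω)]
  · intro v hv
    rw [← hwV, hwi]
    exact D.hV.inner_zero v hv
  · exact (MulEquiv.inv' Λ).bijective.comp δ.bijective |> fun h => by
      refine ⟨fun a b hab => δ.injective (inv_injective hab), fun v => ?_⟩
      exact ⟨δ.symm v⁻¹, by simp⟩
  · intro g
    have h1 := hδ g (ρ' (δ g)) (fun v => hρV _ _) (hρ1 _)
    have h2 := congrArg (fun A : K →L[ℂ] K => A D.Ω) h1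
    have h3 : D.ρ g (w D.Ω) = χ g • w ((ρ' (δ g) : K →L[ℂ] K) D.Ω) := h2
    rw [h3, hρ1]
    have h4 : w (op (toU D.V D.hV.adj) (δ g)⁻¹ D.Ω) = D.V (δ g)⁻¹ (w D.Ω) := hwV _ _
    rw [h4]

end Vale.Agent.P092.H87
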