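import Vale.Agent.P092.H87.NGeo

/-!
P092, TEAM N, block [N-NW], part 2 (helper87): the compactness constants and the group forms
(hyperplanes far from the attracting point, points far from the attracting point, attracting point
in a set), all `n`, all normed fields with compact balls.
-/

set_option linter.all false

namespace Vale.Agent.P092.H87.N

open Matrix Vale.Agent.P092.H820
open scoped LinearAlgebra.Projectivization

section Cpt

variable {k : Type*} [NormedField k] {ι : Type*} [Fintype ι]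

/-- the sphere covers the projective space -/
lemma exists_norm_one (v : ι → k) (hv : v ≠ 0) : ∃ c : k, c ≠ 0 ∧ ‖c • v‖ = 1 := by
  have hne : Nonempty ι := by
    by_contra hn
    rw [not_nonempty_iff] at hn
    exact hv (Subsingleton.elim _ _)
  obtain ⟨i, hi⟩ := Finite.exists_max fun i => ‖v i‖
  have hvi : v i ≠ 0 := by
    intro h
    apply hv
    ext a
    have := hi a
    rw [h, norm_zero] at this
    exact norm_eq_zero.1 (le_antisymm this (norm_nonneg _))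
  have hn : ‖v‖ = ‖v i‖ := le_antisymm ((pi_norm_le_iff_of_nonneg (norm_nonneg _)).2 hi)
    (norm_le_pi_norm v i)
  refine ⟨(v i)⁻¹, inv_ne_zero hvi, ?_⟩
  rw [norm_smul, norm_inv, hn, inv_mul_cancel₀]
  exact norm_ne_zero_iff.2 hvi

/-- the class of a vector -/
noncomputable def cl (v : ι → k) (hv : v ≠ 0) : ℙ k (ι → k) := pj k ι ⟨v, hv⟩

lemma cl_smul {v : ι → k} (hv : v ≠ 0) {c : k} (hc : c ≠ 0) :
    cl (c • v) (smul_ne_zero hc hv) = cl v hv := by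
  rw [cl, cl, pj_eq]
  exact ⟨Units.mk0 c hc, rfl⟩

/-- a bihomogeneous function which does not vanish over a compact set is bounded below -/
theorem exists_low [ProperSpace k] {W : Type*} [NormedAddCommGroup W]
    (f : (ι → k) → (ι → k) → W) (hf : Continuous fun p : (ι → k) × (ι → k) =>
      f p.1 p.2) (hom : ∀ (c d : k) u x, ‖f (c • u) (d • x)‖ = ‖c‖ * ‖d‖ * ‖f u x‖)
    (U Z : Set (ℙ k (ι → k))) (hU : IsClosed U) (hZ : IsClosed Z)
    (h0 : ∀ u x (hu : u ≠ 0) (hx : x ≠ 0), cl u hu ∈ U → cl x hx ∈ Z → f u x ≠ 0) :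
    ∃ d : ℝ, 0 < d ∧ ∀ u x (hu : u ≠ 0) (hx : x ≠ 0), cl u hu ∈ U → cl x hx ∈ Z →
      d * (‖u‖ * ‖x‖) ≤ ‖f u x‖ := by
  have hne : ∀ v : Metric.sphere (0 : ι → k) 1, v.1 ≠ 0 := fun v h => by
    have := v.2
    rw [h] at this
    simp at this
  let F : Metric.sphere (0 : ι → k) 1 → ℙ k (ι → k) := fun v => cl v.1 (hne v)
  have hF : Continuous F := pj_continuous.comp (Continuous.subtype_mk continuous_subtype_val _)
  have : CompactSpace (Metric.sphere (0 : ι → k) 1) :=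
    isCompact_iff_compactSpace.1 (isCompact_sphere _ _)
  let K : Set (Metric.sphere (0 : ι → k) 1 × Metric.sphere (0 : ι → k) 1) :=
    {p | F p.1 ∈ U ∧ F p.2 ∈ Z}
  have hK : IsCompact K := by
    apply IsClosed.isCompact
    exact (hU.preimage (hF.comp continuous_fst)).inter (hZ.preimage (hF.comp continuous_snd))
  have key : ∃ d : ℝ, 0 < d ∧ ∀ p ∈ K, d ≤ ‖f p.1.1 p.2.1‖ := by
    rcases K.eq_empty_or_nonempty with h | h
    · exact ⟨1, one_pos, fun p hp => by rw [h] at hp; exact absurd hp (Set.notMem_empty p)⟩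
    · have hc : Continuous fun p : Metric.sphere (0 : ι → k) 1 ×
          Metric.sphere (0 : ι → k) 1 => ‖f p.1.1 p.2.1‖ :=
        (hf.comp (Continuous.prodMk (continuous_subtype_val.comp continuous_fst)
          (continuous_subtype_val.comp continuous_snd))).norm
      obtain ⟨p, hp, hmin⟩ := hK.exists_isMinOn h hc.continuousOn
      refine ⟨‖f p.1.1 p.2.1‖, norm_pos_iff.2 (h0 _ _ (hne _) (hne _) hp.1 hp.2), ?_⟩
      exact fun q hq => hmin hq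
  obtain ⟨d, hd, hd'⟩ := key
  refine ⟨d, hd, fun u x hu hx hU' hZ' => ?_⟩
  obtain ⟨a, ha, ha'⟩ := exists_norm_one u hu
  obtain ⟨b, hb, hb'⟩ := exists_norm_one x hx
  have h1 := hd' (⟨a • u, by simpa using ha'⟩, ⟨b • x, by simpa using hb'⟩) (by
    refine ⟨?_, ?_⟩
    · change cl (a • u) _ ∈ U
      rwa [cl_smul hu ha]
    · change cl (b • x) _ ∈ Z
      rwa [cl_smul hx hb])
  have h2 : d ≤ ‖a‖ * ‖b‖ * ‖f u x‖ := by
    rw [← hom]
    exact h1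
  rw [norm_smul] at ha' hb'
  have hu0 : 0 < ‖u‖ := norm_pos_iff.2 hu
  have hx0 : 0 < ‖x‖ := norm_pos_iff.2 hx
  have h3 : d * (‖u‖ * ‖x‖) ≤ ‖a‖ * ‖b‖ * ‖f u x‖ * (‖u‖ * ‖x‖) :=
    mul_le_mul_of_nonneg_right h2 (by positivity)
  calc d * (‖u‖ * ‖x‖) ≤ ‖a‖ * ‖b‖ * ‖f u x‖ * (‖u‖ * ‖x‖) := h3
    _ = (‖a‖ * ‖u‖) * (‖b‖ * ‖x‖) * ‖f u x‖ := by ring
    _ = ‖f u x‖ := by rw [ha', hb']; ring

/-- disjoint closed sets of points are at positive angle -/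
theorem exists_angle [ProperSpace k] {U Z : Set (ℙ k (ι → k))} (hU : IsClosed U)
    (hZ : IsClosed Z) (h : Disjoint U Z) :
    ∃ d : ℝ, 0 < d ∧ ∀ u x (hu : u ≠ 0) (hx : x ≠ 0), cl u hu ∈ U → cl x hx ∈ Z →
      d * (‖u‖ * ‖x‖) ≤ ‖wd u x‖ := by
  refine exists_low wd wd_continuous (fun c d u x => ?_) U Z hU hZ fun u x hu hx h1 h2 h3 => ?_
  · rw [wd_smul_left, wd_smul_right, norm_smul, norm_smul, mul_assoc]
  · have : cl u hu = cl x hx := (pj_eq_iff _ _).2 h3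
    rw [this] at h1
    exact Set.disjoint_left.1 h h1 h2

/-- closed sets of points and hyperplanes without incidence: the pairing is bounded below -/
theorem exists_pair [ProperSpace k] {U A : Set (ℙ k (ι → k))} (hU : IsClosed U)
    (hA : IsClosed A) (h : ∀ u l (hu : u ≠ 0) (hl : l ≠ 0), cl u hu ∈ U → cl l hl ∈ A →
      u ⬝ᵥ l ≠ 0) :
    ∃ d : ℝ, 0 < d ∧ ∀ u l (hu : u ≠ 0) (hl : l ≠ 0), cl u hu ∈ U → cl l hl ∈ A →
      d * (‖u‖ * ‖l‖) ≤ ‖l ⬝ᵥ u‖ := by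
  refine exists_low (fun u l => l ⬝ᵥ u) ?_ (fun c d u x => ?_) U A hU hA
    fun u x hu hx h1 h2 h3 => ?_
  · exact continuous_snd.dotProduct continuous_fst
  · change ‖(d • x) ⬝ᵥ (c • u)‖ = _
    rw [smul_dotProduct, dotProduct_smul, smul_eq_mul, smul_eq_mul, norm_mul,
      norm_mul]
    ring
  · refine h u x hu hx h1 h2 ?_
    rw [dotProduct_comm]
    exact h3

end Cpt

section Main

variable {k : Type*} [NormedField k] {ι : Type*} [Fintype ι] [DecidableEq ι]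
  {C a b : ℝ} {g h : Matrix ι ι k} {i j : ι}

/-- the attracting point -/
noncomputable def xp (H : NWn C a b g h i j) : ℙ k (ι → k) := cl (uu g i j) H.uu_ne

/-- the repelling hyperplane -/
noncomputable def yp (H : NWn C a b g h i j) : ℙ k (ι → k) := cl (yy g i j) H.yy_ne

lemma vecMul_ne (H : NWn C a b g h i j) {l : ι → k} (hl : l ≠ 0) : l ᵥ* g ≠ 0 := fun h0 => by
  apply hl
  have : (l ᵥ* g) ᵥ* h = l := by rw [Matrix.vecMul_vecMul, H.gh, Matrix.vecMul_one]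
  rw [← this, h0, Matrix.zero_vecMul]

lemma vecMul_ne' (H : NWn C a b g h i j) {l : ι → k} (hl : l ≠ 0) : l ᵥ* h ≠ 0 := fun h0 => by
  apply hl
  have : (l ᵥ* h) ᵥ* g = l := by rw [Matrix.vecMul_vecMul, H.hg, Matrix.vecMul_one]
  rw [← this, h0, Matrix.zero_vecMul]

lemma mulVec_ne (H : NWn C a b g h i j) {v : ι → k} (hv : v ≠ 0) : g *ᵥ v ≠ 0 := fun h0 => by
  apply hv
  have : h *ᵥ (g *ᵥ v) = v := by rw [Matrix.mulVec_mulVec, H.hg, Matrix.one_mulVec]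
  rw [← this, h0, Matrix.mulVec_zero]

variable [ProperSpace k]

/-- **The disc**: hyperplanes `ν` with `ν g⁻¹` in `A`, attracting point in `U`. -/
theorem geo_disc {U A : Set (ℙ k (ι → k))} (hU : IsClosed U) (hA : IsClosed A)
    (hUA : ∀ u l (hu : u ≠ 0) (hl : l ≠ 0), cl u hu ∈ U → cl l hl ∈ A → u ⬝ᵥ l ≠ 0)
    (C : ℝ) : ∃ D : ℝ, 1 ≤ D ∧ ∀ a b (g h : Matrix ι ι k) i j (H : NWn C a b g h i j),
      xp H ∈ U → ∀ ν (hν : ν ≠ 0), cl (ν ᵥ* h) (vecMul_ne' H hν) ∈ A →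
      ‖wd ν (yy g i j)‖ ≤ D / (a * b) * ‖ν‖ := by
  obtain ⟨d, hd, hd'⟩ := exists_pair hU hA hUA
  refine ⟨max 1 (2 * cn ι * C ^ 2 / d), le_max_left _ _, fun a b g h i j H hx ν hν hν' => ?_⟩
  have h1 := hd' (uu g i j) (ν ᵥ* h) H.uu_ne (vecMul_ne' H hν) hx hν'
  rw [H.uu_norm, one_mul] at h1
  have ha := H.a_pos
  have hb := H.b_pos
  have h2 := H.disc hd h1
  have e : (ν ᵥ* h) ᵥ* g = ν := by rw [Matrix.vecMul_vecMul, H.hg, Matrix.vecMul_one]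
  rw [e] at h2
  refine h2.trans (mul_le_mul_of_nonneg_right ?_ (norm_nonneg _))
  rw [mul_one_div]
  exact div_le_div_of_nonneg_right (le_max_right _ _) (by positivity)

/-- **The strip**: points `v` with `g v` in `Z`, attracting point in `U`. -/
theorem geo_strip {U Z : Set (ℙ k (ι → k))} (hU : IsClosed U) (hZ : IsClosed Z)
    (hUZ : Disjoint U Z) (C : ℝ) : ∃ D : ℝ, 1 ≤ D ∧ ∀ a b (g h : Matrix ι ι k) i j
      (H : NWn C a b g h i j), xp H ∈ U → ∀ v (hv : v ≠ 0), cl (g *ᵥ v) (mulVec_ne H hv) ∈ Z →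
      ‖yy g i j ⬝ᵥ v‖ ≤ D / (a * b) * ‖v‖ := by
  obtain ⟨d, hd, hd'⟩ := exists_angle hU hZ hUZ
  refine ⟨max 1 (2 * cn ι * C ^ 2 / d), le_max_left _ _, fun a b g h i j H hx v hv hv' => ?_⟩
  have h1 := hd' (uu g i j) (g *ᵥ v) H.uu_ne (mulVec_ne H hv) hx hv'
  rw [H.uu_norm, one_mul] at h1
  have ha := H.a_pos
  have hb := H.b_pos
  refine (H.strip hd h1).trans (mul_le_mul_of_nonneg_right ?_ (norm_nonneg _))
  rw [mul_one_div]
  exact div_le_div_of_nonneg_right (le_max_right _ _) (by positivity)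

/-- **Local constancy, points**: `Z`, `Z'` disjoint closed sets, `v`, `w` at distance at most
`e` and at most `e / (a b)` across the strip are not sent to `Z` and to `Z'`. -/
theorem geo_lc {Z Z' : Set (ℙ k (ι → k))} (hZ : IsClosed Z) (hZ' : IsClosed Z')
    (hd : Disjoint Z Z') (C : ℝ) :
    ∃ e : ℝ, 0 < e ∧ ∀ a b (g h : Matrix ι ι k) i j (H : NWn C a b g h i j)
      (v w : ι → k) (hv : v ≠ 0) (hw : w ≠ 0), ‖w‖ = 1 → ‖v - w‖ ≤ e →
      ‖yy g i j ⬝ᵥ (v - w)‖ ≤ e / (a * b) → cl (g *ᵥ v) (mulVec_ne H hv) ∈ Z →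
      cl (g *ᵥ w) (mulVec_ne H hw) ∉ Z' := by
  obtain ⟨d, hd0, hd'⟩ := exists_angle hZ hZ' hd
  refine ⟨d / (8 * (cn ι + 1) ^ 2 * (|C| + 1) ^ 2), by
    have := cn_nonneg (ι := ι)
    positivity, fun a b g h i j H v w hv hw h1 h2 h3 h4 h5 => ?_⟩
  have hC := H.C_pos
  have hn := cn_nonneg (ι := ι)
  have hn1 := one_le_cn i
  set e := d / (8 * (cn ι + 1) ^ 2 * (|C| + 1) ^ 2) with he
  have he0 : 0 < e := by rw [he]; positivity
  have h6 := H.lip he0.le h2 h3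
  rw [h1, mul_one] at h6
  have h7 := hd' (g *ᵥ v) (g *ᵥ w) (mulVec_ne H hv) (mulVec_ne H hw) h4 h5
  have hp : 0 < ‖g *ᵥ v‖ * ‖g *ᵥ w‖ :=
    mul_pos (norm_pos_iff.2 (mulVec_ne H hv)) (norm_pos_iff.2 (mulVec_ne H hw))
  have h8 : d ≤ 4 * cn ι ^ 2 * C ^ 2 * e := le_of_mul_le_mul_right (h7.trans h6) hp
  have h9 : 4 * cn ι ^ 2 * C ^ 2 * e ≤ d / 2 := by
    have h10 : cn ι ^ 2 * C ^ 2 ≤ (cn ι + 1) ^ 2 * (|C| + 1) ^ 2 := by
      rw [← mul_pow, ← mul_pow]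
      refine pow_le_pow_left₀ (by positivity) ?_ 2
      have : C ≤ |C| + 1 := by linarith [le_abs_self C]
      exact mul_le_mul (by linarith) this hC.le (by linarith)
    have h11 : (cn ι + 1) ^ 2 * (|C| + 1) ^ 2 * e = d / 8 := by
      rw [he]; field_simp
    calc 4 * cn ι ^ 2 * C ^ 2 * e = 4 * (cn ι ^ 2 * C ^ 2) * e := by ring
      _ ≤ 4 * ((cn ι + 1) ^ 2 * (|C| + 1) ^ 2) * e := by gcongr
      _ = 4 * (((cn ι + 1) ^ 2 * (|C| + 1) ^ 2) * e) := by ring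
      _ = d / 2 := by rw [h11]; ring
  linarith

/-- **Local constancy, hyperplanes**: `A`, `A'` disjoint closed sets, `ν`, `ν'` at distance at most
`e` times `max (dist to yy, 1 / (a b))` are not sent to `A` and to `A'`. -/
theorem geo_lh {A A' : Set (ℙ k (ι → k))} (hA : IsClosed A) (hA' : IsClosed A')
    (hd : Disjoint A A') (C : ℝ) :
    ∃ e : ℝ, 0 < e ∧ ∀ a b (g h : Matrix ι ι k) i j (H : NWn C a b g h i j)
      (ν ν' : ι → k) (hν : ν ≠ 0) (hν' : ν' ≠ 0),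
      ‖ν' - ν‖ ≤ e * (‖wd ν' (yy g i j)‖ + 1 / (a * b) * ‖ν'‖) →
      cl (ν ᵥ* h) (vecMul_ne' H hν) ∈ A → cl (ν' ᵥ* h) (vecMul_ne' H hν') ∉ A' := by
  obtain ⟨d, hd0, hd'⟩ := exists_angle hA hA' hd
  refine ⟨d / (32 * (cn ι + 1) ^ 3 * (|C| + 1) ^ 2), by
    have := cn_nonneg (ι := ι)
    positivity, fun a b g h i j H ν ν' hν hν' h1 h2 h3 => ?_⟩
  have hC := H.C_pos
  have ha := H.a_pos
  have hb := H.b_pos
  have hn := cn_nonneg (ι := ι)
  have hn1 := one_le_cn i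
  set e := d / (32 * (cn ι + 1) ^ 3 * (|C| + 1) ^ 2) with he
  have he0 : 0 < e := by rw [he]; positivity
  set ρ := ‖wd ν' (yy g i j)‖ + 1 / (a * b) * ‖ν'‖ with hρ
  have hρ0 : 0 < ρ := by
    have : 0 < ‖ν'‖ := norm_pos_iff.2 hν'
    rw [hρ]; positivity
  have h6 := H.lip_h ν ν'
  have h7 := hd' (ν ᵥ* h) (ν' ᵥ* h) (vecMul_ne' H hν) (vecMul_ne' H hν') h2 h3
  have hp : 0 < ‖ν ᵥ* h‖ * ‖ν' ᵥ* h‖ :=
    mul_pos (norm_pos_iff.2 (vecMul_ne' H hν)) (norm_pos_iff.2 (vecMul_ne' H hν'))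
  have h8 : d * ρ ≤ 16 * cn ι ^ 3 * C ^ 2 * (e * ρ) := by
    refine le_of_mul_le_mul_right ?_ hp
    calc d * ρ * (‖ν ᵥ* h‖ * ‖ν' ᵥ* h‖) = (d * (‖ν ᵥ* h‖ * ‖ν' ᵥ* h‖)) * ρ := by ring
      _ ≤ ‖wd (ν ᵥ* h) (ν' ᵥ* h)‖ * ρ := mul_le_mul_of_nonneg_right h7 hρ0.le
      _ ≤ 16 * cn ι ^ 3 * C ^ 2 * ‖ν' - ν‖ * (‖ν ᵥ* h‖ * ‖ν' ᵥ* h‖) := h6
      _ ≤ 16 * cn ι ^ 3 * C ^ 2 * (e * ρ) * (‖ν ᵥ* h‖ * ‖ν' ᵥ* h‖) := by gcongr
  have h9 : 16 * cn ι ^ 3 * C ^ 2 * e ≤ d / 2 := by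
    have h10 : cn ι ^ 3 * C ^ 2 ≤ (cn ι + 1) ^ 3 * (|C| + 1) ^ 2 := by
      have h12 : C ≤ |C| + 1 := by linarith [le_abs_self C]
      have h13 : cn ι ≤ cn ι + 1 := by linarith
      exact mul_le_mul (pow_le_pow_left₀ hn h13 3) (pow_le_pow_left₀ hC.le h12 2)
        (by positivity) (by positivity)
    have h11 : (cn ι + 1) ^ 3 * (|C| + 1) ^ 2 * e = d / 32 := by
      rw [he]; field_simp
    calc 16 * cn ι ^ 3 * C ^ 2 * e = 16 * (cn ι ^ 3 * C ^ 2) * e := by ring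
      _ ≤ 16 * ((cn ι + 1) ^ 3 * (|C| + 1) ^ 2) * e := by gcongr
      _ = 16 * (((cn ι + 1) ^ 3 * (|C| + 1) ^ 2) * e) := by ring
      _ = d / 2 := by rw [h11]; ring
  have h14 : d ≤ 16 * cn ι ^ 3 * C ^ 2 * e := by
    refine le_of_mul_le_mul_right ?_ hρ0
    calc d * ρ ≤ 16 * cn ι ^ 3 * C ^ 2 * (e * ρ) := h8
      _ = _ := by ring
  linarith

end Main

end Vale.Agent.P092.H87.N
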