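import Vale.Agent.P092.H87.NGeo2

/-!
P092, TEAM N, block [N-NW], part 3 (helper87): shells and near-wall elements of `SL_n(k)` in pivot
form (the minors of order two of `g` are bounded by the minors of order `n - 2` of the inverse),
attracting point, capacity of the cells, action of the group on points and hyperplanes.
-/

set_option linter.all false

namespace Vale.Agent.P092.H87.N

open Matrix TopologicalSpace Vale.Agent.P092.H820
open scoped LinearAlgebra.Projectivization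

section Minor

variable {k : Type*} [NormedField k] {ι : Type*} [Fintype ι] [DecidableEq ι]

lemma det_one_one (x : ι) (u : ι → k) : ((1 : Matrix ι ι k).updateCol x u).det = u x := by
  rw [← Matrix.cramer_apply, Matrix.cramer_one]
  rfl

lemma det_one_two {x i : ι} (hxi : x ≠ i) (u v : ι → k) :
    (((1 : Matrix ι ι k).updateCol x u).updateCol i v).det = u x * v i - u i * v x := by
  set A := (1 : Matrix ι ι k).updateCol x u with hA
  have h1 : A.det = u x := det_one_one x u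
  have h2 : A.cramer v x = v x := by
    rw [Matrix.cramer_apply, hA, Matrix.updateCol_idem, det_one_one]
  have h3 := congrFun (Matrix.mulVec_cramer A v) i
  rw [h1, Pi.smul_apply, smul_eq_mul] at h3
  have h4 : (A *ᵥ A.cramer v) i = A.cramer v i + u i * A.cramer v x := by
    simp only [Matrix.mulVec, dotProduct]
    rw [← Finset.add_sum_erase _ _ (Finset.mem_univ x),
      ← Finset.add_sum_erase _ _ (Finset.mem_erase.2 ⟨hxi.symm, Finset.mem_univ i⟩)]
    have e1 : A i x = u i := by rw [hA]; simp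
    have e2 : A i i = 1 := by rw [hA, Matrix.updateCol_ne hxi.symm, Matrix.one_apply_eq]
    have e3 : ∑ l ∈ (Finset.univ.erase x).erase i, A i l * A.cramer v l = 0 := by
      refine Finset.sum_eq_zero fun l hl => ?_
      rw [Finset.mem_erase, Finset.mem_erase] at hl
      rw [hA, Matrix.updateCol_ne hl.2.1, Matrix.one_apply_ne (Ne.symm hl.1), zero_mul]
    rw [e1, e2, e3]
    ring
  rw [h4, h2] at h3
  rw [← Matrix.cramer_apply]
  linear_combination h3

lemma minor_eq {g h : Matrix ι ι k} (gh : g * h = 1) {x i : ι} (hxi : x ≠ i) (y j : ι) :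
    g.det * ((h.updateCol x (Pi.single y 1)).updateCol i (Pi.single j 1)).det =
      g x y * g i j - g i y * g x j := by
  rw [← Matrix.det_mul, Matrix.mul_updateCol, Matrix.mul_updateCol, gh, det_one_two hxi]
  simp

/-- the determinant of a matrix with two unit columns -/
lemma det_two_le {c : ℝ} (hc : 0 ≤ c) {h : Matrix ι ι k} (hh : ∀ x y, ‖h x y‖ ≤ c) {x i : ι}
    (hxi : x ≠ i) (y j : ι) :
    ‖((h.updateCol x (Pi.single y 1)).updateCol i (Pi.single j 1)).det‖ ≤
      (Fintype.card ι).factorial * c ^ (Fintype.card ι - 2) := by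
  set M := (h.updateCol x (Pi.single y 1)).updateCol i (Pi.single j 1) with hM
  have h1 : ∀ a l, ‖M a l‖ ≤ if l = x ∨ l = i then 1 else c := by
    intro a l
    by_cases hi : l = i
    · rw [if_pos (Or.inr hi), hi, hM, Matrix.updateCol_self, Pi.single_apply]
      split_ifs <;> simp
    by_cases hx : l = x
    · rw [if_pos (Or.inl hx), hM, Matrix.updateCol_ne hi, hx, Matrix.updateCol_self,
        Pi.single_apply]
      split_ifs <;> simp
    · rw [if_neg (by tauto), hM, Matrix.updateCol_ne hi, Matrix.updateCol_ne hx]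
      exact hh a l
  have h2 : ∏ l, (if l = x ∨ l = i then (1 : ℝ) else c) = c ^ (Fintype.card ι - 2) := by
    rw [Finset.prod_ite, Finset.prod_const_one, one_mul, Finset.prod_const]
    congr 1
    have e : (Finset.univ.filter fun l => ¬ (l = x ∨ l = i)) = ({x, i} : Finset ι)ᶜ := by
      ext l; simp
    rw [e, Finset.card_compl, Finset.card_pair hxi]
  rw [Matrix.det_apply']
  refine (norm_sum_le _ _).trans ?_
  have h3 : ∀ σ : Equiv.Perm ι, ‖((Equiv.Perm.sign σ : ℤ) : k) * ∏ l, M (σ l) l‖ ≤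
      c ^ (Fintype.card ι - 2) := by
    intro σ
    rw [norm_mul, norm_prod]
    have hs : ‖((Equiv.Perm.sign σ : ℤ) : k)‖ = 1 := by
      rcases Int.units_eq_one_or (Equiv.Perm.sign σ) with hs | hs <;> rw [hs] <;> simp
    rw [hs, one_mul, ← h2]
    exact Finset.prod_le_prod (fun l _ => norm_nonneg _) fun l _ => h1 _ _
  refine (Finset.sum_le_sum fun σ _ => h3 σ).trans ?_
  rw [Finset.sum_const, Finset.card_univ, Fintype.card_perm, nsmul_eq_mul]

/-- **Minors of order two.** -/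
theorem minor_le {g h : Matrix ι ι k} (gh : g * h = 1) (hd : ‖g.det‖ = 1) {c : ℝ} (hc : 0 ≤ c)
    (hh : ∀ x y, ‖h x y‖ ≤ c) (x y i j : ι) :
    ‖g x y * g i j - g x j * g i y‖ ≤
      (Fintype.card ι).factorial * c ^ (Fintype.card ι - 2) := by
  by_cases hxi : x = i
  · rw [hxi, mul_comm (g i j), sub_self, norm_zero]
    positivity
  · have h1 := minor_eq gh hxi y j
    have h2 := det_two_le hc hh hxi y j
    have e : g x y * g i j - g x j * g i y = g x y * g i j - g i y * g x j := by ring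
    rw [e, ← h1, norm_mul, hd, one_mul]
    exact h2

/-- **From sizes to the pivot form.** -/
theorem nwn_of_sizes {m : ℕ} (hm : Fintype.card ι = m + 1) {C b : ℝ} {g h : Matrix ι ι k}
    {i j : ι} (hC : 1 ≤ C) (hb : 0 < b) (gh : g * h = 1) (hg : h * g = 1) (hd : ‖g.det‖ = 1)
    (hp : ∀ x y, ‖g x y‖ ≤ ‖g i j‖) (lo : b ^ m ≤ C * ‖g i j‖) (hi : ‖g i j‖ ≤ C * b ^ m)
    (hinv : ∀ x y, ‖h x y‖ ≤ C * b) :
    NWn ((m + 1).factorial * C ^ (m + 1)) (b ^ m) b g h i j := by
  have hf : (1 : ℝ) ≤ (m + 1).factorial := by exact_mod_cast Nat.factorial_pos _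
  have hC0 : 0 < C := lt_of_lt_of_le one_pos hC
  have hCC : C ≤ (m + 1).factorial * C ^ (m + 1) := by
    calc C = 1 * C ^ 1 := by ring
      _ ≤ (m + 1).factorial * C ^ (m + 1) :=
        mul_le_mul hf (pow_le_pow_right₀ hC (by omega)) (by positivity) (by positivity)
  have hn : 0 < ‖g i j‖ := by
    have h1 : 0 < b ^ m := by positivity
    by_contra h0
    have h2 : ‖g i j‖ = 0 := le_antisymm (not_lt.1 h0) (norm_nonneg _)
    rw [h2, mul_zero] at lo
    linarith
  refine ⟨hC.trans hCC, by positivity, hb, gh, hg, hp, ?_, ?_, fun x y => ?_, fun x y => ?_⟩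
  · exact lo.trans (mul_le_mul_of_nonneg_right hCC (norm_nonneg _))
  · exact hi.trans (mul_le_mul_of_nonneg_right hCC (by positivity))
  · exact (hinv x y).trans (mul_le_mul_of_nonneg_right hCC hb.le)
  · by_cases hxi : x = i
    · have h0 : EE g i j x y = 0 := by
        have := norm_pos_iff.1 hn
        rw [hxi]
        simp only [EE, Matrix.of_apply]
        field_simp
        ring
      rw [h0, norm_zero]
      positivity
    · have hm1 : 1 ≤ m := by
        have : 1 < Fintype.card ι := Fintype.one_lt_card_iff.2 ⟨x, i, hxi⟩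
        omega
      have h1 := minor_le gh hd (c := C * b) (by positivity) hinv x y i j
      have e : EE g i j x y = (g x y * g i j - g x j * g i y) / g i j := by
        have := norm_pos_iff.1 hn
        simp only [EE, Matrix.of_apply]
        field_simp
      rw [e, norm_div, div_le_div_iff₀ hn hb]
      rw [hm] at h1
      have e2 : m + 1 - 2 = m - 1 := by omega
      rw [e2] at h1
      have e3 : b ^ (m - 1) * b = b ^ m := by
        rw [← pow_succ]; congr 1; omega
      calc ‖g x y * g i j - g x j * g i y‖ * b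
          ≤ (m + 1).factorial * (C * b) ^ (m - 1) * b := mul_le_mul_of_nonneg_right h1 hb.le
        _ = (m + 1).factorial * C ^ (m - 1) * (b ^ (m - 1) * b) := by rw [mul_pow]; ring
        _ = (m + 1).factorial * C ^ (m - 1) * b ^ m := by rw [e3]
        _ ≤ (m + 1).factorial * C ^ (m - 1) * (C * ‖g i j‖) :=
            mul_le_mul_of_nonneg_left lo (by positivity)
        _ = (m + 1).factorial * C ^ (m - 1 + 1) * ‖g i j‖ := by rw [pow_succ]; ring
        _ ≤ (m + 1).factorial * C ^ (m + 1) * ‖g i j‖ := by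
            refine mul_le_mul_of_nonneg_right (mul_le_mul_of_nonneg_left
              (pow_le_pow_right₀ hC (by omega)) (by positivity)) (norm_nonneg _)

end Minor

section Upper

variable {k : Type*} [NormedField k] {ι : Type*} [Fintype ι] [DecidableEq ι] {C a b : ℝ}
  {g h : Matrix ι ι k} {i j : ι}

/-- **Hyperplanes, upper bound.** -/
theorem NWn.vecMul_h_le (H : NWn C a b g h i j) (ν : ι → k) :
    ‖ν ᵥ* h‖ ≤ cn ι * C * b * (‖wd ν (yy g i j)‖ + 1 / (a * b) * ‖ν‖) := by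
  have ha := H.a_pos
  have hb := H.b_pos
  have hC := H.C_pos
  have hn := one_le_cn i
  have hnp := H.n_pos
  rw [H.vecMul_h ν]
  refine (norm_add_le _ _).trans ?_
  rw [norm_smul, Pi.norm_single, norm_one, mul_one]
  have h1 : ‖ν j * (g i j)⁻¹‖ ≤ cn ι * C * b * (1 / (a * b) * ‖ν‖) := by
    rw [norm_mul, norm_inv]
    have e1 : ‖(g i j)‖⁻¹ ≤ C / a := by
      rw [inv_le_comm₀ hnp (by positivity), inv_div, div_le_iff₀ hC, mul_comm]
      exact H.lo
    calc ‖ν j‖ * ‖g i j‖⁻¹ ≤ ‖ν‖ * (C / a) :=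
          mul_le_mul (norm_le_pi_norm _ _) e1 (by positivity) (norm_nonneg _)
      _ = 1 * (C * b * (1 / (a * b) * ‖ν‖)) := by field_simp
      _ ≤ cn ι * (C * b * (1 / (a * b) * ‖ν‖)) :=
          mul_le_mul_of_nonneg_right hn (by positivity)
      _ = _ := by ring
  have h2 : ‖tr g i j ν ᵥ* h‖ ≤ cn ι * C * b * ‖wd ν (yy g i j)‖ := by
    refine (vecMul_le (mul_nonneg hC.le hb.le) H.inv _).trans ?_
    have := H.tr_le ν
    calc cn ι * (C * b * ‖tr g i j ν‖) ≤ cn ι * (C * b * ‖wd ν (yy g i j)‖) := by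
          have := cn_nonneg (ι := ι)
          gcongr
      _ = _ := by ring
  linarith

end Upper

section Group

variable {k : Type*} [NormedField k] {ι : Type*} [Fintype ι] [DecidableEq ι]

/-- the maximum of the norms of the entries -/
noncomputable def nmn (h : SpecialLinearGroup ι k) : ℝ := ‖(fun i j => h.1 i j : ι → ι → k)‖

lemma entry_le (h : SpecialLinearGroup ι k) (a b : ι) : ‖h.1 a b‖ ≤ nmn h :=
  (norm_le_pi_norm (fun j => h.1 a j) b).trans
    (norm_le_pi_norm (fun i j => h.1 i j : ι → ι → k) a)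

lemma nmn_le {h : SpecialLinearGroup ι k} {c : ℝ} (hc : 0 ≤ c) (H : ∀ a b, ‖h.1 a b‖ ≤ c) :
    nmn h ≤ c :=
  (pi_norm_le_iff_of_nonneg hc).2 fun i => (pi_norm_le_iff_of_nonneg hc).2 fun j => H i j

lemma nmn_nonneg (h : SpecialLinearGroup ι k) : 0 ≤ nmn h := norm_nonneg _

lemma exists_pivn [Nonempty ι] (h : SpecialLinearGroup ι k) :
    ∃ i j, ‖h.1 i j‖ = nmn h ∧ ∀ a b, ‖h.1 a b‖ ≤ ‖h.1 i j‖ := by
  obtain ⟨p, hp⟩ := Finite.exists_max fun p : ι × ι => ‖h.1 p.1 p.2‖
  exact ⟨p.1, p.2, le_antisymm (entry_le h _ _)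
    (nmn_le (norm_nonneg _) fun a b => hp (a, b)), fun a b => hp (a, b)⟩

lemma piv_eq_nmn {h : SpecialLinearGroup ι k} {i j : ι} (hp : ∀ a b, ‖h.1 a b‖ ≤ ‖h.1 i j‖) :
    ‖h.1 i j‖ = nmn h :=
  le_antisymm (entry_le h _ _) (nmn_le (norm_nonneg _) hp)

lemma coe_mul_inv (h : SpecialLinearGroup ι k) : h.1 * (h⁻¹).1 = 1 := by
  have := congrArg Subtype.val (mul_inv_cancel h)
  exact this

lemma coe_inv_mul (h : SpecialLinearGroup ι k) : (h⁻¹).1 * h.1 = 1 := by
  have := congrArg Subtype.val (inv_mul_cancel h)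
  exact this

/-- the constant of the pivot form -/
noncomputable def KR (m : ℕ) (R : ℝ) : ℝ :=
  (m + 1).factorial * (Real.exp 1 * (1 + |R|)) ^ (m + 1)

lemma one_le_KR (m : ℕ) (R : ℝ) : 1 ≤ KR m R := by
  have hf : (1 : ℝ) ≤ (m + 1).factorial := by exact_mod_cast Nat.factorial_pos _
  have h1 : (1 : ℝ) ≤ Real.exp 1 := Real.one_le_exp zero_le_one
  have h2 : (1 : ℝ) ≤ 1 + |R| := by linarith [abs_nonneg R]
  have h3 : (1 : ℝ) ≤ Real.exp 1 * (1 + |R|) := one_le_mul_of_one_le_of_one_le h1 h2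
  exact one_le_mul_of_one_le_of_one_le hf (one_le_pow₀ h3)

/-- **Near-wall elements of a shell, in pivot form.** -/
theorem nwn_sh {m : ℕ} (hm : Fintype.card ι = m + 1) (hm0 : 0 < m) {R s : ℝ}
    {h : SpecialLinearGroup ι k} (h1 : Real.exp s ≤ nmn h) (h2 : nmn h ≤ Real.exp (s + 1))
    (hN : nmn h⁻¹ ^ m ≤ R * nmn h) {i j : ι} (hp : ∀ a b, ‖h.1 a b‖ ≤ ‖h.1 i j‖) :
    NWn (KR m R) (Real.exp s) (Real.exp (s / m)) h.1 (h⁻¹).1 i j := by
  set b := Real.exp (s / m) with hb
  have hbm : b ^ m = Real.exp s := by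
    rw [hb, ← Real.exp_nat_mul]
    congr 1
    have : (m : ℝ) ≠ 0 := by exact_mod_cast hm0.ne'
    field_simp
  have hb0 : 0 < b := Real.exp_pos _
  have he : (1 : ℝ) ≤ Real.exp 1 := Real.one_le_exp zero_le_one
  have hR : 0 ≤ |R| := abs_nonneg R
  set C := Real.exp 1 * (1 + |R|) with hC'
  have hC : 1 ≤ C := one_le_mul_of_one_le_of_one_le he (by linarith)
  have hnm := piv_eq_nmn hp
  have hub : nmn h ≤ Real.exp 1 * b ^ m := by
    rw [hbm, ← Real.exp_add, add_comm]
    exact h2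
  have hRC : Real.exp 1 * |R| ≤ C := by
    rw [hC']; exact mul_le_mul_of_nonneg_left (by linarith) (by linarith)
  have heC : Real.exp 1 ≤ C := by
    rw [hC']; exact le_mul_of_one_le_right (by linarith) (by linarith)
  have hd : ‖h.1.det‖ = 1 := by rw [h.2, norm_one]
  have hinv : nmn h⁻¹ ≤ C * b := by
    have h3 : nmn h⁻¹ ^ m ≤ (C * b) ^ m := by
      calc nmn h⁻¹ ^ m ≤ R * nmn h := hN
        _ ≤ |R| * nmn h := mul_le_mul_of_nonneg_right (le_abs_self R) (nmn_nonneg h)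
        _ ≤ |R| * (Real.exp 1 * b ^ m) := mul_le_mul_of_nonneg_left hub hR
        _ = (Real.exp 1 * |R|) * b ^ m := by ring
        _ ≤ C ^ m * b ^ m := by
          refine mul_le_mul_of_nonneg_right (hRC.trans ?_) (by positivity)
          calc C = C ^ 1 := (pow_one C).symm
            _ ≤ C ^ m := pow_le_pow_right₀ hC (by omega)
        _ = (C * b) ^ m := (mul_pow C b m).symm
    exact le_of_pow_le_pow_left₀ hm0.ne' (by positivity) h3
  have key := nwn_of_sizes (h := (h⁻¹).1) hm hC hb0 (coe_mul_inv h) (coe_inv_mul h) hd hp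
    (by rw [hbm, hnm]; exact h1.trans (le_mul_of_one_le_left (nmn_nonneg h) hC))
    (by rw [hnm]; exact hub.trans (mul_le_mul_of_nonneg_right heC (by positivity)))
    (fun x y => (entry_le h⁻¹ x y).trans hinv)
  rw [hbm] at key
  exact key

/-- closeness of two points to a third one -/
lemma wd_trans_n {y u v : ι → k} (hy : ‖y‖ = 1) {r : ℝ} (hu1 : ‖u‖ ≤ 1) (hv1 : ‖v‖ ≤ 1)
    (hu : ‖wd y u‖ ≤ r) (hv : ‖wd y v‖ ≤ r) : ‖wd u v‖ ≤ 3 * r := by
  have hr : 0 ≤ r := (norm_nonneg _).trans hu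
  have hne : Nonempty ι := by
    by_contra h0
    rw [not_nonempty_iff] at h0
    have : y = 0 := Subsingleton.elim _ _
    rw [this, norm_zero] at hy
    exact zero_ne_one hy
  obtain ⟨c, hc⟩ := Finite.exists_max fun c => ‖y c‖
  have hyc : ‖y c‖ = 1 := by
    rw [← hy]
    exact le_antisymm (norm_le_pi_norm y c) ((pi_norm_le_iff_of_nonneg (norm_nonneg _)).2 hc)
  refine (pi_norm_le_iff_of_nonneg (by positivity)).2 fun p => ?_
  have e : y c * wd u v p = wd y u (c, p.1) * v p.2 - wd y u (c, p.2) * v p.1 +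
      u c * wd y v p := by
    simp only [wd]
    ring
  have h1 : ‖wd u v p‖ = ‖y c * wd u v p‖ := by rw [norm_mul, hyc, one_mul]
  have h2 : ∀ a b, ‖wd y u (c, a) * v b‖ ≤ r := fun a b => by
    rw [norm_mul]
    calc ‖wd y u (c, a)‖ * ‖v b‖ ≤ r * 1 :=
          mul_le_mul ((norm_le_pi_norm _ _).trans hu) ((norm_le_pi_norm v b).trans hv1)
            (norm_nonneg _) hr
      _ = r := mul_one r
  have h3 : ‖u c * wd y v p‖ ≤ r := by
    rw [norm_mul]
    calc ‖u c‖ * ‖wd y v p‖ ≤ 1 * r :=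
          mul_le_mul ((norm_le_pi_norm u c).trans hu1) ((norm_le_pi_norm _ _).trans hv)
            (norm_nonneg _) zero_le_one
      _ = r := one_mul r
  rw [h1, e]
  refine (norm_add_le _ _).trans ?_
  have h4 := norm_sub_le (wd y u (c, p.1) * v p.2) (wd y u (c, p.2) * v p.1)
  linarith [h2 p.1 p.2, h2 p.2 p.1]

/-- **Capacity, group form**: a bounded number of near-wall elements of the same sizes and pivot
have their repelling hyperplane in a given ball of radius `D / (a * b)`. -/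
theorem cell_card_n {Γ : Type*} [Group Γ] (q : Γ →* SpecialLinearGroup ι k)
    (hfin : ∀ R : ℝ, {γ | nmn (q γ) ≤ R}.Finite) {C D : ℝ} (hC : 1 ≤ C) (hD : 1 ≤ D) :
    ∃ N : ℕ, ∀ (a b : ℝ) (i j : ι) (y : ι → k) (S : Finset Γ), ‖y‖ = 1 →
      (∀ γ ∈ S, NWn C a b (q γ).1 ((q γ)⁻¹).1 i j ∧ ‖wd y (yy (q γ).1 i j)‖ ≤ D / (a * b)) →
      S.card ≤ N := by
  classical
  have hf := hfin (3 * cn ι * C ^ 2 * (3 * D))
  refine ⟨hf.toFinset.card, fun a b i j y S hy hS => ?_⟩
  rcases S.eq_empty_or_nonempty with rfl | ⟨g0, hg0⟩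
  · exact Nat.zero_le _
  refine Finset.card_le_card_of_injOn (fun g => g * g0⁻¹) ?_
    fun a _ b _ hab => mul_right_cancel hab
  intro g hg
  have hg' := hS g (Finset.mem_coe.mp hg)
  have hg0' := hS g0 hg0
  simp only [Set.Finite.coe_toFinset]
  change nmn (q (g * g0⁻¹)) ≤ _
  rw [map_mul, map_inv]
  have hn := cn_nonneg (ι := ι)
  refine nmn_le (by positivity) fun x z => ?_
  have h1 := wd_trans_n hy hg'.1.yy_norm.le hg0'.1.yy_norm.le hg'.2 hg0'.2
  refine cap hg0'.1 hg'.1 (by linarith) ((yy_sub_le hg0'.1 hg'.1).trans ?_) x z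
  rw [mul_div_assoc]
  exact h1

/-- the same for closeness in one chart -/
theorem cell_card_n' {Γ : Type*} [Group Γ] (q : Γ →* SpecialLinearGroup ι k)
    (hfin : ∀ R : ℝ, {γ | nmn (q γ) ≤ R}.Finite) {C D : ℝ} (hC : 1 ≤ C) (hD : 1 ≤ D) :
    ∃ N : ℕ, ∀ (a b : ℝ) (i j : ι) (S : Finset Γ),
      (∀ γ ∈ S, NWn C a b (q γ).1 ((q γ)⁻¹).1 i j) →
      (∀ γ ∈ S, ∀ γ' ∈ S, ‖yy (q γ').1 i j - yy (q γ).1 i j‖ ≤ D / (a * b)) →
      S.card ≤ N := by
  classical
  have hf := hfin (3 * cn ι * C ^ 2 * D)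
  refine ⟨hf.toFinset.card, fun a b i j S hS hS' => ?_⟩
  rcases S.eq_empty_or_nonempty with rfl | ⟨g0, hg0⟩
  · exact Nat.zero_le _
  refine Finset.card_le_card_of_injOn (fun g => g * g0⁻¹) ?_
    fun a _ b _ hab => mul_right_cancel hab
  intro g hg
  simp only [Set.Finite.coe_toFinset]
  change nmn (q (g * g0⁻¹)) ≤ _
  rw [map_mul, map_inv]
  have hn := cn_nonneg (ι := ι)
  refine nmn_le (by positivity) fun x z => ?_
  exact cap (hS g0 hg0) (hS g (Finset.mem_coe.mp hg)) hD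
    (hS' g0 hg0 g (Finset.mem_coe.mp hg)) x z

end Group

section Att

variable {k : Type*} [NontriviallyNormedField k] {ι : Type*} [Fintype ι] [DecidableEq ι]

/-- the attracting point of `g` is in `A` up to an error `1 / T` -/
def Attn (T : ℝ) (A : Set (ℙ k (ι → k))) (g : SpecialLinearGroup ι k) : Prop :=
  ∃ (v φ : ι → k) (hv : v ≠ 0), cl v hv ∈ A ∧ ∀ i j, ‖g.1 i j - v i * φ j‖ ≤ nmn g / T

/-- the attracting point is close to the points of the definition of `Attn` -/
theorem wd_uu_le {T : ℝ} (hT : 0 < T) {g : SpecialLinearGroup ι k} {i j : ι}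
    (hp : ∀ a b, ‖g.1 a b‖ ≤ ‖g.1 i j‖) (h0 : g.1 i j ≠ 0) {v φ : ι → k}
    (hφ : ∀ i j, ‖g.1 i j - v i * φ j‖ ≤ nmn g / T) :
    ‖wd v (uu g.1 i j)‖ ≤ 2 * ‖v‖ / T := by
  have hgij : 0 < ‖g.1 i j‖ := norm_pos_iff.2 h0
  have hnm : ‖g.1 i j‖ = nmn g := piv_eq_nmn hp
  set e : ι → k := fun a => g.1 a j - v a * φ j with he
  have e1 : wd v (uu g.1 i j) = (g.1 i j)⁻¹ • wd v e := by
    ext p
    simp only [wd, uu, he, Pi.smul_apply, smul_eq_mul]
    field_simp
    ring
  have e2 : ‖e‖ ≤ nmn g / T := (pi_norm_le_iff_of_nonneg (by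
    rw [← hnm]; positivity)).2 fun a => hφ a j
  rw [e1, norm_smul, norm_inv, hnm]
  have h3 : ‖wd v e‖ ≤ 2 * (‖v‖ * (nmn g / T)) :=
    (wd_le v e).trans (mul_le_mul_of_nonneg_left
      (mul_le_mul_of_nonneg_left e2 (norm_nonneg _)) zero_le_two)
  have h4 : 0 < nmn g := by rw [← hnm]; exact hgij
  calc (nmn g)⁻¹ * ‖wd v e‖ ≤ (nmn g)⁻¹ * (2 * (‖v‖ * (nmn g / T))) :=
        mul_le_mul_of_nonneg_left h3 (by positivity)
    _ = 2 * ‖v‖ / T := by field_simp

/-- the attracting point is in a neighbourhood -/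
theorem att_xp_n [ProperSpace k] {U V : Set (ℙ k (ι → k))} (hU : IsClosed U) (hV : IsOpen V)
    (hUV : U ⊆ V) : ∃ T₀ : ℝ, 0 < T₀ ∧ ∀ T ≥ T₀, ∀ C a b (g : SpecialLinearGroup ι k) i j
    (h : NWn C a b g.1 (g⁻¹).1 i j), Attn T U g → xp h ∈ V := by
  have hdis : Disjoint U Vᶜ := by
    rw [Set.disjoint_compl_right_iff_subset]; exact hUV
  obtain ⟨d, hd, hd'⟩ := exists_angle hU hV.isClosed_compl hdis
  refine ⟨4 / d, by positivity, fun T hT C a b g i j h hA => ?_⟩
  obtain ⟨v, φ, hv, hvU, hφ⟩ := hA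
  by_contra hn
  have hT0 : 0 < T := lt_of_lt_of_le (by positivity) hT
  have h1 := hd' v (uu g.1 i j) hv h.uu_ne hvU hn
  rw [h.uu_norm, mul_one] at h1
  have h2 := wd_uu_le hT0 h.piv h.ne hφ
  have hv0 : 0 < ‖v‖ := norm_pos_iff.2 hv
  have h5 : d * ‖v‖ ≤ 2 * ‖v‖ / T := h1.trans h2
  rw [le_div_iff₀ hT0] at h5
  have h6 : 4 ≤ T * d := by
    rwa [ge_iff_le, div_le_iff₀ hd] at hT
  nlinarith

/-- the inverse transpose -/
def taun (g : SpecialLinearGroup ι k) : SpecialLinearGroup ι k :=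
  ⟨(g⁻¹).1.transpose, by rw [Matrix.det_transpose]; exact (g⁻¹).2⟩

/-- a hyperplane and its translate -/
theorem taun_line (g : SpecialLinearGroup ι k) (n : ι → k) (hn : n ≠ 0) :
    ∃ (l : ι → k) (hl : l ≠ 0), taun g • cl n hn = cl l hl ∧ l ᵥ* g.1 = n ∧ n ᵥ* (g⁻¹).1 = l := by
  have hl : (taun g).1 *ᵥ n ≠ 0 := (smul_ne_zero_iff_ne (taun g)).2 hn
  have e : (taun g).1 = (g⁻¹).1ᵀ := rfl
  refine ⟨(taun g).1 *ᵥ n, hl, rfl, ?_, ?_⟩
  · rw [e, mulVec_transpose, vecMul_vecMul, coe_inv_mul, vecMul_one]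
  · rw [e, mulVec_transpose]

end Att

end Vale.Agent.P092.H87.N
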