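import Vale.Agent.P092.H87.EndF
import Mathlib.Analysis.InnerProductSpace.Spectrum

/-!
P092, block (END*) of the products theorem, part A: amplifications, Hilbert-Schmidt operators.
-/

open scoped InnerProductSpace

namespace Vale.Agent.P092.H87

set_option linter.unusedSectionVars false
set_option linter.style.haveILetI false

variable {H : Type*} [NormedAddCommGroup H] [InnerProductSpace ℂ H] [CompleteSpace H]
  {ι : Type*}

/-! ### amplification -/

/-- the Hilbert space `ℓ²(ι; H)` -/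
abbrev LL (ι : Type*) (H : Type*) [NormedAddCommGroup H] := lp (fun _ : ι => H) 2

lemma memLL {f : ι → H} (h : Summable fun j => ‖f j‖ ^ 2) : Memℓp f 2 := by
  refine memℓp_gen ?_
  simpa using h

lemma summableLL (x : LL ι H) : Summable fun j => ‖x j‖ ^ 2 := by
  have := (lp.memℓp x).summable (by norm_num)
  simpa using this

lemma normLL (x : LL ι H) : ‖x‖ ^ 2 = ∑' j, ‖x j‖ ^ 2 := by
  have := lp.norm_rpow_eq_tsum (p := 2) (by norm_num) x
  simpa using this

lemma summable_apply (T : H →L[ℂ] H) {f : ι → H} (h : Summable fun j => ‖f j‖ ^ 2) :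
    Summable fun j => ‖T (f j)‖ ^ 2 := by
  refine Summable.of_nonneg_of_le (fun _ => sq_nonneg _) (fun j => ?_) (h.mul_left (‖T‖ ^ 2))
  rw [← mul_pow]
  exact pow_le_pow_left₀ (norm_nonneg _) (T.le_opNorm _) 2

/-- the diagonal operator -/
noncomputable def ampₗ (T : H →L[ℂ] H) : LL ι H →ₗ[ℂ] LL ι H where
  toFun x := ⟨fun j => T (x j), memLL (summable_apply T (summableLL x))⟩
  map_add' x y := by
    ext j
    exact map_add T (x j) (y j)
  map_smul' c x := by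
    ext j
    exact map_smul T c (x j)

/-- the diagonal operator -/
noncomputable def amp (T : H →L[ℂ] H) : LL ι H →L[ℂ] LL ι H :=
  LinearMap.mkContinuous (ampₗ T) ‖T‖ (by
    intro x
    have h1 : ‖ampₗ T x‖ ^ 2 ≤ (‖T‖ * ‖x‖) ^ 2 := by
      rw [mul_pow, normLL, normLL, ← tsum_mul_left]
      refine Summable.tsum_le_tsum (fun j => ?_) (summableLL _) ((summableLL x).mul_left _)
      rw [← mul_pow]
      exact pow_le_pow_left₀ (norm_nonneg _) (T.le_opNorm _) 2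
    exact le_of_sq_le_sq h1 (mul_nonneg (norm_nonneg _) (norm_nonneg _)))

lemma amp_apply (T : H →L[ℂ] H) (x : LL ι H) (j : ι) : amp T x j = T (x j) := rfl

lemma amp_mul (S T : H →L[ℂ] H) (x : LL ι H) : amp (S * T) x = amp S (amp T x) := rfl

lemma amp_add (S T : H →L[ℂ] H) (x : LL ι H) : amp (S + T) x = amp S x + amp T x := by
  ext j
  rfl

lemma amp_smul (c : ℂ) (T : H →L[ℂ] H) (x : LL ι H) : amp (c • T) x = c • amp T x := by
  ext j
  rfl

lemma amp_single [DecidableEq ι] (T : H →L[ℂ] H) (i : ι) (y : H) :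
    amp T (lp.single 2 i y : LL ι H) = lp.single 2 i (T y) := by
  ext j
  rw [amp_apply]
  by_cases h : j = i
  · subst h
    rw [lp.single_apply_self, lp.single_apply_self]
  · rw [lp.single_apply_ne _ _ _ h, lp.single_apply_ne _ _ _ h, map_zero]

lemma inner_amp (T : H →L[ℂ] H) (x y : LL ι H) : ⟪amp (star T) x, y⟫_ℂ = ⟪x, amp T y⟫_ℂ := by
  rw [lp.inner_eq_tsum, lp.inner_eq_tsum]
  refine tsum_congr fun j => ?_
  rw [amp_apply, amp_apply, ContinuousLinearMap.star_eq_adjoint,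
    ContinuousLinearMap.adjoint_inner_left]

/-- the cyclic subspace -/
noncomputable def cyc (S : Set (H →L[ℂ] H)) (x : LL ι H) : Submodule ℂ (LL ι H) :=
  (Submodule.span ℂ {y | ∃ s ∈ S, y = amp s x}).topologicalClosure

instance (S : Set (H →L[ℂ] H)) (x : LL ι H) : (cyc S x).HasOrthogonalProjection := by
  haveI : CompleteSpace (cyc S x) :=
    (Submodule.isClosed_topologicalClosure _).completeSpace_coe
  infer_instance

lemma mem_cyc {S : Set (H →L[ℂ] H)} {x : LL ι H} {s : H →L[ℂ] H} (hs : s ∈ S) :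
    amp s x ∈ cyc S x :=
  Submodule.le_topologicalClosure _ (Submodule.subset_span ⟨s, hs, rfl⟩)

lemma cyc_le {S : Set (H →L[ℂ] H)} {x : LL ι H} {K : Submodule ℂ (LL ι H)}
    (hK : IsClosed (K : Set (LL ι H))) (h : ∀ s ∈ S, amp s x ∈ K) : cyc S x ≤ K := by
  refine Submodule.topologicalClosure_minimal _ (Submodule.span_le.2 ?_) hK
  rintro _ ⟨s, hs, rfl⟩
  exact h s hs

lemma amp_cyc {S : Set (H →L[ℂ] H)} (hm : ∀ s ∈ S, ∀ t ∈ S, s * t ∈ S) {x : LL ι H}
    {s : H →L[ℂ] H} (hs : s ∈ S) {y : LL ι H} (hy : y ∈ cyc S x) : amp s y ∈ cyc S x := by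
  have h1 : cyc S x ≤ (cyc S x).comap ((amp s : LL ι H →L[ℂ] LL ι H) :
      LL ι H →ₗ[ℂ] LL ι H) := by
    refine cyc_le ((Submodule.isClosed_topologicalClosure _).preimage
        (amp s : LL ι H →L[ℂ] LL ι H).continuous) fun t ht => ?_
    exact mem_cyc (hm s hs t ht)
  exact h1 hy

/-- the commutation relation defining the bicommutant -/
def Bic (S : Set (H →L[ℂ] H)) (T : H →L[ℂ] H) : Prop :=
  ∀ y : H →L[ℂ] H, (∀ s ∈ S, y * s = s * y) → y * T = T * y

/-- **amplified bicommutant lemma** -/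
theorem bic_cyc {S : Set (H →L[ℂ] H)} (hm : ∀ s ∈ S, ∀ t ∈ S, s * t ∈ S)
    (hst : ∀ s ∈ S, star s ∈ S) {x : LL ι H} (hx : x ∈ cyc S x)
    {T : H →L[ℂ] H} (hT : Bic S T) : amp T x ∈ cyc S x := by
  classical
  set Q := (cyc S x).starProjection with hQ
  have hQs : ∀ y z, ⟪Q y, z⟫_ℂ = ⟪y, Q z⟫_ℂ := fun y z =>
    Submodule.inner_starProjection_left_eq_right (cyc S x) y z
  have hQm : ∀ y, Q y ∈ cyc S x := fun y => Submodule.starProjection_apply_mem _ _
  have hQe : ∀ y, y ∈ cyc S x → Q y = y := fun y hy => Submodule.starProjection_eq_self_iff.2 hy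
  -- `Q` commutes with the algebra
  have hQS : ∀ s ∈ S, ∀ y, Q (amp s y) = amp s (Q y) := by
    intro s hs y
    refine ext_inner_left ℂ fun z => ?_
    have h1 : ⟪z, amp s (Q y)⟫_ℂ = ⟪z, Q (amp s (Q y))⟫_ℂ := by
      rw [hQe _ (amp_cyc hm hs (hQm y))]
    have h2 : ⟪amp (star s) (Q z), Q y⟫_ℂ = ⟪amp (star s) (Q z), y⟫_ℂ := by
      rw [← hQs, hQe _ (amp_cyc hm (hst s hs) (hQm z))]
    rw [h1, ← hQs, ← hQs, ← inner_amp, ← inner_amp, h2]
  -- its matrix coefficients commute with the algebra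
  let q : ι → ι → (H →L[ℂ] H) := fun i j =>
    (lp.evalCLM ℂ (fun _ : ι => H) 2 i) ∘L Q ∘L
      (lp.singleContinuousLinearMap ℂ (fun _ : ι => H) 2 j)
  have hq : ∀ i j y, q i j y = Q (lp.single 2 j y : LL ι H) i := fun i j y => rfl
  have hqS : ∀ i j, ∀ s ∈ S, q i j * s = s * q i j := by
    intro i j s hs
    ext y
    show q i j (s y) = s (q i j y)
    rw [hq, hq, ← amp_single, hQS s hs, amp_apply]
  have hqT : ∀ i j, q i j * T = T * q i j := fun i j => hT _ (hqS i j)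
  -- hence `Q` commutes with the amplification of `T`
  have h3 : ∀ i, (lp.evalCLM ℂ (fun _ : ι => H) 2 i) ∘L Q ∘L amp T =
      T ∘L (lp.evalCLM ℂ (fun _ : ι => H) 2 i) ∘L Q := by
    intro i
    refine lp.ext_continuousLinearMap (by norm_num) fun j => ?_
    ext y
    have h4 : q i j (T y) = T (q i j y) := congrArg (fun A : H →L[ℂ] H => A y) (hqT i j)
    rw [hq, hq, ← amp_single] at h4
    exact h4
  have h4 : Q (amp T x) = amp T x := by
    ext i
    have h5 := congrArg (fun A : LL ι H →L[ℂ] H => A x) (h3 i)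
    have h6 : Q (amp T x) i = T (Q x i) := h5
    rw [h6, hQe x hx, amp_apply]
  rw [← h4]
  exact hQm _

/-! ### Hilbert-Schmidt operators -/

section HS

variable (b : HilbertBasis ι ℂ H)

/-- Hilbert-Schmidt operators -/
def HSb (A : H →L[ℂ] H) : Prop := Summable fun j => ‖A (b j)‖ ^ 2

/-- a Hilbert-Schmidt operator as a vector -/
noncomputable def hs {A : H →L[ℂ] H} (h : HSb b A) : LL ι H := ⟨fun j => A (b j), memLL h⟩

lemma hs_apply {A : H →L[ℂ] H} (h : HSb b A) (j : ι) : hs b h j = A (b j) := rfl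

lemma HSb.mul_left {A : H →L[ℂ] H} (h : HSb b A) (T : H →L[ℂ] H) : HSb b (T * A) :=
  summable_apply T h

lemma amp_hs {A : H →L[ℂ] H} (h : HSb b A) (T : H →L[ℂ] H) :
    amp T (hs b h) = hs b (h.mul_left b T) := rfl

lemma parseval (x : H) : HasSum (fun k => ‖⟪x, b k⟫_ℂ‖ ^ 2) (‖x‖ ^ 2) := by
  have h1 := b.hasSum_inner_mul_inner x x
  have h2 : ∀ v, ⟪x, b v⟫_ℂ * ⟪b v, x⟫_ℂ = ((‖⟪x, b v⟫_ℂ‖ ^ 2 : ℝ) : ℂ) := by
    intro v
    rw [← inner_conj_symm (b v) x, RCLike.mul_conj]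
    push_cast
    rfl
  simp_rw [h2] at h1
  rw [inner_self_eq_norm_sq_to_K] at h1
  have h4 : HasSum (fun k => ((‖⟪x, b k⟫_ℂ‖ ^ 2 : ℝ) : ℂ)) ((‖x‖ ^ 2 : ℝ) : ℂ) := by
    simpa using h1
  exact_mod_cast h4

lemma HSb.summable_prod {A : H →L[ℂ] H} (h : HSb b A) :
    Summable fun p : ι × ι => ‖⟪A (b p.1), b p.2⟫_ℂ‖ ^ 2 := by
  rw [summable_prod_of_nonneg (fun _ => sq_nonneg _)]
  refine ⟨fun j => (parseval b (A (b j))).summable, ?_⟩
  have h1 : ∀ j, ∑' k, ‖⟪A (b j), b k⟫_ℂ‖ ^ 2 = ‖A (b j)‖ ^ 2 := fun j =>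
    (parseval b (A (b j))).tsum_eq
  simp_rw [h1]
  exact h

/-- the trace is cyclic on Hilbert-Schmidt operators -/
lemma trace_cyclic {A B : H →L[ℂ] H} (hA : HSb b A) (hB : HSb b B) :
    ∑' j, ⟪A (b j), B (b j)⟫_ℂ = ∑' k, ⟪star B (b k), star A (b k)⟫_ℂ := by
  have hf : Summable fun p : ι × ι => ⟪A (b p.1), b p.2⟫_ℂ * ⟪b p.2, B (b p.1)⟫_ℂ := by
    refine Summable.of_norm_bounded
      (g := fun p : ι × ι => ‖⟪A (b p.1), b p.2⟫_ℂ‖ ^ 2 + ‖⟪B (b p.1), b p.2⟫_ℂ‖ ^ 2)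
      ((hA.summable_prod b).add (hB.summable_prod b)) fun p => ?_
    rw [norm_mul, ← inner_conj_symm (b p.2), RCLike.norm_conj]
    nlinarith [sq_nonneg (‖⟪A (b p.1), b p.2⟫_ℂ‖ - ‖⟪B (b p.1), b p.2⟫_ℂ‖),
      sq_nonneg (‖⟪A (b p.1), b p.2⟫_ℂ‖), sq_nonneg (‖⟪B (b p.1), b p.2⟫_ℂ‖)]
  have h1 : ∑' j, ⟪A (b j), B (b j)⟫_ℂ =
      ∑' j, ∑' k, ⟪A (b j), b k⟫_ℂ * ⟪b k, B (b j)⟫_ℂ := by
    refine tsum_congr fun j => ?_
    rw [b.tsum_inner_mul_inner]
  have h2 : ∑' k, ⟪star B (b k), star A (b k)⟫_ℂ =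
      ∑' k, ∑' j, ⟪A (b j), b k⟫_ℂ * ⟪b k, B (b j)⟫_ℂ := by
    refine tsum_congr fun k => ?_
    rw [← b.tsum_inner_mul_inner]
    refine tsum_congr fun j => ?_
    rw [ContinuousLinearMap.star_eq_adjoint, ContinuousLinearMap.star_eq_adjoint,
      ContinuousLinearMap.adjoint_inner_left, ContinuousLinearMap.adjoint_inner_right, mul_comm]
  rw [h1, h2]
  exact (Summable.tsum_comm (f := fun j k => ⟪A (b j), b k⟫_ℂ * ⟪b k, B (b j)⟫_ℂ) hf).symm

/-- the adjoint of a Hilbert-Schmidt operator -/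
lemma HSb.star {A : H →L[ℂ] H} (h : HSb b A) : HSb b (star A) ∧
    ∑' k, ‖star A (b k)‖ ^ 2 = ∑' j, ‖A (b j)‖ ^ 2 := by
  have h1 := h.summable_prod b
  have h2 := h1.prod_symm
  have h3 : ∀ k, ∑' j, ‖⟪A (b j), b k⟫_ℂ‖ ^ 2 = ‖Star.star A (b k)‖ ^ 2 := by
    intro k
    rw [← (parseval b (Star.star A (b k))).tsum_eq]
    refine tsum_congr fun j => ?_
    rw [ContinuousLinearMap.star_eq_adjoint, ContinuousLinearMap.adjoint_inner_left,
      ← inner_conj_symm (b k), RCLike.norm_conj]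
  have h4 : ∀ j, ∑' k, ‖⟪A (b j), b k⟫_ℂ‖ ^ 2 = ‖A (b j)‖ ^ 2 := fun j =>
    (parseval b (A (b j))).tsum_eq
  have h5 : Summable fun k => ∑' j, ‖⟪A (b j), b k⟫_ℂ‖ ^ 2 := h2.prod
  refine ⟨?_, ?_⟩
  · unfold HSb
    simp_rw [← h3]
    exact h5
  · simp_rw [← h3, ← h4]
    exact Summable.tsum_comm (f := fun j k => ‖⟪A (b j), b k⟫_ℂ‖ ^ 2) h1

lemma HSb.opNorm_le {A : H →L[ℂ] H} (h : HSb b A) : ‖A‖ ^ 2 ≤ ∑' j, ‖A (b j)‖ ^ 2 := by
  have hs := h.star b
  have h0 : 0 ≤ ∑' j, ‖A (b j)‖ ^ 2 := tsum_nonneg fun _ => sq_nonneg _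
  have h1 : ‖A‖ ≤ Real.sqrt (∑' j, ‖A (b j)‖ ^ 2) := by
    refine A.opNorm_le_bound (Real.sqrt_nonneg _) fun x => ?_
    refine le_of_sq_le_sq ?_ (mul_nonneg (Real.sqrt_nonneg _) (norm_nonneg _))
    rw [mul_pow, Real.sq_sqrt h0, ← hs.2, ← (parseval b (A x)).tsum_eq, ← tsum_mul_right]
    refine Summable.tsum_le_tsum (fun k => ?_) (parseval b (A x)).summable
      (hs.1.mul_right _)
    rw [← mul_pow]
    refine pow_le_pow_left₀ (norm_nonneg _) ?_ 2
    rw [← ContinuousLinearMap.adjoint_inner_right, ← ContinuousLinearMap.star_eq_adjoint,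
      mul_comm]
    exact norm_inner_le_norm _ _
  calc ‖A‖ ^ 2 ≤ Real.sqrt (∑' j, ‖A (b j)‖ ^ 2) ^ 2 := pow_le_pow_left₀ (norm_nonneg _) h1 2
    _ = _ := Real.sq_sqrt h0

/-- Hilbert-Schmidt operators are compact -/
lemma HSb.compact {A : H →L[ℂ] H} (hA : HSb b A) : IsCompactOperator A := by
  classical
  -- the truncations
  let P : Finset ι → (H →L[ℂ] H) := fun F => ∑ j ∈ F, (innerSL ℂ (b j)).smulRight (A (b j))
  have hP : ∀ F x, P F x = ∑ j ∈ F, ⟪b j, x⟫_ℂ • A (b j) := by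
    intro F x
    simp only [P, sum_apply]
    rfl
  have hPc : ∀ F, IsCompactOperator (P F) := by
    intro F
    have h1 : P F ∈ compactOperator (RingHom.id ℂ) H H := by
      refine Submodule.sum_mem _ fun j _ => ?_
      show IsCompactOperator ((innerSL ℂ (b j)).smulRight (A (b j)))
      exact (isCompactOperator_of_locallyCompactSpace_dom (innerSL ℂ (b j))).clm_comp
        ((ContinuousLinearMap.id ℂ ℂ).smulRight (A (b j)))
    exact h1
  have hd : ∀ F j, (A - P F) (b j) = if j ∈ F then 0 else A (b j) := by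
    intro F j
    rw [sub_apply, hP]
    have h1 : ∀ i ∈ F, ⟪b i, b j⟫_ℂ • A (b i) = if i = j then A (b j) else 0 := by
      intro i _
      have h2 := orthonormal_iff_ite.1 b.orthonormal i j
      rw [h2]
      by_cases h : i = j
      · subst h
        simp
      · simp [h]
    rw [Finset.sum_congr rfl h1, Finset.sum_ite_eq' F j]
    split_ifs <;> simp
  have hd2 : ∀ F, ∑' j, ‖(A - P F) (b j)‖ ^ 2 = ∑' j : {j // j ∉ F}, ‖A (b j)‖ ^ 2 := by
    intro F
    rw [← tsum_subtype_eq_of_support_subset (s := {j | j ∉ F})]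
    · refine tsum_congr fun j => ?_
      rw [hd, if_neg j.2]
    · intro j hj
      rw [Function.mem_support] at hj
      intro hjF
      apply hj
      rw [hd, if_pos hjF]
      simp
  have hHS : ∀ F, HSb b (A - P F) := by
    intro F
    refine Summable.of_nonneg_of_le (fun _ => sq_nonneg _) (fun j => ?_) hA
    rw [hd]
    split_ifs
    · simp
    · exact le_refl _
  have hlim : Filter.Tendsto P Filter.atTop (nhds A) := by
    rw [tendsto_iff_norm_sub_tendsto_zero]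
    have h1 : Filter.Tendsto (fun F : Finset ι => ∑' j : {j // j ∉ F}, ‖A (b j)‖ ^ 2)
        Filter.atTop (nhds 0) :=
      tendsto_tsum_compl_atTop_zero (fun j => ‖A (b j)‖ ^ 2)
    have h2 : Filter.Tendsto (fun F : Finset ι => Real.sqrt (∑' j : {j // j ∉ F}, ‖A (b j)‖ ^ 2))
        Filter.atTop (nhds 0) := by
      have := (Real.continuous_sqrt.tendsto 0).comp h1
      rwa [Real.sqrt_zero] at this
    refine squeeze_zero (fun _ => norm_nonneg _) (fun F => ?_) h2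
    rw [norm_sub_rev]
    refine Real.le_sqrt_of_sq_le ?_
    rw [← hd2]
    exact (hHS F).opNorm_le b
  exact isCompactOperator_of_tendsto hlim (Filter.Eventually.of_forall hPc)

end HS

end Vale.Agent.P092.H87
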