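import Vale.Agent.P092.H87.StarA

/-!
P092, block (END*) of the products theorem, part B: the von Neumann algebra generated by a
multiplicative `*`-closed set of Hilbert-Schmidt operators.
-/

open scoped InnerProductSpace

namespace Vale.Agent.P092.H87

set_option linter.unusedSectionVars false
set_option linter.style.haveILetI false

variable {H : Type*} [NormedAddCommGroup H] [InnerProductSpace ℂ H] [CompleteSpace H]
  {ι : Type*}

/-- the von Neumann algebra generated by a `*`-closed set -/
noncomputable def vN (S : Set (H →L[ℂ] H)) (hst : ∀ s ∈ S, star s ∈ S) :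
    VonNeumannAlgebra H where
  toStarSubalgebra := StarSubalgebra.centralizer ℂ (Set.centralizer S)
  centralizer_centralizer' := by
    have h1 : star (Set.centralizer S) = Set.centralizer S := by
      ext y
      rw [Set.mem_star]
      constructor
      · intro h s hs
        have := congrArg star (h (star s) (hst s hs))
        rw [star_mul, star_mul, star_star, star_star] at this
        exact this.symm
      · intro h s hs
        have := congrArg star (h (star s) (hst s hs))
        rw [star_mul, star_mul, star_star] at this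
        exact this.symm
    show Set.centralizer (Set.centralizer
      (StarSubalgebra.centralizer ℂ (Set.centralizer S) : Set (H →L[ℂ] H))) = _
    change _ = (StarSubalgebra.centralizer ℂ (Set.centralizer S) : Set (H →L[ℂ] H))
    rw [StarSubalgebra.coe_centralizer, h1, Set.union_self,
      Set.centralizer_centralizer_centralizer]

lemma mem_vN {S : Set (H →L[ℂ] H)} {hst : ∀ s ∈ S, star s ∈ S} {T : H →L[ℂ] H} :
    T ∈ vN S hst ↔ Bic S T := by
  have h1 : T ∈ vN S hst ↔ T ∈ StarSubalgebra.centralizer ℂ (Set.centralizer S) := Iff.rfl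
  rw [h1, StarSubalgebra.mem_centralizer_iff]
  constructor
  · intro h y hy
    exact (h y fun s hs => (hy s hs).symm).1
  · intro h y hy
    refine ⟨h y fun s hs => (hy s hs).symm, h (star y) fun s hs => ?_⟩
    have := congrArg star (hy (star s) (hst s hs))
    rw [star_mul, star_mul, star_star] at this
    exact this

lemma mem_vN_commutant {S : Set (H →L[ℂ] H)} {hst : ∀ s ∈ S, star s ∈ S} {y : H →L[ℂ] H} :
    y ∈ (vN S hst).commutant ↔ ∀ s ∈ S, y * s = s * y := by
  rw [VonNeumannAlgebra.mem_commutant_iff]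
  constructor
  · intro h s hs
    exact (h s (mem_vN.2 fun y hy => hy s hs)).symm
  · intro h T hT
    exact ((mem_vN.1 hT) y h).symm

lemma subset_vN {S : Set (H →L[ℂ] H)} {hst : ∀ s ∈ S, star s ∈ S} {s : H →L[ℂ] H} (hs : s ∈ S) :
    s ∈ vN S hst :=
  mem_vN.2 fun _ hy => hy s hs

section EndStar

variable {Λ Γ : Type*} [Group Λ] [Group Γ] (V : Λ →* unitary (H →L[ℂ] H))
  (R : Γ →* unitary (H →L[ℂ] H))

/-- a multiplicative `*`-closed set of Hilbert-Schmidt operators, normalised by `V` and `R` -/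
structure HSet (b : HilbertBasis ι ℂ H) (S : Set (H →L[ℂ] H)) : Prop where
  mul : ∀ s ∈ S, ∀ t ∈ S, s * t ∈ S
  star : ∀ s ∈ S, star s ∈ S
  ne : ∃ s ∈ S, s ≠ 0
  hs : ∀ s ∈ S, HSb b s
  orth : ∀ s ∈ S, ∀ t ∈ S, ∀ v : Λ, v ≠ 1 → ∑' j, ⟪s (b j), t (op V v (b j))⟫_ℂ = 0

/-- the essential space -/
def essSet (S : Set (H →L[ℂ] H)) : Set H := {y | ∃ s ∈ S, ∃ x, y = s x}

lemma ess_inv {S : Set (H →L[ℂ] H)} {y : H →L[ℂ] H} (hy : ∀ s ∈ S, y * s = s * y) {x : H}
    (hx : x ∈ cl (essSet S)) : y x ∈ cl (essSet S) := by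
  refine map_cl ?_ hx
  rintro _ ⟨s, hs, z, rfl⟩
  refine subset_cl _ ⟨s, hs, y z, ?_⟩
  exact congrArg (fun A : H →L[ℂ] H => A z) (hy s hs)

/-- vectors with coordinates in the essential space are in their cyclic subspaces -/
theorem mem_cyc_self {S : Set (H →L[ℂ] H)} (hm : ∀ s ∈ S, ∀ t ∈ S, s * t ∈ S)
    (hst : ∀ s ∈ S, star s ∈ S) {x : LL ι H} (hx : ∀ j, x j ∈ cl (essSet S)) : x ∈ cyc S x := by
  set Q := (cyc S x).starProjection with hQ
  have hQm : Q x ∈ cyc S x := Submodule.starProjection_apply_mem _ _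
  -- coordinates of the elements of the cyclic space
  have h1 : ∀ y ∈ cyc S x, ∀ j, y j ∈ cl (essSet S) := by
    intro y hy j
    have h2 : cyc S x ≤ (cl (essSet S)).comap ((lp.evalCLM ℂ (fun _ : ι => H) 2 j :
        LL ι H →L[ℂ] H) : LL ι H →ₗ[ℂ] H) := by
      refine cyc_le ((Submodule.isClosed_topologicalClosure _).preimage
        (lp.evalCLM ℂ (fun _ : ι => H) 2 j : LL ι H →L[ℂ] H).continuous) fun t ht => ?_
      show t (x j) ∈ cl (essSet S)
      exact subset_cl _ ⟨t, ht, _, rfl⟩
    exact h2 hy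
  -- the difference is killed by `S`
  have h2 : ∀ s ∈ S, amp s (x - Q x) = 0 := by
    intro s hs
    have h3 : amp s (x - Q x) ∈ cyc S x := by
      rw [map_sub]
      exact Submodule.sub_mem _ (mem_cyc hs) (amp_cyc hm hs hQm)
    have h4 : amp s (x - Q x) ∈ (cyc S x)ᗮ := by
      rw [Submodule.mem_orthogonal']
      intro y hy
      rw [← star_star s, inner_amp]
      exact Submodule.starProjection_inner_eq_zero x _ (amp_cyc hm (hst s hs) hy)
    have h5 := (Submodule.mem_orthogonal _ _).1 h4 _ h3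
    exact inner_self_eq_zero.1 h5
  have h3 : x - Q x = 0 := by
    ext j
    have h4 : (x - Q x : LL ι H) j ∈ cl (essSet S) := by
      show x j - Q x j ∈ _
      exact Submodule.sub_mem _ (hx j) (h1 _ hQm j)
    have h5 : ∀ s ∈ S, s ((x - Q x : LL ι H) j) = 0 := by
      intro s hs
      have := congrArg (fun y : LL ι H => y j) (h2 s hs)
      exact this
    have h6 : cl (essSet S) ≤ (ℂ ∙ ((x - Q x : LL ι H) j))ᗮ := by
      refine cl_le (Submodule.isClosed_orthogonal _) ?_
      rintro _ ⟨s, hs, y, rfl⟩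
      rw [SetLike.mem_coe, Submodule.mem_orthogonal_singleton_iff_inner_right,
        ← star_star s, ContinuousLinearMap.star_eq_adjoint,
        ContinuousLinearMap.adjoint_inner_right, h5 _ (hst s hs), inner_zero_left]
    have h7 := h6 h4
    rw [Submodule.mem_orthogonal_singleton_iff_inner_right] at h7
    exact inner_self_eq_zero.1 h7
  have h4 : Q x = x := (sub_eq_zero.1 h3).symm
  rw [h4] at hQm
  exact hQm

/-- the algebra contains finite rank projections -/
theorem exists_fin {b : HilbertBasis ι ℂ H} {S : Set (H →L[ℂ] H)} (hS : HSet V b S) :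
    ∃ K : Submodule ℂ H, FiniteDimensional ℂ K ∧ K ≠ ⊥ ∧ K ≤ cl (essSet S) ∧
      ∀ y : H →L[ℂ] H, (∀ s ∈ S, y * s = s * y) → ∀ x ∈ K, y x ∈ K := by
  obtain ⟨s, hs, hs0⟩ := hS.ne
  set A : H →L[ℂ] H := star s * s with hA
  have hAS : A ∈ S := hS.mul _ (hS.star s hs) _ hs
  have hA0 : A ≠ 0 := by
    intro h
    apply hs0
    exact (CStarRing.star_mul_self_eq_zero_iff s).1 h
  have hAsa : IsSelfAdjoint A := IsSelfAdjoint.star_mul_self s
  have hAc : IsCompactOperator A := (hS.hs A hAS).compact b
  have hsym : A.IsSymmetric := hAsa.isSymmetric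
  have h1 := (ContinuousLinearMap.eq_zero_of_forall_hasEigenvalue_eq_zero hAc hsym).not.2 hA0
  push Not at h1
  obtain ⟨μ, hμ, hμ0⟩ := h1
  refine ⟨Module.End.eigenspace (A : H →ₗ[ℂ] H) μ,
    ContinuousLinearMap.finite_dimensional_eigenspace hAc μ hμ0, hμ, ?_, ?_⟩
  · intro x hx
    rw [Module.End.mem_eigenspace_iff] at hx
    have h2 : x = A (μ⁻¹ • x) := by
      rw [map_smul]
      have h3 : A x = μ • x := hx
      rw [h3, smul_smul, inv_mul_cancel₀ hμ0, one_smul]
    exact subset_cl _ ⟨A, hAS, _, h2⟩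
  · intro y hy x hx
    rw [Module.End.mem_eigenspace_iff] at hx ⊢
    have h2 : y (A x) = A (y x) := congrArg (fun B : H →L[ℂ] H => B x) (hy A hAS)
    have h3 : A x = μ • x := hx
    show A (y x) = μ • y x
    rw [← h2, h3, map_smul]

end EndStar

end Vale.Agent.P092.H87
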