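import Vale.Agent.P092.H87.StarB

/-!
P092, block (END*) of the products theorem, part C: vanishing of the traces.
-/

open scoped InnerProductSpace

namespace Vale.Agent.P092.H87

set_option linter.unusedSectionVars false
set_option linter.style.haveILetI false

variable {H : Type*} [NormedAddCommGroup H] [InnerProductSpace ℂ H] [CompleteSpace H]
  {ι : Type*} {Λ Γ : Type*} [Group Λ] [Group Γ] (V : Λ →* unitary (H →L[ℂ] H))
  (R : Γ →* unitary (H →L[ℂ] H))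

lemma mem_perp {E : Type*} [NormedAddCommGroup E] [InnerProductSpace ℂ E] {w y : E} :
    y ∈ (ℂ ∙ w)ᗮ ↔ ⟪w, y⟫_ℂ = 0 := Submodule.mem_orthogonal_singleton_iff_inner_right

lemma isClosed_perp {E : Type*} [NormedAddCommGroup E] [InnerProductSpace ℂ E] (w : E) :
    IsClosed (((ℂ ∙ w)ᗮ : Submodule ℂ E) : Set E) := Submodule.isClosed_orthogonal _

/-- orthogonality to the closed cyclic space can be tested on the generators -/
lemma cyc_perp {S : Set (H →L[ℂ] H)} {x w : LL ι H} (h : ∀ s ∈ S, ⟪w, amp s x⟫_ℂ = 0)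
    {y : LL ι H} (hy : y ∈ cyc S x) : ⟪w, y⟫_ℂ = 0 := by
  have h1 : cyc S x ≤ (ℂ ∙ w)ᗮ := cyc_le (isClosed_perp w) fun s hs => mem_perp.2 (h s hs)
  exact mem_perp.1 (h1 hy)

lemma inner_star_left (A : H →L[ℂ] H) (x y : H) : ⟪star A x, y⟫_ℂ = ⟪x, A y⟫_ℂ := by
  rw [ContinuousLinearMap.star_eq_adjoint, ContinuousLinearMap.adjoint_inner_left]

lemma inner_star_right (A : H →L[ℂ] H) (x y : H) : ⟪x, star A y⟫_ℂ = ⟪A x, y⟫_ℂ := by
  rw [ContinuousLinearMap.star_eq_adjoint, ContinuousLinearMap.adjoint_inner_right]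

/-- first orthogonality: `Tr (s₂ z V s₁) = 0` -/
lemma trace_aux {b : HilbertBasis ι ℂ H} {S : Set (H →L[ℂ] H)} (hS : HSet V b S)
    (hSV : ∀ v, ∀ s ∈ S, cj V v s ∈ S) {z : H →L[ℂ] H} (hz : Bic S z) {v : Λ} (hv : v ≠ 1)
    {s₁ s₂ : H →L[ℂ] H} (h₁ : s₁ ∈ S) (h₂ : s₂ ∈ S) :
    ∑' k, ⟪(op V v⁻¹ * s₁) (b k), (z * s₂) (b k)⟫_ℂ = 0 := by
  have hw : HSb b (op V v⁻¹ * s₁) := (hS.hs s₁ h₁).mul_left b _
  have h1 : amp z (hs b (hS.hs s₂ h₂)) ∈ cyc S (hs b (hS.hs s₂ h₂)) := by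
    refine bic_cyc hS.mul hS.star (mem_cyc_self hS.mul hS.star fun j => ?_) hz
    exact subset_cl _ ⟨s₂, h₂, _, rfl⟩
  have h2 : ⟪hs b hw, amp z (hs b (hS.hs s₂ h₂))⟫_ℂ = 0 := by
    refine cyc_perp (fun t ht => ?_) h1
    rw [lp.inner_eq_tsum]
    have h3 := hS.orth _ (hS.mul t ht s₂ h₂) _ (hSV v⁻¹ s₁ h₁) v⁻¹ (inv_ne_one.2 hv)
    have h4 : ∀ k, ⟪(hs b hw) k, (amp t (hs b (hS.hs s₂ h₂))) k⟫_ℂ =
        starRingEnd ℂ ⟪(t * s₂) (b k), (cj V v⁻¹ s₁) (op V v⁻¹ (b k))⟫_ℂ := by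
      intro k
      rw [inner_conj_symm]
      have e1 : (cj V v⁻¹ s₁) (op V v⁻¹ (b k)) = (op V v⁻¹ * s₁) (b k) := by
        show op V v⁻¹ (s₁ (op V v⁻¹⁻¹ (op V v⁻¹ (b k)))) = op V v⁻¹ (s₁ (b k))
        rw [inv_inv, op_apply_inv]
      rw [e1]
      rfl
    simp_rw [h4]
    have h5 := congrArg (starRingEnd ℂ) h3
    rw [map_zero] at h5
    rw [← h5]
    exact (RCLike.conjCLE.map_tsum (f := fun k =>
      ⟪(t * s₂) (b k), (cj V v⁻¹ s₁) (op V v⁻¹ (b k))⟫_ℂ)).symm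
  rw [lp.inner_eq_tsum] at h2
  exact h2

/-- **vanishing of the traces** -/
theorem trace_zero {b : HilbertBasis ι ℂ H} {S : Set (H →L[ℂ] H)} (hS : HSet V b S)
    (hSV : ∀ v, ∀ s ∈ S, cj V v s ∈ S) {K : Submodule ℂ H} [FiniteDimensional ℂ K]
    (hKe : K ≤ cl (essSet S)) (hKi : ∀ y : H →L[ℂ] H, (∀ s ∈ S, y * s = s * y) → ∀ x ∈ K, y x ∈ K)
    {T : H →L[ℂ] H} (hT : Bic S T) {v : Λ} (hv : v ≠ 1) :
    ∑ i, ⟪((stdOrthonormalBasis ℂ K i : K) : H),
      T (op V v ((stdOrthonormalBasis ℂ K i : K) : H))⟫_ℂ = 0 := by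
  set e : Fin (Module.finrank ℂ K) → H := fun i => ((stdOrthonormalBasis ℂ K i : K) : H) with he
  have heK : ∀ i, e i ∈ K := fun i => (stdOrthonormalBasis ℂ K i).2
  set z := K.starProjection with hz
  have hzb : Bic S z := by
    rw [← mem_vN (hst := hS.star)]
    exact starProj_mem K fun y hy => hKi y (mem_vN_commutant.1 hy)
  have hzs : star z = z := (isStarProjection_starProjection (U := K)).isSelfAdjoint.star_eq
  let f : LL (Fin (Module.finrank ℂ K)) H := ⟨e, memLL (hasSum_fintype _).summable⟩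
  have hf : ∀ i, f i = e i := fun i => rfl
  have hfc : f ∈ cyc S f := mem_cyc_self hS.mul hS.star fun i => hKe (heK i)
  have hsT : Bic S (star T) := by
    rw [← mem_vN (hst := hS.star)] at hT ⊢
    exact star_mem hT
  have h1 : amp (star T) f ∈ cyc S f := bic_cyc hS.mul hS.star hfc hsT
  -- the key vanishing
  have h2 : ∀ s₁ ∈ S, ∀ s₂ ∈ S, ⟪amp (op V v) f, amp s₁ (amp s₂ f)⟫_ℂ = 0 := by
    intro s₁ h₁ s₂ h₂
    have hA : ∀ x, (z * (star s₂ * star s₁ * op V v)) x ∈ K := fun x =>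
      Submodule.starProjection_apply_mem _ _
    have h3 := (tr_basis b hA).tsum_eq
    have h4 : ∑' j, ⟪b j, (z * (star s₂ * star s₁ * op V v)) (b j)⟫_ℂ = 0 := by
      have hHz : HSb b (s₂ * z) := by
        have h5 := (((hS.hs _ (hS.star s₂ h₂)).mul_left b z).star b).1
        rwa [star_mul, star_star, hzs] at h5
      have hHv : HSb b (star s₁ * op V v) := by
        have h5 : star s₁ * op V v = op V v * cj V v⁻¹ (star s₁) := by
          unfold cj
          rw [inv_inv, ← mul_assoc, ← mul_assoc, op_mul_inv, one_mul]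
        rw [h5]
        exact (hS.hs _ (hSV _ _ (hS.star s₁ h₁))).mul_left b _
      have h5 := trace_cyclic b hHz hHv
      have h6 := trace_aux V hS hSV hzb hv h₁ (hS.star s₂ h₂)
      have h7 : star (star s₁ * op V v) = op V v⁻¹ * s₁ := by
        rw [star_mul, star_star, star_op]
      have h8 : star (s₂ * z) = z * star s₂ := by rw [star_mul, hzs]
      rw [h7, h8, h6] at h5
      rw [← h5]
      refine tsum_congr fun j => ?_
      have h9 : z * (star s₂ * star s₁ * op V v) = star (s₂ * z) * (star s₁ * op V v) := by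
        rw [h8]
        noncomm_ring
      rw [h9]
      show ⟪b j, star (s₂ * z) ((star s₁ * op V v) (b j))⟫_ℂ = _
      rw [inner_star_right]
    rw [h4] at h3
    rw [lp.inner_eq_tsum, tsum_fintype]
    have h5 : ∀ i, ⟪(amp (op V v) f) i, (amp s₁ (amp s₂ f)) i⟫_ℂ =
        starRingEnd ℂ ⟪e i, (z * (star s₂ * star s₁ * op V v)) (e i)⟫_ℂ := by
      intro i
      rw [inner_conj_symm]
      have h6 : ⟪z (star s₂ (star s₁ (op V v (e i)))), e i⟫_ℂ =
          ⟪star s₂ (star s₁ (op V v (e i))), e i⟫_ℂ := by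
        rw [Submodule.inner_starProjection_left_eq_right,
          Submodule.starProjection_eq_self_iff.2 (heK i)]
      show ⟪op V v (e i), s₁ (s₂ (e i))⟫_ℂ = ⟪z (star s₂ (star s₁ (op V v (e i)))), e i⟫_ℂ
      rw [h6, inner_star_left, inner_star_left]
    simp_rw [h5]
    rw [← map_sum]
    have h6 := congrArg (starRingEnd ℂ) h3
    rw [map_zero] at h6
    exact h6.symm
  have h3 : ∀ s₁ ∈ S, ⟪amp (op V v) f, amp s₁ f⟫_ℂ = 0 := by
    intro s₁ h₁
    have h4 : ⟪amp (star s₁) (amp (op V v) f), f⟫_ℂ = 0 := by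
      refine cyc_perp (fun s₂ h₂ => ?_) hfc
      rw [inner_amp]
      exact h2 s₁ h₁ s₂ h₂
    rwa [inner_amp] at h4
  have h4 : ⟪amp (op V v) f, amp (star T) f⟫_ℂ = 0 := cyc_perp h3 h1
  have h5 := congrArg (starRingEnd ℂ) h4
  rw [inner_conj_symm, map_zero, inner_amp, lp.inner_eq_tsum, tsum_fintype] at h5
  exact h5

end Vale.Agent.P092.H87
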