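import Vale.Agent.P092.H87.StarC

/-!
P092, block (END*) of the products theorem, part D: the theorem.
-/

open scoped InnerProductSpace

namespace Vale.Agent.P092.H87

set_option linter.unusedSectionVars false
set_option linter.style.haveILetI false

variable {H : Type*} [NormedAddCommGroup H] [InnerProductSpace ℂ H] [CompleteSpace H]
  {ι : Type*} {Λ Γ : Type*} [Group Λ] [Group Γ] (V : Λ →* unitary (H →L[ℂ] H))
  (R : Γ →* unitary (H →L[ℂ] H))

/-- an identity between matrix coefficients which holds on `V(Λ)` holds on its bicommutant -/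
lemma four {m : Type*} [Fintype m] (e u : m → H) (ξ₀ : H) (κ : ℂ)
    (h : ∀ v, ∑ i, ⟪u i, op V v (e i)⟫_ℂ = κ * ⟪ξ₀, op V v ξ₀⟫_ℂ) {A : H →L[ℂ] H}
    (hA : ∀ B : H →L[ℂ] H, (∀ v, B * op V v = op V v * B) → A * B = B * A) :
    ∑ i, ⟪u i, A (e i)⟫_ℂ = κ * ⟪ξ₀, A ξ₀⟫_ℂ := by
  classical
  let F : LL (Option m) H := ⟨fun o => o.elim ξ₀ e, memLL (hasSum_fintype _).summable⟩
  let w : LL (Option m) H := ⟨fun o => o.elim (-(starRingEnd ℂ κ) • ξ₀) u,
    memLL (hasSum_fintype _).summable⟩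
  have hw : ∀ B : H →L[ℂ] H, ⟪w, amp B F⟫_ℂ = ∑ i, ⟪u i, B (e i)⟫_ℂ - κ * ⟪ξ₀, B ξ₀⟫_ℂ := by
    intro B
    rw [lp.inner_eq_tsum, tsum_fintype, Fintype.sum_option]
    have h1 : ⟪w none, (amp B F) none⟫_ℂ = - (κ * ⟪ξ₀, B ξ₀⟫_ℂ) := by
      show ⟪-(starRingEnd ℂ κ) • ξ₀, B ξ₀⟫_ℂ = _
      rw [inner_smul_left, map_neg, Complex.conj_conj, neg_mul]
    rw [h1]
    have h2 : ∀ i, ⟪w (some i), (amp B F) (some i)⟫_ℂ = ⟪u i, B (e i)⟫_ℂ := fun i => rfl
    simp_rw [h2]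
    ring
  have hF : F ∈ cyc (Set.range (op V)) F := by
    have h1 : amp (op V 1) F ∈ cyc (Set.range (op V)) F := mem_cyc ⟨1, rfl⟩
    have h2 : amp (op V 1) F = F := by
      ext o
      rw [amp_apply, op_one]
      rfl
    rwa [h2] at h1
  have h1 : amp A F ∈ cyc (Set.range (op V)) F := by
    refine bic_cyc ?_ ?_ hF ?_
    · rintro _ ⟨g, rfl⟩ _ ⟨h, rfl⟩
      exact ⟨g * h, op_mul V g h⟩
    · rintro _ ⟨g, rfl⟩
      exact ⟨g⁻¹, (star_op V g).symm⟩
    · intro y hy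
      exact (hA y fun v => hy _ ⟨v, rfl⟩).symm
  have h2 : ⟪w, amp A F⟫_ℂ = 0 := by
    refine cyc_perp ?_ h1
    rintro _ ⟨v, rfl⟩
    rw [hw, h, sub_self]
  rw [hw] at h2
  exact sub_eq_zero.1 h2

lemma stdBasis_inner {K : Submodule ℂ H} [FiniteDimensional ℂ K] :
    ∑ i, ⟪((stdOrthonormalBasis ℂ K i : K) : H), ((stdOrthonormalBasis ℂ K i : K) : H)⟫_ℂ =
      (Module.finrank ℂ K : ℂ) := by
  have h1 : ∀ i, ⟪((stdOrthonormalBasis ℂ K i : K) : H),
      ((stdOrthonormalBasis ℂ K i : K) : H)⟫_ℂ = 1 := by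
    intro i
    have h2 := (stdOrthonormalBasis ℂ K).orthonormal.1 i
    rw [inner_self_eq_norm_sq_to_K]
    have h3 : ‖((stdOrthonormalBasis ℂ K i : K) : H)‖ = 1 := h2
    rw [h3]
    norm_num
  simp_rw [h1]
  simp

/-- **the centre is fixed only by scalars** -/
theorem center_scalar {b : HilbertBasis ι ℂ H} {S : Set (H →L[ℂ] H)} (hS : HSet V b S)
    (hSV : ∀ v, ∀ s ∈ S, cj V v s ∈ S) {ξ₀ : H} (hξ : ‖ξ₀‖ = 1)
    (hξV : ∀ v, v ≠ 1 → ⟪ξ₀, op V v ξ₀⟫_ℂ = 0)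
    (hRtot : ∀ x : H, x ∈ cl (Set.range fun g => op R g ξ₀))
    (h7 : ∀ A : H →L[ℂ] H, (∀ g, A * op R g = op R g * A) →
      ∀ B : H →L[ℂ] H, (∀ v, B * op V v = op V v * B) → A * B = B * A)
    {z : H →L[ℂ] H} (hz : Bic S z) (hzR : ∀ g, op R g * z = z * op R g) :
    ∃ μ : ℂ, z = μ • 1 := by
  obtain ⟨K, hKf, hK0, hKe, hKi⟩ := exists_fin V hS
  set e : Fin (Module.finrank ℂ K) → H := fun i => ((stdOrthonormalBasis ℂ K i : K) : H) with he
  set c : ℂ := ⟪ξ₀, z ξ₀⟫_ℂ with hc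
  set z' : H →L[ℂ] H := z - c • 1 with hz'
  have hξξ : ⟪ξ₀, ξ₀⟫_ℂ = 1 := by
    rw [inner_self_eq_norm_sq_to_K, hξ]
    norm_num
  have hz'R : ∀ g, z' * op R g = op R g * z' := by
    intro g
    rw [hz', sub_mul, mul_sub, hzR g, smul_mul_assoc, mul_smul_comm, one_mul, mul_one]
  have hz'R' : ∀ g, star z' * op R g = op R g * star z' := by
    intro g
    have := congrArg star (hz'R g⁻¹)
    rw [star_mul, star_mul, star_op, inv_inv] at this
    exact this.symm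
  have hz'b : Bic S z' := by
    intro y hy
    rw [hz', mul_sub, sub_mul, hz y hy, smul_mul_assoc, mul_smul_comm, one_mul, mul_one]
  have hz's : Bic S (star z') := by
    rw [← mem_vN (hst := hS.star)] at hz'b ⊢
    exact star_mem hz'b
  have h1b : Bic S (1 : H →L[ℂ] H) := by
    intro y _
    rw [one_mul, mul_one]
  have hz'0 : ⟪ξ₀, z' ξ₀⟫_ℂ = 0 := by
    show ⟪ξ₀, z ξ₀ - c • ξ₀⟫_ℂ = 0
    rw [inner_sub_right, inner_smul_right, hξξ, mul_one, hc, sub_self]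
  -- first step
  have h1 : ∑ i, ⟪z' (e i), z' (e i)⟫_ℂ = 0 := by
    have h2 := four V e (fun i => z' (e i)) ξ₀ (∑ i, ⟪z' (e i), e i⟫_ℂ) (A := z') (fun v => by
      by_cases hv : v = 1
      · subst hv
        rw [op_one]
        show ∑ i, ⟪z' (e i), e i⟫_ℂ = (∑ i, ⟪z' (e i), e i⟫_ℂ) * ⟪ξ₀, ξ₀⟫_ℂ
        rw [hξξ, mul_one]
      · rw [hξV v hv, mul_zero]
        rw [← trace_zero V hS hSV hKe hKi hz's hv]
        refine Finset.sum_congr rfl fun i _ => ?_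
        rw [inner_star_right]) (h7 z' hz'R)
    rw [h2, hz'0, mul_zero]
  have h2 : ∀ i, z' (e i) = 0 := by
    have h3 : ∑ i, ‖z' (e i)‖ ^ 2 = 0 := by
      have h4 : ((∑ i, ‖z' (e i)‖ ^ 2 : ℝ) : ℂ) = 0 := by
        rw [← h1]
        push_cast
        refine Finset.sum_congr rfl fun i _ => ?_
        rw [inner_self_eq_norm_sq_to_K]
        rfl
      exact_mod_cast h4
    intro i
    have h5 := (Finset.sum_eq_zero_iff_of_nonneg fun i _ => sq_nonneg _).1 h3 i (Finset.mem_univ _)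
    exact norm_eq_zero.1 (pow_eq_zero_iff (two_ne_zero) |>.1 h5)
  -- second step
  have h3 : ∑ i, ⟪e i, (star z' * z') (e i)⟫_ℂ =
      (Module.finrank ℂ K : ℂ) * ⟪ξ₀, (star z' * z') ξ₀⟫_ℂ := by
    refine four V e e ξ₀ _ (fun v => ?_) (h7 (star z' * z') fun g => ?_)
    · by_cases hv : v = 1
      · subst hv
        rw [op_one]
        show ∑ i, ⟪e i, e i⟫_ℂ = _ * ⟪ξ₀, ξ₀⟫_ℂ
        rw [hξξ, mul_one]
        exact stdBasis_inner
      · rw [hξV v hv, mul_zero]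
        exact trace_zero V hS hSV hKe hKi h1b hv
    · rw [mul_assoc, hz'R, ← mul_assoc, hz'R', mul_assoc]
  have h4 : z' ξ₀ = 0 := by
    have h5 : ∑ i, ⟪e i, (star z' * z') (e i)⟫_ℂ = 0 := by
      refine Finset.sum_eq_zero fun i _ => ?_
      show ⟪e i, star z' (z' (e i))⟫_ℂ = 0
      rw [h2, map_zero, inner_zero_right]
    rw [h5] at h3
    have hne : (Module.finrank ℂ K : ℂ) ≠ 0 := by
      rw [Nat.cast_ne_zero, Ne, Submodule.finrank_eq_zero]
      exact hK0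
    have h6 := (mul_eq_zero.1 h3.symm).resolve_left hne
    have h7 : ⟪z' ξ₀, z' ξ₀⟫_ℂ = 0 := by
      rw [← inner_star_right]
      exact h6
    exact inner_self_eq_zero.1 h7
  -- conclusion
  refine ⟨c, ?_⟩
  have h5 : z' = 0 := by
    ext x
    refine eqOn_cl (A := z') (B := 0) ?_ (hRtot x)
    rintro _ ⟨g, rfl⟩
    show z' (op R g ξ₀) = 0
    have h6 : z' (op R g ξ₀) = op R g (z' ξ₀) :=
      congrArg (fun A : H →L[ℂ] H => A ξ₀) (hz'R g)
    rw [h6, h4, map_zero]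
  exact sub_eq_zero.1 h5

/-- the algebra is nondegenerate -/
theorem ess_top {b : HilbertBasis ι ℂ H} {S : Set (H →L[ℂ] H)} (hS : HSet V b S)
    (hSV : ∀ v, ∀ s ∈ S, cj V v s ∈ S) (hSR : ∀ g, ∀ s ∈ S, cj R g s ∈ S)
    {ξ₀ : H} (hξ : ‖ξ₀‖ = 1) (hξV : ∀ v, v ≠ 1 → ⟪ξ₀, op V v ξ₀⟫_ℂ = 0)
    (hRtot : ∀ x : H, x ∈ cl (Set.range fun g => op R g ξ₀))
    (h7 : ∀ A : H →L[ℂ] H, (∀ g, A * op R g = op R g * A) →
      ∀ B : H →L[ℂ] H, (∀ v, B * op V v = op V v * B) → A * B = B * A) :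
    ∀ x : H, x ∈ cl (essSet S) := by
  set P := (cl (essSet S)).starProjection with hP
  have hPs : star P = P :=
    (isStarProjection_starProjection (U := cl (essSet S))).isSelfAdjoint.star_eq
  have hPb : Bic S P := by
    rw [← mem_vN (hst := hS.star)]
    exact starProj_mem _ fun y hy x hx => ess_inv (mem_vN_commutant.1 hy) hx
  have hPR : ∀ g, op R g * P = P * op R g := by
    have h1 : ∀ g, P * op R g * P = op R g * P := by
      intro g
      ext x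
      have h2 : op R g (P x) ∈ cl (essSet S) := by
        refine map_cl ?_ (Submodule.starProjection_apply_mem _ x)
        rintro _ ⟨s, hs, y, rfl⟩
        refine subset_cl _ ⟨cj R g s, hSR g s hs, op R g y, ?_⟩
        show op R g (s y) = op R g (s (op R g⁻¹ (op R g y)))
        rw [op_inv_apply]
      exact Submodule.starProjection_eq_self_iff.2 h2
    intro g
    have h2 := congrArg star (h1 g⁻¹)
    rw [star_mul, star_mul, star_mul, star_op, inv_inv, hPs] at h2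
    rw [← h1 g, mul_assoc, h2]
  obtain ⟨μ, hμ⟩ := center_scalar V R hS hSV hξ hξV hRtot h7 hPb hPR
  obtain ⟨s, hs, hs0⟩ := hS.ne
  obtain ⟨x, hx⟩ : ∃ x, s x ≠ 0 := by
    by_contra hcon
    push Not at hcon
    exact hs0 (ContinuousLinearMap.ext hcon)
  have h5 : P (s x) = s x :=
    Submodule.starProjection_eq_self_iff.2 (subset_cl _ ⟨s, hs, x, rfl⟩)
  have h6 : μ = 1 := by
    rw [hμ] at h5
    have h7 : μ • s x = (1 : ℂ) • s x := by
      rw [one_smul]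
      exact h5
    exact smul_left_injective ℂ hx h7
  intro x
  rw [← Submodule.starProjection_eq_self_iff, ← hP, hμ, h6, one_smul]
  rfl

/-- the trace condition holds for the generated von Neumann algebra -/
theorem trZero_vN {b : HilbertBasis ι ℂ H} {S : Set (H →L[ℂ] H)} (hS : HSet V b S)
    (hSV : ∀ v, ∀ s ∈ S, cj V v s ∈ S) (htop : ∀ x : H, x ∈ cl (essSet S)) :
    TrZero b V (vN S hS.star) := by
  intro T hT hf v hv
  set K := LinearMap.range (T : H →ₗ[ℂ] H) with hK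
  have hA : ∀ x, (T * op V v) x ∈ K := fun x => ⟨op V v x, rfl⟩
  have h1 := (tr_basis b hA).tsum_eq
  have h2 := trace_zero V hS hSV (K := K) (fun x _ => htop x) (fun y hy x hx => by
    obtain ⟨x', rfl⟩ := hx
    refine ⟨y x', ?_⟩
    exact (congrArg (fun A : H →L[ℂ] H => A x') ((mem_vN.1 hT) y hy)).symm) (mem_vN.1 hT) hv
  exact h1.trans h2

/-- conjugation invariance of the generated von Neumann algebra -/
lemma cj_vN {G : Type*} [Group G] (W : G →* unitary (H →L[ℂ] H)) {S : Set (H →L[ℂ] H)}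
    {hst : ∀ s ∈ S, star s ∈ S} (hSW : ∀ v, ∀ s ∈ S, cj W v s ∈ S) :
    ∀ g, ∀ T ∈ vN S hst, cj W g T ∈ vN S hst := by
  intro g T hT
  rw [mem_vN] at hT ⊢
  intro y hy
  have h1 : ∀ s ∈ S, cj W g⁻¹ y * s = s * cj W g⁻¹ y := by
    intro s hs
    have h2 := congrArg (cj W g⁻¹) (hy _ (hSW g s hs))
    rwa [cj_mul, cj_mul, cj_inv_cj] at h2
  have h2 := congrArg (cj W g) (hT _ h1)
  rwa [cj_mul, cj_mul, cj_cj_inv] at h2

end Vale.Agent.P092.H87
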