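import Vale.Agent.P092.H87.StarD

/-!
P092, block (END*) of the products theorem, part E: the theorem.
-/

open scoped InnerProductSpace

namespace Vale.Agent.P092.H87

set_option linter.unusedSectionVars false
set_option linter.style.haveILetI false

variable {H : Type*} [NormedAddCommGroup H] [InnerProductSpace ℂ H] [CompleteSpace H]
  {ι : Type*} {Λ Γ : Type*} [Group Λ] [Group Γ] (V : Λ →* unitary (H →L[ℂ] H))
  (R : Γ →* unitary (H →L[ℂ] H))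

/-- an orthonormal `V`-orbit is total (the group von Neumann algebra is finite) -/
theorem orbit_total (b : HilbertBasis Λ ℂ H) {ξ₀ : H} (hb : ∀ v, b v = op V v ξ₀) {ζ : H}
    (hζ : Orthonormal ℂ fun v => op V v ζ) : ∀ x : H, x ∈ cl (Set.range fun v => op V v ζ) := by
  have hξ : ‖ξ₀‖ = 1 := by
    have := b.orthonormal.1 1
    rwa [hb, norm_op] at this
  have hζ1 : ‖ζ‖ = 1 := by
    have := hζ.1 1
    rwa [norm_op] at this
  set N := cl (Set.range fun v => op V v ζ) with hN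
  set P := N.starProjection with hP
  -- Bessel for `P ξ₀`
  have h1 : ∑' v, ‖⟪op V v ζ, P ξ₀⟫_ℂ‖ ^ 2 ≤ ‖P ξ₀‖ ^ 2 := hζ.tsum_inner_products_le (P ξ₀)
  have h2 : ∀ v, ⟪op V v ζ, P ξ₀⟫_ℂ = ⟪op V v ζ, ξ₀⟫_ℂ := by
    intro v
    have h8 : op V v ζ ∈ N := subset_cl _ ⟨v, rfl⟩
    rw [← Submodule.inner_starProjection_left_eq_right,
      Submodule.starProjection_eq_self_iff.2 h8]
  have h3 : ∑' v, ‖⟪op V v ζ, ξ₀⟫_ℂ‖ ^ 2 = 1 := by
    have h4 := (parseval b ζ).tsum_eq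
    rw [hζ1, one_pow] at h4
    rw [← h4, ← (Equiv.inv Λ).tsum_eq]
    refine tsum_congr fun v => ?_
    rw [hb, Equiv.inv_apply, inner_op_left, inv_inv]
  simp_rw [h2] at h1
  rw [h3] at h1
  have h4 : ‖P ξ₀‖ ^ 2 + ‖ξ₀ - P ξ₀‖ ^ 2 = ‖ξ₀‖ ^ 2 := by
    have h5 := Submodule.norm_sq_eq_add_norm_sq_starProjection ξ₀ N
    rw [Submodule.starProjection_orthogonal'] at h5
    exact h5.symm
  have h5 : ξ₀ - P ξ₀ = 0 := by
    rw [hξ] at h4
    have h6 : ‖ξ₀ - P ξ₀‖ ^ 2 = 0 := by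
      have := sq_nonneg ‖ξ₀ - P ξ₀‖
      linarith
    exact norm_eq_zero.1 (pow_eq_zero_iff (two_ne_zero) |>.1 h6)
  have h6 : ξ₀ ∈ N := by
    have h7 : P ξ₀ = ξ₀ := (sub_eq_zero.1 h5).symm
    rw [← h7]
    exact Submodule.starProjection_apply_mem _ _
  have h7 : ∀ v, ∀ x ∈ N, op V v x ∈ N := by
    intro v x hx
    refine map_cl ?_ hx
    rintro _ ⟨u, rfl⟩
    refine subset_cl _ ⟨v * u, ?_⟩
    show op V (v * u) ζ = op V v (op V u ζ)
    rw [op_mul]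
    rfl
  intro x
  have h8 : x ∈ cl (Set.range b) := by
    show x ∈ (Submodule.span ℂ (Set.range b)).topologicalClosure
    rw [b.dense_span]
    trivial
  have h9 : cl (Set.range b) ≤ N := by
    refine cl_le (Submodule.isClosed_topologicalClosure _) ?_
    rintro _ ⟨v, rfl⟩
    rw [hb]
    exact h7 v _ h6
  exact h9 h8

/-- `(h2)` follows from the other hypotheses -/
theorem h2_of {D : VonNeumannAlgebra H} (b' : HilbertBasis ι ℂ H) (b : HilbertBasis Λ ℂ H)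
    {ξ₀ : H} (hb : ∀ v, b v = op V v ξ₀)
    (hV : ∀ g, ∀ T ∈ D, cj V g T ∈ D) (hR : ∀ g, ∀ T ∈ D, cj R g T ∈ D)
    (hVR : ∀ v g, op V v * op R g = op R g * op V v)
    (h1 : ∃ T ∈ D, T ≠ 0 ∧ FiniteDimensional ℂ (LinearMap.range (T : H →ₗ[ℂ] H)))
    (h3 : ∀ z, z ∈ D → z ∈ D.commutant → (∀ g, op R g * z = z * op R g) → ∃ μ : ℂ, z = μ • 1)
    (h4 : TrZero b' V D) (h5 : ∀ N : Subgroup Λ, N.Normal → Finite N → N = ⊥) :
    ∀ z, z ∈ D → z ∈ D.commutant → (∀ g, op V g * z = z * op V g) → ∃ μ : ℂ, z = μ • 1 := by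
  obtain ⟨ζ, c, hc, hζ, hcr, horth⟩ := exists_rank_one V R b' b hb hV hR hVR h1 h3 h4 h5
  have hcV : ∀ v x, cj V v c x = ⟪op V v ζ, x⟫_ℂ • op V v ζ := by
    intro v x
    show op V v (c (op V v⁻¹ x)) = _
    rw [hcr, map_smul, inner_op_left]
  have hcζ : c ζ = ζ := by
    rw [hcr, inner_self_eq_norm_sq_to_K, hζ]
    norm_num
  have hon : Orthonormal ℂ (fun v => op V v ζ) := by
    refine ⟨fun v => by rw [norm_op, hζ], fun u v huv => ?_⟩
    have h6 := congrArg (fun A : H →L[ℂ] H => A (op V v ζ)) (horth u v huv)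
    have h7 : cj V u c (cj V v c (op V v ζ)) = 0 := h6
    rw [hcV v, inner_self_eq_norm_sq_to_K, norm_op, hζ] at h7
    have h8 : cj V u c (op V v ζ) = 0 := by simpa using h7
    rw [hcV] at h8
    rcases smul_eq_zero.1 h8 with h9 | h9
    · exact h9
    · exact absurd h9 (norm_ne_zero_iff.1 (by rw [norm_op, hζ]; exact one_ne_zero))
  have htot := orbit_total V b hb hon
  intro z hz hz' hzV
  refine ⟨⟪ζ, z ζ⟫_ℂ, ?_⟩
  have h6 : z ζ = ⟪ζ, z ζ⟫_ℂ • ζ := by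
    have h7 : z (c ζ) = c (z ζ) := comm_of hc.zp.mem hz' ζ
    rw [← hcr, ← h7, hcζ]
  ext x
  refine eqOn_cl (A := z) (B := ⟪ζ, z ζ⟫_ℂ • 1) ?_ (htot x)
  rintro _ ⟨v, rfl⟩
  show z (op V v ζ) = ⟪ζ, z ζ⟫_ℂ • op V v ζ
  have h7 : z (op V v ζ) = op V v (z ζ) :=
    (congrArg (fun A : H →L[ℂ] H => A ζ) (hzV v)).symm
  rw [h7]
  conv_lhs => rw [h6]
  rw [map_smul]

/-- **(END\*)** A nonzero multiplicative `*`-closed set `S` of Hilbert-Schmidt operators,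
normalised by `V(Λ)` and `R(Γ)`, with `Tr (s* t V_v) = 0` for `s, t ∈ S` and `v ≠ 1`:
then `R` is, up to a character, a unitary conjugate of the right regular representation
composed with an isomorphism of the groups. -/
theorem end_star (b : HilbertBasis Λ ℂ H) {ξ₀ : H} (hb : ∀ v, b v = op V v ξ₀)
    (b' : HilbertBasis ι ℂ H) (S : Set (H →L[ℂ] H))
    (mul : ∀ s ∈ S, ∀ t ∈ S, s * t ∈ S) (hstar : ∀ s ∈ S, star s ∈ S) (hne : ∃ s ∈ S, s ≠ 0)
    (hHS : ∀ s ∈ S, Summable fun j => ‖s (b' j)‖ ^ 2)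
    (hSV : ∀ v, ∀ s ∈ S, cj V v s ∈ S) (hSR : ∀ g, ∀ s ∈ S, cj R g s ∈ S)
    (hVR : ∀ v g, op V v * op R g = op R g * op V v)
    (hO : ∀ s ∈ S, ∀ t ∈ S, ∀ v : Λ, v ≠ 1 → ∑' j, ⟪s (b' j), t (op V v (b' j))⟫_ℂ = 0)
    (hRtot : (⊤ : Submodule ℂ H) ≤
      (Submodule.span ℂ (Set.range fun g => op R g ξ₀)).topologicalClosure)
    (h7 : ∀ A : H →L[ℂ] H, (∀ g, A * op R g = op R g * A) →
      ∀ B : H →L[ℂ] H, (∀ v, B * op V v = op V v * B) → A * B = B * A)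
    (h5 : ∀ N : Subgroup Λ, N.Normal → Finite N → N = ⊥)
    (h6 : ∀ g, ∀ μ : ℂ, op R g = μ • 1 → g = 1) :
    ∃ (w : unitary (H →L[ℂ] H)) (δ : Γ ≃* Λ) (χ : Γ →* ℂ),
      (∀ v, (w : H →L[ℂ] H) * op V v = op V v * w) ∧ (∀ g, ‖χ g‖ = 1) ∧
      ∀ g, ∀ ρ : H →L[ℂ] H, (∀ v, ρ * op V v = op V v * ρ) → ρ ξ₀ = op V (δ g)⁻¹ ξ₀ →
        op R g * w = χ g • ((w : H →L[ℂ] H) * ρ) := by
  have hS : HSet V b' S := ⟨mul, hstar, hne, hHS, hO⟩
  have hξ : ‖ξ₀‖ = 1 := by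
    have := b.orthonormal.1 1
    rwa [hb, norm_op] at this
  have hb1 : b 1 = ξ₀ := by
    rw [hb, op_one]
    rfl
  have hξV : ∀ v, v ≠ 1 → ⟪ξ₀, op V v ξ₀⟫_ℂ = 0 := by
    intro v hv
    have h8 : ⟪b 1, b v⟫_ℂ = 0 := b.orthonormal.2 (Ne.symm hv)
    rwa [hb1, hb] at h8
  have hRtot' : ∀ x : H, x ∈ cl (Set.range fun g => op R g ξ₀) := fun x => hRtot trivial
  have htop := ess_top V R hS hSV hSR hξ hξV hRtot' h7
  have hV := cj_vN V (hst := hstar) hSV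
  have hR := cj_vN R (hst := hstar) hSR
  have h4 : TrZero b' V (vN S hstar) := trZero_vN V hS hSV htop
  have h3 : ∀ z, z ∈ vN S hstar → z ∈ (vN S hstar).commutant →
      (∀ g, op R g * z = z * op R g) → ∃ μ : ℂ, z = μ • 1 := fun z hz _ hzR =>
    center_scalar V R hS hSV hξ hξV hRtot' h7 (mem_vN.1 hz) hzR
  have h1 : ∃ T ∈ vN S hstar, T ≠ 0 ∧
      FiniteDimensional ℂ (LinearMap.range (T : H →ₗ[ℂ] H)) := by
    obtain ⟨K, hKf, hK0, -, hKi⟩ := exists_fin V hS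
    refine ⟨K.starProjection, starProj_mem K fun y hy => hKi y (mem_vN_commutant.1 hy), ?_, ?_⟩
    · intro h
      apply hK0
      rw [Submodule.eq_bot_iff]
      intro x hx
      rw [← Submodule.starProjection_eq_self_iff.2 hx, h]
      rfl
    · refine Submodule.finiteDimensional_of_le (S₂ := K) ?_
      rintro _ ⟨x, rfl⟩
      exact Submodule.starProjection_apply_mem _ _
  have h2 := h2_of V R b' b hb hV hR hVR h1 h3 h4 h5
  exact end_group V R b' b hb hV hR hVR h1 h2 h3 h4 h5 h6 h7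

end Vale.Agent.P092.H87
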