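import Vale.Agent.P092.H820.Pn

/-!
P092, D-ULTRA, block [DU-GEO] (helper87): near-wall elements of `SL_3(k)`, `k` a nonarchimedean
field, in pivot form. `NWu C t g i j`: the entry `g i j` is a largest one, its norm is about
`t ^ 2`, the entries of the inverse are at most about `t`. Attracting point `uu`, repelling line
`yy`. Disc, strip and local constancy.
-/

set_option linter.all false

namespace Vale.Agent.P092.H87.U

open Matrix Vale.Agent.P092.H820

section Core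

variable {k : Type*} [NormedField k] [IsUltrametricDist k]

/-- near-wall of size `t`, pivot `(i, j)`, constant `C` (max norms) -/
structure NWu (C t : ℝ) (g : Matrix (Fin 3) (Fin 3) k) (i j : Fin 3) : Prop where
  one_le : 1 ≤ C
  t_one : 1 ≤ t
  det : g.det = 1
  piv : ∀ a b, ‖g a b‖ ≤ ‖g i j‖
  lo : t ^ 2 ≤ C * ‖g i j‖
  hi : ‖g i j‖ ≤ C * t ^ 2
  adj : ∀ a b, ‖g.adjugate a b‖ ≤ C * t

/-- the repelling line (normalised row) -/
def yy (g : Matrix (Fin 3) (Fin 3) k) (i j : Fin 3) : Fin 3 → k := fun b => g i b / g i j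

/-- the attracting point (normalised column) -/
def uu (g : Matrix (Fin 3) (Fin 3) k) (i j : Fin 3) : Fin 3 → k := fun a => g a j / g i j

/-- the rest after the rank one part -/
def EE (g : Matrix (Fin 3) (Fin 3) k) (i j : Fin 3) : Matrix (Fin 3) (Fin 3) k :=
  Matrix.of fun a b => g a b - g a j * g i b / g i j

lemma dot_le (l v : Fin 3 → k) : ‖l ⬝ᵥ v‖ ≤ ‖l‖ * ‖v‖ := by
  have h : ∀ i, ‖l i * v i‖ ≤ ‖l‖ * ‖v‖ := fun i => by
    rw [norm_mul]
    exact mul_le_mul (norm_le_pi_norm l i) (norm_le_pi_norm v i) (norm_nonneg _) (norm_nonneg _)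
  rw [dotProduct, Fin.sum_univ_three]
  exact le_trans (IsUltrametricDist.norm_add_le_max _ _) (max_le
    (le_trans (IsUltrametricDist.norm_add_le_max _ _) (max_le (h 0) (h 1))) (h 2))

lemma wd_le (v w : Fin 3 → k) : ‖wd v w‖ ≤ ‖v‖ * ‖w‖ := by
  refine (pi_norm_le_iff_of_nonneg (by positivity)).2 fun p => ?_
  have h : ∀ a b, ‖v a * w b‖ ≤ ‖v‖ * ‖w‖ := fun a b => by
    rw [norm_mul]
    exact mul_le_mul (norm_le_pi_norm v a) (norm_le_pi_norm w b) (norm_nonneg _) (norm_nonneg _)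
  rw [wd, sub_eq_add_neg]
  refine le_trans (IsUltrametricDist.norm_add_le_max _ _) (max_le (h _ _) ?_)
  rw [norm_neg]
  exact h _ _

/-- the third index -/
def th3 : Fin 3 → Fin 3 → Fin 3 := ![![0, 2, 1], ![2, 0, 0], ![1, 0, 0]]

lemma minor_le {g : Matrix (Fin 3) (Fin 3) k} {M : ℝ} (h : ∀ c d, ‖g.adjugate c d‖ ≤ M)
    (a i b j : Fin 3) : ‖g a b * g i j - g a j * g i b‖ ≤ M := by
  have hM : 0 ≤ M := le_trans (norm_nonneg _) (h 0 0)
  have key : ∀ x : k, (x = 0 ∨ ∃ c d, x = g.adjugate c d ∨ x = - g.adjugate c d) → ‖x‖ ≤ M := by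
    rintro x (rfl | ⟨c, d, rfl | rfl⟩)
    · simpa using hM
    · exact h c d
    · rw [norm_neg]; exact h c d
  apply key
  by_cases h1 : a = i
  · left; rw [h1]; ring
  by_cases h2 : b = j
  · left; rw [h2]; ring
  right
  refine ⟨th3 b j, th3 a i, ?_⟩
  rw [Matrix.adjugate_fin_three]
  fin_cases a <;> fin_cases i <;> first | (exact absurd rfl h1) | skip
  all_goals (fin_cases b <;> fin_cases j <;> first | (exact absurd rfl h2) | skip)
  all_goals simp [th3]
  all_goals first | (left; ring1) | (right; ring1) | skip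

lemma NWu.gij {C t : ℝ} {g : Matrix (Fin 3) (Fin 3) k} {i j : Fin 3} (h : NWu C t g i j) :
    g i j ≠ 0 := by
  intro h0
  have := h.lo
  rw [h0, norm_zero, mul_zero] at this
  have := h.t_one
  nlinarith

lemma NWu.C_pos {C t : ℝ} {g : Matrix (Fin 3) (Fin 3) k} {i j : Fin 3} (h : NWu C t g i j) :
    0 < C := lt_of_lt_of_le one_pos h.one_le

lemma NWu.t_pos {C t : ℝ} {g : Matrix (Fin 3) (Fin 3) k} {i j : Fin 3} (h : NWu C t g i j) :
    0 < t := lt_of_lt_of_le one_pos h.t_one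

lemma yy_j {C t : ℝ} {g : Matrix (Fin 3) (Fin 3) k} {i j : Fin 3} (h : NWu C t g i j) :
    yy g i j j = 1 := div_self h.gij

lemma uu_i {C t : ℝ} {g : Matrix (Fin 3) (Fin 3) k} {i j : Fin 3} (h : NWu C t g i j) :
    uu g i j i = 1 := div_self h.gij

lemma yy_norm {C t : ℝ} {g : Matrix (Fin 3) (Fin 3) k} {i j : Fin 3} (h : NWu C t g i j) :
    ‖yy g i j‖ = 1 := by
  apply le_antisymm
  · refine (pi_norm_le_iff_of_nonneg zero_le_one).2 fun b => ?_
    rw [yy, norm_div]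
    exact div_le_one_of_le₀ (h.piv _ _) (norm_nonneg _)
  · have := norm_le_pi_norm (yy g i j) j
    rwa [yy_j h, norm_one] at this

lemma uu_norm {C t : ℝ} {g : Matrix (Fin 3) (Fin 3) k} {i j : Fin 3} (h : NWu C t g i j) :
    ‖uu g i j‖ = 1 := by
  apply le_antisymm
  · refine (pi_norm_le_iff_of_nonneg zero_le_one).2 fun b => ?_
    rw [uu, norm_div]
    exact div_le_one_of_le₀ (h.piv _ _) (norm_nonneg _)
  · have := norm_le_pi_norm (uu g i j) i
    rwa [uu_i h, norm_one] at this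

lemma EE_le {C t : ℝ} {g : Matrix (Fin 3) (Fin 3) k} {i j : Fin 3} (h : NWu C t g i j)
    (a b : Fin 3) : ‖EE g i j a b‖ ≤ C ^ 2 / t := by
  have h1 : EE g i j a b = (g a b * g i j - g a j * g i b) / g i j := by
    have := h.gij
    rw [EE, Matrix.of_apply]
    field_simp
  have h2 := minor_le h.adj a i b j
  have h3 : 0 < ‖g i j‖ := norm_pos_iff.2 h.gij
  rw [h1, norm_div, div_le_iff₀ h3]
  have h4 := h.lo
  have ht := h.t_pos
  have hC := h.C_pos
  have h5 : C * t ≤ C ^ 2 / t * ‖g i j‖ := by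
    rw [div_mul_eq_mul_div, le_div_iff₀ ht]
    nlinarith
  exact h2.trans h5

/-- rank one part plus rest -/
lemma g_eq {C t : ℝ} {g : Matrix (Fin 3) (Fin 3) k} {i j : Fin 3} (h : NWu C t g i j)
    (a b : Fin 3) : g a b = g i j * (uu g i j a * yy g i j b) + EE g i j a b := by
  have := h.gij
  rw [EE, Matrix.of_apply, uu, yy]
  field_simp
  ring

lemma EE_vec_le {C t : ℝ} {g : Matrix (Fin 3) (Fin 3) k} {i j : Fin 3} (h : NWu C t g i j)
    (x : Fin 3 → k) : ‖EE g i j *ᵥ x‖ ≤ C ^ 2 / t * ‖x‖ := by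
  have ht := h.t_pos
  refine (pi_norm_le_iff_of_nonneg (by positivity)).2 fun a => ?_
  refine (dot_le _ _).trans (mul_le_mul_of_nonneg_right ?_ (norm_nonneg _))
  exact (pi_norm_le_iff_of_nonneg (by positivity)).2 fun b => EE_le h a b

lemma vec_EE_le {C t : ℝ} {g : Matrix (Fin 3) (Fin 3) k} {i j : Fin 3} (h : NWu C t g i j)
    (l : Fin 3 → k) : ‖l ᵥ* EE g i j‖ ≤ C ^ 2 / t * ‖l‖ := by
  have ht := h.t_pos
  refine (pi_norm_le_iff_of_nonneg (by positivity)).2 fun a => ?_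
  rw [mul_comm]
  refine (dot_le _ _).trans (mul_le_mul_of_nonneg_left ?_ (norm_nonneg _))
  exact (pi_norm_le_iff_of_nonneg (by positivity)).2 fun b => EE_le h b a

lemma mulVec_eq {C t : ℝ} {g : Matrix (Fin 3) (Fin 3) k} {i j : Fin 3} (h : NWu C t g i j)
    (x : Fin 3 → k) : g *ᵥ x = (g i j * (yy g i j ⬝ᵥ x)) • uu g i j + EE g i j *ᵥ x := by
  ext a
  simp only [Matrix.mulVec, dotProduct, Fin.sum_univ_three, Pi.add_apply, Pi.smul_apply,
    smul_eq_mul]
  rw [g_eq h a 0, g_eq h a 1, g_eq h a 2]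
  ring

lemma vecMul_eq {C t : ℝ} {g : Matrix (Fin 3) (Fin 3) k} {i j : Fin 3} (h : NWu C t g i j)
    (l : Fin 3 → k) : l ᵥ* g = (g i j * (l ⬝ᵥ uu g i j)) • yy g i j + l ᵥ* EE g i j := by
  ext b
  simp only [Matrix.vecMul, dotProduct, Fin.sum_univ_three, Pi.add_apply, Pi.smul_apply,
    smul_eq_mul]
  rw [g_eq h 0 b, g_eq h 1 b, g_eq h 2 b]
  ring

lemma wd_add_smul (c : k) (u e w : Fin 3 → k) : wd (c • u + e) w = c • wd u w + wd e w := by
  ext p
  simp only [wd, Pi.add_apply, Pi.smul_apply, smul_eq_mul]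
  ring

lemma wd_add_smul' (c : k) (u e w : Fin 3 → k) : wd w (c • u + e) = c • wd w u + wd w e := by
  ext p
  simp only [wd, Pi.add_apply, Pi.smul_apply, smul_eq_mul]
  ring

/-- DISC: a line `l` which stays away from the attracting point is pulled back into the disc of
radius about `t ^ (-3)` around the repelling line. -/
theorem disc {C t d : ℝ} {g : Matrix (Fin 3) (Fin 3) k} {i j : Fin 3} (h : NWu C t g i j)
    (hd : 0 < d) {l : Fin 3 → k} (hl : d * ‖l‖ ≤ ‖l ⬝ᵥ uu g i j‖) :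
    ‖wd (l ᵥ* g) (yy g i j)‖ ≤ C ^ 3 / d / t ^ 3 * ‖l ᵥ* g‖ := by
  have ht := h.t_pos
  have hC := h.C_pos
  have h1 : wd (l ᵥ* g) (yy g i j) = wd (l ᵥ* EE g i j) (yy g i j) := by
    rw [vecMul_eq h, wd_add_smul, wd_self, smul_zero, zero_add]
  have h2 : ‖wd (l ᵥ* g) (yy g i j)‖ ≤ C ^ 2 / t * ‖l‖ := by
    rw [h1]
    refine (wd_le _ _).trans ?_
    rw [yy_norm h, mul_one]
    exact vec_EE_le h l
  have h3 : (l ᵥ* g) j = g i j * (l ⬝ᵥ uu g i j) := by
    rw [vecMul_eq h]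
    simp only [Pi.add_apply, Pi.smul_apply, smul_eq_mul, yy_j h, mul_one]
    have : (l ᵥ* EE g i j) j = 0 := by
      have e : ∀ a, EE g i j a j = 0 := fun a => by
        have := h.gij
        rw [EE, Matrix.of_apply, mul_div_assoc, div_self h.gij, mul_one, sub_self]
      simp [Matrix.vecMul, dotProduct, e]
    rw [this, add_zero]
  have h4 : t ^ 2 / C * (d * ‖l‖) ≤ ‖l ᵥ* g‖ := by
    refine le_trans ?_ (norm_le_pi_norm (l ᵥ* g) j)
    rw [h3, norm_mul]
    refine mul_le_mul ?_ hl (by positivity) (norm_nonneg _)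
    rw [div_le_iff₀ hC, mul_comm]
    exact h.lo
  refine h2.trans ?_
  calc C ^ 2 / t * ‖l‖ = C ^ 3 / d / t ^ 3 * (t ^ 2 / C * (d * ‖l‖)) := by
        field_simp
    _ ≤ C ^ 3 / d / t ^ 3 * ‖l ᵥ* g‖ := mul_le_mul_of_nonneg_left h4 (by positivity)

/-- STRIP: if `g x` stays away from the attracting point then `x` is in the strip of radius about
`t ^ (-3)` around the repelling line. -/
theorem strip {C t d : ℝ} {g : Matrix (Fin 3) (Fin 3) k} {i j : Fin 3} (h : NWu C t g i j)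
    (hd : 0 < d) {x : Fin 3 → k} (hx : d * ‖g *ᵥ x‖ ≤ ‖wd (uu g i j) (g *ᵥ x)‖) :
    ‖yy g i j ⬝ᵥ x‖ ≤ C ^ 3 / d / t ^ 3 * ‖x‖ := by
  have ht := h.t_pos
  have hC := h.C_pos
  have h1 : ‖wd (uu g i j) (g *ᵥ x)‖ ≤ C ^ 2 / t * ‖x‖ := by
    rw [mulVec_eq h, wd_add_smul', wd_self, smul_zero, zero_add]
    refine (wd_le _ _).trans ?_
    rw [uu_norm h, one_mul]
    exact EE_vec_le h x
  have h2 : (g *ᵥ x) i = g i j * (yy g i j ⬝ᵥ x) := by
    rw [mulVec_eq h]
    simp only [Pi.add_apply, Pi.smul_apply, smul_eq_mul, uu_i h, mul_one]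
    have : (EE g i j *ᵥ x) i = 0 := by
      have e : ∀ b, EE g i j i b = 0 := fun b => by
        have := h.gij
        rw [EE, Matrix.of_apply]
        field_simp
        simp
      simp [Matrix.mulVec, dotProduct, e]
    rw [this, add_zero]
  have h3 : t ^ 2 / C * ‖yy g i j ⬝ᵥ x‖ ≤ ‖g *ᵥ x‖ := by
    refine le_trans ?_ (norm_le_pi_norm (g *ᵥ x) i)
    rw [h2, norm_mul]
    refine mul_le_mul_of_nonneg_right ?_ (norm_nonneg _)
    rw [div_le_iff₀ hC, mul_comm]
    exact h.lo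
  have h4 : d * (t ^ 2 / C * ‖yy g i j ⬝ᵥ x‖) ≤ C ^ 2 / t * ‖x‖ :=
    (mul_le_mul_of_nonneg_left h3 hd.le).trans (hx.trans h1)
  calc ‖yy g i j ⬝ᵥ x‖ = C / (d * t ^ 2) * (d * (t ^ 2 / C * ‖yy g i j ⬝ᵥ x‖)) := by
        field_simp
    _ ≤ C / (d * t ^ 2) * (C ^ 2 / t * ‖x‖) := mul_le_mul_of_nonneg_left h4 (by positivity)
    _ = C ^ 3 / d / t ^ 3 * ‖x‖ := by
        field_simp

/-- the inverse does not expand more than `C t` -/
lemma le_mulVec {C t : ℝ} {g : Matrix (Fin 3) (Fin 3) k} {i j : Fin 3} (h : NWu C t g i j)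
    (v : Fin 3 → k) : ‖v‖ ≤ C * t * ‖g *ᵥ v‖ := by
  have ht := h.t_pos
  have hC := h.C_pos
  have h1 : g.adjugate *ᵥ (g *ᵥ v) = v := by
    rw [Matrix.mulVec_mulVec, Matrix.adjugate_mul, h.det, one_smul, Matrix.one_mulVec]
  have h2 : ‖g.adjugate *ᵥ (g *ᵥ v)‖ ≤ C * t * ‖g *ᵥ v‖ := by
    refine (pi_norm_le_iff_of_nonneg (by positivity)).2 fun a => ?_
    refine (dot_le _ _).trans (mul_le_mul_of_nonneg_right ?_ (norm_nonneg _))
    exact (pi_norm_le_iff_of_nonneg (by positivity)).2 fun b => h.adj a b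
  rwa [h1] at h2

/-- LOCAL CONSTANCY: on the scale `e` along the repelling line and `e t ^ (-3)` across it, the
projective map `g` moves points by at most `C ^ 3 e`. -/
theorem loc_const {C t e : ℝ} {g : Matrix (Fin 3) (Fin 3) k} {i j : Fin 3} (h : NWu C t g i j)
    (he : 0 ≤ e) {v w : Fin 3 → k} (hv : ‖v‖ = 1) (h1 : ‖v - w‖ ≤ e)
    (h2 : ‖yy g i j ⬝ᵥ (v - w)‖ ≤ e / t ^ 3) :
    ‖wd (g *ᵥ v) (g *ᵥ w)‖ ≤ C ^ 3 * e * ‖g *ᵥ v‖ * ‖g *ᵥ w‖ := by
  have ht := h.t_pos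
  have hC := h.C_pos
  have h3 : ‖g *ᵥ (v - w)‖ ≤ C ^ 2 * e / t := by
    rw [mulVec_eq h]
    refine (IsUltrametricDist.norm_add_le_max _ _).trans (max_le ?_ ?_)
    · rw [norm_smul, norm_mul, uu_norm h, mul_one]
      calc ‖g i j‖ * ‖yy g i j ⬝ᵥ (v - w)‖ ≤ C * t ^ 2 * (e / t ^ 3) :=
            mul_le_mul h.hi h2 (norm_nonneg _) (by positivity)
        _ = C * e / t := by field_simp
        _ ≤ C ^ 2 * e / t := by
            refine div_le_div_of_nonneg_right ?_ ht.le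
            refine mul_le_mul_of_nonneg_right ?_ he
            nlinarith [h.one_le]
    · refine (EE_vec_le h _).trans ?_
      calc C ^ 2 / t * ‖v - w‖ ≤ C ^ 2 / t * e := mul_le_mul_of_nonneg_left h1 (by positivity)
        _ = C ^ 2 * e / t := by ring
  have h4 : wd (g *ᵥ v) (g *ᵥ w) = wd (g *ᵥ (v - w)) (g *ᵥ w) := by
    rw [Matrix.mulVec_sub]
    ext p
    simp only [wd, Pi.sub_apply]
    ring
  have h5 : 1 ≤ C * t * ‖g *ᵥ v‖ := by
    have := le_mulVec h v
    rwa [hv] at this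
  rw [h4]
  refine (wd_le _ _).trans (mul_le_mul_of_nonneg_right (h3.trans ?_) (norm_nonneg _))
  calc C ^ 2 * e / t = C ^ 2 * e / t * 1 := by ring
    _ ≤ C ^ 2 * e / t * (C * t * ‖g *ᵥ v‖) := mul_le_mul_of_nonneg_left h5 (by positivity)
    _ = C ^ 3 * e * ‖g *ᵥ v‖ := by field_simp

/-- CAPACITY (helper414, Lemma N): two near-wall elements of the same size and pivot with close
repelling lines differ by a bounded element on the left. -/
theorem cap {C t : ℝ} {g g' : Matrix (Fin 3) (Fin 3) k} {i j : Fin 3} (h : NWu C t g i j)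
    (h' : NWu C t g' i j) (hy : ‖yy g' i j - yy g i j‖ ≤ 1 / t ^ 3) (a c : Fin 3) :
    ‖(g' * g.adjugate) a c‖ ≤ C ^ 3 := by
  have ht := h.t_pos
  have hC := h.C_pos
  have hgij : 0 < ‖g i j‖ := norm_pos_iff.2 h.gij
  -- the row `yy g` times the inverse of `g`
  have h1 : ∀ c, (yy g i j ᵥ* g.adjugate) c = (if i = c then 1 else 0) / g i j := by
    intro c
    have e1 : yy g i j = (g i j)⁻¹ • g i := by
      ext b; simp [yy, div_eq_inv_mul]
    have e2 : (g i) ᵥ* g.adjugate = fun c => (g * g.adjugate) i c := by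
      ext c; rfl
    rw [e1, Matrix.smul_vecMul, e2, Matrix.mul_adjugate, h.det, one_smul, Pi.smul_apply,
      Matrix.one_apply, smul_eq_mul, div_eq_inv_mul]
  have h2 : ∀ c, ‖(yy g i j ᵥ* g.adjugate) c‖ ≤ C / t ^ 2 := by
    intro c
    rw [h1, norm_div]
    have : ‖(if i = c then (1 : k) else 0)‖ ≤ 1 := by split_ifs <;> simp
    calc ‖(if i = c then (1 : k) else 0)‖ / ‖g i j‖ ≤ 1 / ‖g i j‖ :=
          div_le_div_of_nonneg_right this hgij.le
      _ ≤ C / t ^ 2 := by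
          rw [div_le_div_iff₀ hgij (by positivity), one_mul]
          exact h.lo
  have h3 : ∀ c, ‖(yy g' i j ᵥ* g.adjugate) c‖ ≤ C / t ^ 2 := by
    intro c
    have e : yy g' i j ᵥ* g.adjugate =
        yy g i j ᵥ* g.adjugate + (yy g' i j - yy g i j) ᵥ* g.adjugate := by
      rw [← Matrix.add_vecMul]; congr 1; abel
    rw [e, Pi.add_apply]
    refine (IsUltrametricDist.norm_add_le_max _ _).trans (max_le (h2 c) ?_)
    have : ‖((yy g' i j - yy g i j) ᵥ* g.adjugate) c‖ ≤ 1 / t ^ 3 * (C * t) := by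
      refine (dot_le _ _).trans (mul_le_mul hy ?_ (norm_nonneg _) (by positivity))
      exact (pi_norm_le_iff_of_nonneg (by positivity)).2 fun b => h.adj b c
    refine this.trans (le_of_eq ?_)
    field_simp
  have h4 : (g' * g.adjugate) a c = (g' i j * uu g' i j a) * (yy g' i j ᵥ* g.adjugate) c +
      EE g' i j a ⬝ᵥ (fun b => g.adjugate b c) := by
    simp only [Matrix.mul_apply, Matrix.vecMul, dotProduct, Fin.sum_univ_three]
    rw [g_eq h' a 0, g_eq h' a 1, g_eq h' a 2]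
    ring
  rw [h4]
  refine (IsUltrametricDist.norm_add_le_max _ _).trans (max_le ?_ ?_)
  · rw [norm_mul, norm_mul]
    have hu : ‖uu g' i j a‖ ≤ 1 := (norm_le_pi_norm _ a).trans (uu_norm h').le
    calc ‖g' i j‖ * ‖uu g' i j a‖ * ‖(yy g' i j ᵥ* g.adjugate) c‖
        ≤ C * t ^ 2 * 1 * (C / t ^ 2) := by
          refine mul_le_mul (mul_le_mul h'.hi hu (norm_nonneg _) (by positivity)) (h3 c)
            (norm_nonneg _) (by positivity)
      _ = C ^ 2 := by field_simp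
      _ ≤ C ^ 3 := pow_le_pow_right₀ h.one_le (by norm_num)
  · refine (dot_le _ _).trans ?_
    calc ‖EE g' i j a‖ * ‖fun b => g.adjugate b c‖ ≤ C ^ 2 / t * (C * t) := by
          refine mul_le_mul ?_ ?_ (norm_nonneg _) (by positivity)
          · exact (pi_norm_le_iff_of_nonneg (by positivity)).2 fun b => EE_le h' a b
          · exact (pi_norm_le_iff_of_nonneg (by positivity)).2 fun b => h.adj b c
      _ = C ^ 3 := by field_simp

end Core

end Vale.Agent.P092.H87.U
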