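import Vale.Agent.P092.H87.UGeo

/-!
P092, D-ULTRA, block [DU-GEO], part 2 (helper87): the projective form. For clopen sets `U`, `Z` of
points and `A` of lines with `U` off `Z` and off the lines of `A`, and near-wall `g` with attracting
point in `U`: the pull back of `A` is in the disc and the pull back of `Z` is in the strip of
radius `D t ^ (-3)` about the repelling line, and it is locally constant at the scale `e`.
-/

set_option linter.all false

namespace Vale.Agent.P092.H87.U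

open Matrix TopologicalSpace Vale.Agent.P092.H820
open scoped LinearAlgebra.Projectivization

section Cpt

variable {k : Type*} [NormedField k]

/-- the sphere covers the projective plane -/
lemma exists_norm_one (v : Fin 3 → k) (hv : v ≠ 0) : ∃ c : k, c ≠ 0 ∧ ‖c • v‖ = 1 := by
  obtain ⟨i, hi⟩ := Finite.exists_max fun i => ‖v i‖
  have hvi : v i ≠ 0 := by
    intro h
    apply hv
    ext a
    have := hi a
    rw [h, norm_zero] at this
    exact norm_eq_zero.1 (le_antisymm this (norm_nonneg _))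
  have hn : ‖v‖ = ‖v i‖ := le_antisymm ((pi_norm_le_iff_of_nonneg (norm_nonneg _)).2 hi)
    (norm_le_pi_norm v i)
  refine ⟨(v i)⁻¹, inv_ne_zero hvi, ?_⟩
  rw [norm_smul, norm_inv, hn, inv_mul_cancel₀]
  exact norm_ne_zero_iff.2 hvi

/-- the class of a vector (any value at zero) -/
noncomputable def cl (v : Fin 3 → k) (hv : v ≠ 0) : ℙ k (Fin 3 → k) := pj k (Fin 3) ⟨v, hv⟩

lemma cl_smul {v : Fin 3 → k} (hv : v ≠ 0) {c : k} (hc : c ≠ 0) :
    cl (c • v) (smul_ne_zero hc hv) = cl v hv := by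
  rw [cl, cl, pj_eq]
  exact ⟨Units.mk0 c hc, rfl⟩

/-- a bihomogeneous function which does not vanish over a compact set is bounded below -/
theorem exists_low [ProperSpace k] {W : Type*} [NormedAddCommGroup W]
    (f : (Fin 3 → k) → (Fin 3 → k) → W) (hf : Continuous fun p : (Fin 3 → k) × (Fin 3 → k) =>
      f p.1 p.2) (hom : ∀ (c d : k) u x, ‖f (c • u) (d • x)‖ = ‖c‖ * ‖d‖ * ‖f u x‖)
    (U Z : Set (ℙ k (Fin 3 → k))) (hU : IsClosed U) (hZ : IsClosed Z)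
    (h0 : ∀ u x (hu : u ≠ 0) (hx : x ≠ 0), cl u hu ∈ U → cl x hx ∈ Z → f u x ≠ 0) :
    ∃ d : ℝ, 0 < d ∧ ∀ u x (hu : u ≠ 0) (hx : x ≠ 0), cl u hu ∈ U → cl x hx ∈ Z →
      d * (‖u‖ * ‖x‖) ≤ ‖f u x‖ := by
  have hne : ∀ v : Metric.sphere (0 : Fin 3 → k) 1, v.1 ≠ 0 := fun v h => by
    have := v.2
    rw [h] at this
    simp at this
  let F : Metric.sphere (0 : Fin 3 → k) 1 → ℙ k (Fin 3 → k) := fun v => cl v.1 (hne v)
  have hF : Continuous F := pj_continuous.comp (Continuous.subtype_mk continuous_subtype_val _)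
  have : CompactSpace (Metric.sphere (0 : Fin 3 → k) 1) :=
    isCompact_iff_compactSpace.1 (isCompact_sphere _ _)
  let K : Set (Metric.sphere (0 : Fin 3 → k) 1 × Metric.sphere (0 : Fin 3 → k) 1) :=
    {p | F p.1 ∈ U ∧ F p.2 ∈ Z}
  have hK : IsCompact K := by
    apply IsClosed.isCompact
    exact (hU.preimage (hF.comp continuous_fst)).inter (hZ.preimage (hF.comp continuous_snd))
  have key : ∃ d : ℝ, 0 < d ∧ ∀ p ∈ K, d ≤ ‖f p.1.1 p.2.1‖ := by
    rcases K.eq_empty_or_nonempty with h | h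
    · exact ⟨1, one_pos, fun p hp => by rw [h] at hp; exact absurd hp (Set.notMem_empty p)⟩
    · have hc : Continuous fun p : Metric.sphere (0 : Fin 3 → k) 1 ×
          Metric.sphere (0 : Fin 3 → k) 1 => ‖f p.1.1 p.2.1‖ :=
        (hf.comp (Continuous.prodMk (continuous_subtype_val.comp continuous_fst)
          (continuous_subtype_val.comp continuous_snd))).norm
      obtain ⟨p, hp, hmin⟩ := hK.exists_isMinOn h hc.continuousOn
      refine ⟨‖f p.1.1 p.2.1‖, norm_pos_iff.2 (h0 _ _ (hne _) (hne _) hp.1 hp.2), ?_⟩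
      exact fun q hq => hmin hq
  obtain ⟨d, hd, hd'⟩ := key
  refine ⟨d, hd, fun u x hu hx hU' hZ' => ?_⟩
  obtain ⟨a, ha, ha'⟩ := exists_norm_one u hu
  obtain ⟨b, hb, hb'⟩ := exists_norm_one x hx
  have h1 := hd' (⟨a • u, by simpa using ha'⟩, ⟨b • x, by simpa using hb'⟩) (by
    refine ⟨?_, ?_⟩
    · change cl (a • u) _ ∈ U
      rwa [cl_smul hu ha]
    · change cl (b • x) _ ∈ Z
      rwa [cl_smul hx hb])
  have h2 : d ≤ ‖a‖ * ‖b‖ * ‖f u x‖ := by
    rw [← hom]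
    exact h1
  rw [norm_smul] at ha' hb'
  have hu0 : 0 < ‖u‖ := norm_pos_iff.2 hu
  have hx0 : 0 < ‖x‖ := norm_pos_iff.2 hx
  have h3 : d * (‖u‖ * ‖x‖) ≤ ‖a‖ * ‖b‖ * ‖f u x‖ * (‖u‖ * ‖x‖) :=
    mul_le_mul_of_nonneg_right h2 (by positivity)
  calc d * (‖u‖ * ‖x‖) ≤ ‖a‖ * ‖b‖ * ‖f u x‖ * (‖u‖ * ‖x‖) := h3
    _ = (‖a‖ * ‖u‖) * (‖b‖ * ‖x‖) * ‖f u x‖ := by ring
    _ = ‖f u x‖ := by rw [ha', hb']; ring

/-- disjoint closed sets of points are at positive angle -/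
theorem exists_angle [ProperSpace k] {U Z : Set (ℙ k (Fin 3 → k))} (hU : IsClosed U)
    (hZ : IsClosed Z) (h : Disjoint U Z) :
    ∃ d : ℝ, 0 < d ∧ ∀ u x (hu : u ≠ 0) (hx : x ≠ 0), cl u hu ∈ U → cl x hx ∈ Z →
      d * (‖u‖ * ‖x‖) ≤ ‖wd u x‖ := by
  refine exists_low wd wd_continuous (fun c d u x => ?_) U Z hU hZ fun u x hu hx h1 h2 h3 => ?_
  · have : wd (c • u) (d • x) = (c * d) • wd u x := by
      ext p
      simp only [wd, Pi.smul_apply, smul_eq_mul]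
      ring
    rw [this, norm_smul, norm_mul]
  · have : cl u hu = cl x hx := (pj_eq_iff _ _).2 h3
    rw [this] at h1
    exact Set.disjoint_left.1 h h1 h2

/-- closed sets of points and lines without incidence: the pairing is bounded below -/
theorem exists_pair [ProperSpace k] {U A : Set (ℙ k (Fin 3 → k))} (hU : IsClosed U)
    (hA : IsClosed A) (h : ∀ x ∈ U, ∀ y ∈ A, (x, y) ∉ inc3) :
    ∃ d : ℝ, 0 < d ∧ ∀ u l (hu : u ≠ 0) (hl : l ≠ 0), cl u hu ∈ U → cl l hl ∈ A →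
      d * (‖u‖ * ‖l‖) ≤ ‖l ⬝ᵥ u‖ := by
  refine exists_low (fun u l => l ⬝ᵥ u) ?_ (fun c d u x => ?_) U A hU hA
    fun u x hu hx h1 h2 h3 => ?_
  · exact continuous_snd.dotProduct continuous_fst
  · change ‖(d • x) ⬝ᵥ (c • u)‖ = _
    rw [smul_dotProduct, dotProduct_smul, smul_eq_mul, smul_eq_mul, norm_mul,
      norm_mul]
    ring
  · refine h _ h1 _ h2 ((orthogonal_iff _ _).2 ?_)
    rw [dotProduct_comm]
    exact h3

end Cpt

section Main

variable {k : Type*} [NormedField k] [ProperSpace k] [IsUltrametricDist k]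

lemma uu_ne {C t : ℝ} {g : Matrix (Fin 3) (Fin 3) k} {i j : Fin 3} (h : NWu C t g i j) :
    uu g i j ≠ 0 := fun h0 => by
  have := uu_norm h
  rw [h0, norm_zero] at this
  exact zero_ne_one this

lemma yy_ne {C t : ℝ} {g : Matrix (Fin 3) (Fin 3) k} {i j : Fin 3} (h : NWu C t g i j) :
    yy g i j ≠ 0 := fun h0 => by
  have := yy_norm h
  rw [h0, norm_zero] at this
  exact zero_ne_one this

/-- the attracting point -/
noncomputable def xp {C t : ℝ} {g : Matrix (Fin 3) (Fin 3) k} {i j : Fin 3}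
    (h : NWu C t g i j) : ℙ k (Fin 3 → k) := cl (uu g i j) (uu_ne h)

/-- **The disc.** If the line `l` is in `A` and the attracting point is in `U`, the line `l g` is
in the disc of radius `D t ^ (-3)` about the repelling line. -/
theorem geo_disc {U A : Clopens (ℙ k (Fin 3 → k))} (hUA : ∀ x ∈ U, ∀ y ∈ A, (x, y) ∉ inc3)
    {C : ℝ} (hC : 1 ≤ C) : ∃ D : ℝ, 1 ≤ D ∧ ∀ t (g : Matrix (Fin 3) (Fin 3) k) i j
      (h : NWu C t g i j), xp h ∈ U → ∀ l (hl : l ≠ 0), cl l hl ∈ A →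
      ‖wd (l ᵥ* g) (yy g i j)‖ ≤ D / t ^ 3 * ‖l ᵥ* g‖ := by
  obtain ⟨d, hd, hd'⟩ := exists_pair U.isClopen.isClosed A.isClopen.isClosed hUA
  refine ⟨max 1 (C ^ 3 / d), le_max_left _ _, fun t g i j h hx l hl hA => ?_⟩
  have h1 := hd' (uu g i j) l (uu_ne h) hl hx hA
  rw [uu_norm h, one_mul] at h1
  have ht := h.t_pos
  refine (disc h hd h1).trans (mul_le_mul_of_nonneg_right ?_ (norm_nonneg _))
  exact div_le_div_of_nonneg_right (le_max_right _ _) (by positivity)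

/-- **The strip.** If `g x` is in `Z` and the attracting point is in `U`, then `x` is in the strip
of radius `D t ^ (-3)` about the repelling line. -/
theorem geo_strip {U Z : Clopens (ℙ k (Fin 3 → k))} (hUZ : Disjoint U Z)
    {C : ℝ} (hC : 1 ≤ C) : ∃ D : ℝ, 1 ≤ D ∧ ∀ t (g : Matrix (Fin 3) (Fin 3) k) i j
      (h : NWu C t g i j), xp h ∈ U → ∀ x (hx : g *ᵥ x ≠ 0), cl (g *ᵥ x) hx ∈ Z →
      ‖yy g i j ⬝ᵥ x‖ ≤ D / t ^ 3 * ‖x‖ := by
  have hdis : Disjoint (U : Set (ℙ k (Fin 3 → k))) (Z : Set (ℙ k (Fin 3 → k))) := by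
    rw [Set.disjoint_left]
    intro x h1 h2
    have := hUZ.le_bot (show x ∈ U ⊓ Z from ⟨h1, h2⟩)
    exact this
  obtain ⟨d, hd, hd'⟩ := exists_angle U.isClopen.isClosed Z.isClopen.isClosed hdis
  refine ⟨max 1 (C ^ 3 / d), le_max_left _ _, fun t g i j h hU x hx hZ => ?_⟩
  have h1 := hd' (uu g i j) (g *ᵥ x) (uu_ne h) hx hU hZ
  rw [uu_norm h, one_mul] at h1
  have ht := h.t_pos
  refine (strip h hd h1).trans (mul_le_mul_of_nonneg_right ?_ (norm_nonneg _))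
  exact div_le_div_of_nonneg_right (le_max_right _ _) (by positivity)

/-- a near-wall matrix is injective -/
lemma mulVec_ne {C t : ℝ} {g : Matrix (Fin 3) (Fin 3) k} {i j : Fin 3} (h : NWu C t g i j)
    {v : Fin 3 → k} (hv : v ≠ 0) : g *ᵥ v ≠ 0 := fun h0 => by
  have := le_mulVec h v
  rw [h0, norm_zero, mul_zero] at this
  exact hv (norm_eq_zero.1 (le_antisymm this (norm_nonneg _)))

/-- **Local constancy** of the pull back of a clopen set `Z`. -/
theorem geo_lc (Z : Clopens (ℙ k (Fin 3 → k))) {C : ℝ} (hC : 1 ≤ C) :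
    ∃ e : ℝ, 0 < e ∧ e < 1 ∧ ∀ t (g : Matrix (Fin 3) (Fin 3) k) i j (h : NWu C t g i j)
      (v w : Fin 3 → k) (hv : g *ᵥ v ≠ 0) (hw : g *ᵥ w ≠ 0), ‖v‖ = 1 → ‖v - w‖ ≤ e →
      ‖yy g i j ⬝ᵥ (v - w)‖ ≤ e / t ^ 3 → cl (g *ᵥ v) hv ∈ Z → cl (g *ᵥ w) hw ∈ Z := by
  have hdis : Disjoint (Z : Set (ℙ k (Fin 3 → k))) ((Z : Set (ℙ k (Fin 3 → k)))ᶜ) :=
    disjoint_compl_right
  obtain ⟨d, hd, hd'⟩ := exists_angle Z.isClopen.isClosed Z.isClopen.compl.isClosed hdis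
  have hC0 : 0 < C := lt_of_lt_of_le one_pos hC
  refine ⟨min (1 / 2) (d / (2 * C ^ 3)), by positivity,
    lt_of_le_of_lt (min_le_left _ _) (by norm_num), fun t g i j h v w hv hw h1 h2 h3 hZ => ?_⟩
  by_contra hn
  set e : ℝ := min (1 / 2) (d / (2 * C ^ 3)) with he
  have he0 : 0 ≤ e := by rw [he]; positivity
  have h4 := hd' (g *ᵥ v) (g *ᵥ w) hv hw hZ hn
  have h5 := loc_const h he0 h1 h2 h3
  have hv0 : 0 < ‖g *ᵥ v‖ := norm_pos_iff.2 hv
  have hw0 : 0 < ‖g *ᵥ w‖ := norm_pos_iff.2 hw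
  have h6 : C ^ 3 * e ≤ d / 2 := by
    calc C ^ 3 * e ≤ C ^ 3 * (d / (2 * C ^ 3)) :=
          mul_le_mul_of_nonneg_left (min_le_right _ _) (by positivity)
      _ = d / 2 := by field_simp
  have h7 : d * (‖g *ᵥ v‖ * ‖g *ᵥ w‖) ≤ d / 2 * (‖g *ᵥ v‖ * ‖g *ᵥ w‖) := by
    refine h4.trans (h5.trans ?_)
    rw [mul_assoc]
    exact mul_le_mul_of_nonneg_right h6 (by positivity)
  have h8 : 0 < ‖g *ᵥ v‖ * ‖g *ᵥ w‖ := by positivity
  nlinarith

end Main

end Vale.Agent.P092.H87.U
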