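import Vale.Agent.P092.H87.UGeo2
import Vale.Agent.P092.H575.Geo2

/-!
P092, D-ULTRA, block [DU-GEO], part 3 (helper87): the bridge from the singular values (helper933,
helper575: `sv`, `q1`, `q2`, attracting point `bp`) to the pivot form `NWu`.
-/

set_option linter.all false

namespace Vale.Agent.P092.H87.U

open Matrix TopologicalSpace Vale.Agent.P092.H820 Vale.Agent.P092.H933 Vale.Agent.P092.H575
open scoped LinearAlgebra.Projectivization

section Bridge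

variable {k : Type*} [NormedField k] [IsUltrametricDist k]

/-- the first gap of a unit of `M_3(k)` -/
noncomputable def g1 (γ : (Matrix (Fin 3) (Fin 3) k)ˣ) : ℝ := q1 (by norm_num : 1 < 3) γ.1

/-- the second gap of a unit of `M_3(k)` -/
noncomputable def g2 (γ : (Matrix (Fin 3) (Fin 3) k)ˣ) : ℝ := q2 (by norm_num : 1 < 3) γ.1

/-- the size `t`, with `t ^ 3` the first gap -/
noncomputable def tt (γ : (Matrix (Fin 3) (Fin 3) k)ˣ) : ℝ := (g1 γ) ^ ((1 : ℝ) / 3)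

lemma g1_eq (γ : (Matrix (Fin 3) (Fin 3) k)ˣ) : g1 γ = sv γ.1 0 / sv γ.1 1 := rfl

lemma g2_eq (γ : (Matrix (Fin 3) (Fin 3) k)ˣ) : g2 γ = sv γ.1 1 / sv γ.1 2 := rfl

lemma sv_prod {M : Matrix (Fin 3) (Fin 3) k} (h : M.det = 1) : sv M 0 * sv M 1 * sv M 2 = 1 := by
  have h1 := congrArg Matrix.det (car M).eq
  rw [h, Matrix.det_mul, Matrix.det_mul, Matrix.det_diagonal, Fin.prod_univ_three] at h1
  have h2 := congrArg norm h1
  rw [norm_one, norm_mul, norm_mul, norm_mul, norm_mul, (car M).hu.norm_det, (car M).hv.norm_det,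
    one_mul, mul_one] at h2
  exact h2.symm

lemma nr_le_sv (M : Matrix (Fin 3) (Fin 3) k) : nr M ≤ sv M 0 := by
  refine nr_le (norm_nonneg _) fun i j => ?_
  have h1 : M = (car M).u * diagonal (car M).a * (car M).v := (car M).eq
  have h2 : ∀ i j, ‖(diagonal (car M).a) i j‖ ≤ sv M 0 := by
    intro i j
    rw [Matrix.diagonal_apply]
    split_ifs
    · exact (car M).anti (Fin.zero_le i)
    · rw [norm_zero]; exact norm_nonneg _
  have h3 := mul_entry_le' zero_le_one (norm_nonneg _) (car M).hu.le h2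
  have h4 := mul_entry_le' (by rw [one_mul]; exact norm_nonneg _) zero_le_one h3 (car M).hv.le i j
  rw [← h1, one_mul, mul_one] at h4
  exact h4

lemma one_le_g1 (γ : (Matrix (Fin 3) (Fin 3) k)ˣ) : 1 ≤ g1 γ := by
  have hdet : γ.1.det ≠ 0 := (Matrix.isUnits_det_units γ).ne_zero
  rw [g1_eq, le_div_iff₀ (sv_pos hdet _), one_mul]
  exact (car γ.1).anti (Fin.zero_le 1)

lemma one_le_g2 (γ : (Matrix (Fin 3) (Fin 3) k)ˣ) : 1 ≤ g2 γ := by
  have hdet : γ.1.det ≠ 0 := (Matrix.isUnits_det_units γ).ne_zero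
  rw [g2_eq, le_div_iff₀ (sv_pos hdet _), one_mul]
  exact (car γ.1).anti (by decide : (1 : Fin 3) ≤ 2)

lemma tt_cube (γ : (Matrix (Fin 3) (Fin 3) k)ˣ) : tt γ ^ 3 = g1 γ := by
  have h0 : 0 ≤ g1 γ := zero_le_one.trans (one_le_g1 γ)
  rw [tt, ← Real.rpow_natCast, ← Real.rpow_mul h0]
  norm_num

lemma one_le_tt (γ : (Matrix (Fin 3) (Fin 3) k)ˣ) : 1 ≤ tt γ :=
  Real.one_le_rpow (one_le_g1 γ) (by norm_num)

lemma le_of_cube {a b : ℝ} (hb : 0 ≤ b) (h : a ^ 3 ≤ b ^ 3) : a ≤ b :=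
  le_of_pow_le_pow_left₀ (by norm_num) hb h

/-- **The bridge**: determinant one, second gap at most `R` implies near-wall of size `tt`. -/
theorem nwu_of {R : ℝ} (hR : 1 ≤ R) (γ : (Matrix (Fin 3) (Fin 3) k)ˣ) (hdet : γ.1.det = 1)
    (h2 : g2 γ ≤ R) : ∃ i j, NWu R (tt γ) γ.1 i j := by
  have hd0 : γ.1.det ≠ 0 := (Matrix.isUnits_det_units γ).ne_zero
  obtain ⟨i, j, hij⟩ := nr_exists γ.1 γ.ne_zero
  have s0 := sv_pos hd0 0
  have s1 := sv_pos hd0 1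
  have s2 := sv_pos hd0 2
  have hp := sv_prod hdet
  have hR0 : 0 < R := lt_of_lt_of_le one_pos hR
  have ht1 := one_le_tt γ
  have ht : 0 < tt γ := lt_of_lt_of_le one_pos ht1
  have hc := tt_cube γ
  rw [g1_eq] at hc
  rw [g2_eq] at h2
  have h12 : sv γ.1 2 ≤ sv γ.1 1 := (car γ.1).anti (by decide : (1 : Fin 3) ≤ 2)
  have hg2 : 1 ≤ sv γ.1 1 / sv γ.1 2 := (one_le_div s2).2 h12
  -- `s0 s1 ^ 2 = s1 / s2`
  have e1 : sv γ.1 0 * sv γ.1 1 ^ 2 = sv γ.1 1 / sv γ.1 2 := by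
    rw [eq_div_iff s2.ne']
    calc sv γ.1 0 * sv γ.1 1 ^ 2 * sv γ.1 2 = sv γ.1 0 * sv γ.1 1 * sv γ.1 2 * sv γ.1 1 := by ring
      _ = sv γ.1 1 := by rw [hp, one_mul]
  have e2 : sv γ.1 0 ^ 3 = (tt γ ^ 2) ^ 3 * (sv γ.1 1 / sv γ.1 2) := by
    rw [← e1]
    have : (tt γ ^ 2) ^ 3 = (tt γ ^ 3) ^ 2 := by ring
    rw [this, hc]
    field_simp
  have hs0 : tt γ ^ 2 ≤ sv γ.1 0 := by
    refine le_of_cube s0.le ?_
    rw [e2]
    exact le_mul_of_one_le_right (by positivity) hg2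
  have hs0' : sv γ.1 0 ≤ R * tt γ ^ 2 := by
    refine le_of_cube (by positivity) ?_
    rw [e2, mul_comm, mul_pow]
    refine mul_le_mul_of_nonneg_right ?_ (by positivity)
    calc sv γ.1 1 / sv γ.1 2 ≤ R := h2
      _ ≤ R ^ 3 := le_self_pow₀ hR (by norm_num)
  have hN : nr γ.1 ≤ sv γ.1 0 := nr_le_sv _
  have hN' : sv γ.1 0 ≤ nr γ.1 := sv_zero_le (by norm_num) γ.1
  have e3 : (sv γ.1 2)⁻¹ ^ 3 = (sv γ.1 1 / sv γ.1 2) ^ 2 * tt γ ^ 3 := by
    rw [hc, inv_pow, inv_eq_one_div, div_eq_iff (by positivity)]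
    calc (1 : ℝ) = (sv γ.1 0 * sv γ.1 1 * sv γ.1 2) := hp.symm
      _ = (sv γ.1 1 / sv γ.1 2) ^ 2 * (sv γ.1 0 / sv γ.1 1) * sv γ.1 2 ^ 3 := by field_simp
  have hs2 : (sv γ.1 2)⁻¹ ≤ R * tt γ := by
    refine le_of_cube (by positivity) ?_
    rw [e3, mul_pow]
    refine mul_le_mul_of_nonneg_right ?_ (by positivity)
    calc (sv γ.1 1 / sv γ.1 2) ^ 2 ≤ R ^ 2 := pow_le_pow_left₀ (by positivity) h2 2
      _ ≤ R ^ 3 := pow_le_pow_right₀ hR (by norm_num)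
  have hadj : γ.1.adjugate = (γ⁻¹).1 := by
    have h : γ.1.adjugate * γ.1 = 1 := by rw [Matrix.adjugate_mul, hdet, one_smul]
    calc γ.1.adjugate = γ.1.adjugate * (γ.1 * (γ⁻¹).1) := by rw [Units.mul_inv, mul_one]
      _ = (γ⁻¹).1 := by rw [← mul_assoc, h, one_mul]
  refine ⟨i, j, hR, ht1, hdet, fun a b => ?_, ?_, ?_, fun a b => ?_⟩
  · rw [hij]; exact entry_le_nr γ.1 a b
  · rw [hij]
    calc tt γ ^ 2 ≤ sv γ.1 0 := hs0
      _ ≤ nr γ.1 := hN'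
      _ ≤ R * nr γ.1 := le_mul_of_one_le_left (nr_nonneg _) hR
  · rw [hij]; exact hN.trans hs0'
  · rw [hadj]
    exact (entry_le_nr _ a b).trans ((nr_inv_eq (by norm_num) γ).trans hs2)

/-- the pivot column is an attracting vector in the sense of helper575 -/
lemma nr_uu {C t ε : ℝ} {g : Matrix (Fin 3) (Fin 3) k} {i j : Fin 3} (h : NWu C t g i j)
    (hε : 0 < ε) (ht : C ^ 3 / ε ≤ t ^ 3) : NR ε g (uu g i j) := by
  refine ⟨uu_norm h, fun b => g i j * yy g i j b, fun a b => ?_⟩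
  have h1 : g a b - uu g i j a * (g i j * yy g i j b) = EE g i j a b := by
    rw [g_eq h a b]; ring
  have t0 := h.t_pos
  have C0 := h.C_pos
  rw [h1]
  refine (EE_le h a b).trans ?_
  have h2 : t ^ 2 / C ≤ nr g := by
    rw [div_le_iff₀ C0, mul_comm]
    exact h.lo.trans (mul_le_mul_of_nonneg_left (entry_le_nr g i j) C0.le)
  calc C ^ 2 / t = (C ^ 3 / ε) * (ε / (C * t)) := by field_simp
    _ ≤ t ^ 3 * (ε / (C * t)) := mul_le_mul_of_nonneg_right ht (by positivity)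
    _ = ε * (t ^ 2 / C) := by field_simp
    _ ≤ ε * nr g := mul_le_mul_of_nonneg_left h2 hε.le

/-- the two attracting points (pivot column, first column of the Cartan decomposition) are in the
same clopen sets, if the size is large -/
theorem xp_bp [ProperSpace k] {A : Set (ℙ k (Fin 3 → k))} (hA : IsClopen A) {C : ℝ} (hC : 1 ≤ C) :
    ∃ T : ℝ, ∀ (γ : (Matrix (Fin 3) (Fin 3) k)ˣ) i j (h : NWu C (tt γ) γ.1 i j), T ≤ g1 γ →
      (xp h ∈ A ↔ bp (by norm_num) γ ∈ A) := by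
  obtain ⟨ε, hε, hε1, hcl⟩ := bp_close hA
  refine ⟨max (C ^ 3 / ε) (1 / ε), fun γ i j h hT => ?_⟩
  have hT1 : C ^ 3 / ε ≤ tt γ ^ 3 := by
    rw [tt_cube]; exact (le_max_left _ _).trans hT
  have hT2 : (g1 γ)⁻¹ ≤ ε := by
    have h1 : 1 / ε ≤ g1 γ := (le_max_right _ _).trans hT
    rw [← inv_inv ε]
    refine inv_anti₀ (by positivity) ?_
    rwa [one_div] at h1
  exact hcl γ.1 γ.ne_zero ⟨uu γ.1 i j, uu_ne h⟩ ⟨bv (by norm_num) γ.1, ne_of_norm_one (norm_bv _ _)⟩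
    (nr_uu h hε hT1) ((nr_bv' (by norm_num) γ).mono hT2)

end Bridge

end Vale.Agent.P092.H87.U
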