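import Vale.Agent.P092.SD.Defs
import Vale.Agent.P092.H87.UGeo2

/-!
P092, D-ULTRA, block [DU-RED], part 1 (helper87): the geometry of near-wall elements in the letters
of `SD.Defs` (`G3 k`, `NW`, `Att`, `nm`, `tau`), `k` ultrametric: shells, attracting point,
capacity, the count of lines.
-/

set_option linter.all false

namespace Vale.Agent.P092.H87.U

open Matrix TopologicalSpace Vale.Agent.P092.H820
open Vale.Agent.P092.SD (G3 PP tau pt nm NW Att NInc)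
open scoped LinearAlgebra.Projectivization

section Nm

variable {k : Type} [NontriviallyNormedField k]

lemma entry_le_nm (h : G3 k) (a b : Fin 3) : ‖h.1 a b‖ ≤ nm h :=
  (norm_le_pi_norm (fun j => h.1 a j) b).trans
    (norm_le_pi_norm (fun i j => h.1 i j : Fin 3 → Fin 3 → k) a)

lemma nm_le {h : G3 k} {c : ℝ} (hc : 0 ≤ c) (H : ∀ a b, ‖h.1 a b‖ ≤ c) : nm h ≤ c :=
  (pi_norm_le_iff_of_nonneg hc).2 fun i => (pi_norm_le_iff_of_nonneg hc).2 fun j => H i j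

lemma nm_nonneg (h : G3 k) : 0 ≤ nm h := norm_nonneg _

lemma exists_piv (h : G3 k) : ∃ i j, ‖h.1 i j‖ = nm h ∧ ∀ a b, ‖h.1 a b‖ ≤ ‖h.1 i j‖ := by
  obtain ⟨p, hp⟩ := Finite.exists_max fun p : Fin 3 × Fin 3 => ‖h.1 p.1 p.2‖
  exact ⟨p.1, p.2, le_antisymm (entry_le_nm h _ _)
    (nm_le (norm_nonneg _) fun a b => hp (a, b)), fun a b => hp (a, b)⟩

lemma piv_eq_nm {h : G3 k} {i j : Fin 3} (hp : ∀ a b, ‖h.1 a b‖ ≤ ‖h.1 i j‖) :
    ‖h.1 i j‖ = nm h :=
  le_antisymm (entry_le_nm h _ _) (nm_le (norm_nonneg _) hp)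

lemma adj_le_nm (h : G3 k) (a b : Fin 3) : ‖h.1.adjugate a b‖ ≤ nm h⁻¹ :=
  entry_le_nm h⁻¹ a b

variable [IsUltrametricDist k]

lemma usub_le {x y : k} {c : ℝ} (hx : ‖x‖ ≤ c) (hy : ‖y‖ ≤ c) : ‖x - y‖ ≤ c := by
  rw [sub_eq_add_neg]
  refine (IsUltrametricDist.norm_add_le_max _ _).trans (max_le hx ?_)
  rwa [norm_neg]

lemma uadd_le {x y : k} {c : ℝ} (hx : ‖x‖ ≤ c) (hy : ‖y‖ ≤ c) : ‖x + y‖ ≤ c :=
  (IsUltrametricDist.norm_add_le_max _ _).trans (max_le hx hy)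

lemma one_le_nm (h : G3 k) : 1 ≤ nm h := by
  have h3 : ∀ a b c d e f, ‖h.1 a b * h.1 c d * h.1 e f‖ ≤ nm h ^ 3 := by
    intro a b c d e f
    rw [norm_mul, norm_mul, pow_three, ← mul_assoc]
    have h0 := nm_nonneg h
    exact mul_le_mul (mul_le_mul (entry_le_nm h _ _) (entry_le_nm h _ _) (norm_nonneg _) h0)
      (entry_le_nm h _ _) (norm_nonneg _) (mul_nonneg h0 h0)
  have h1 : ‖h.1.det‖ ≤ nm h ^ 3 := by
    rw [det_fin_three]
    exact usub_le (uadd_le (uadd_le (usub_le (usub_le (h3 _ _ _ _ _ _) (h3 _ _ _ _ _ _))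
      (h3 _ _ _ _ _ _)) (h3 _ _ _ _ _ _)) (h3 _ _ _ _ _ _)) (h3 _ _ _ _ _ _)
  rw [h.2, norm_one] at h1
  by_contra hlt
  have h2 : nm h ^ 3 < 1 := pow_lt_one₀ (nm_nonneg h) (not_le.1 hlt) (by norm_num)
  linarith

/-- the shell: `exp s ≤ ‖h‖ ≤ exp (s + 1)` -/
def Sh (s : ℕ) (h : G3 k) : Prop := Real.exp s ≤ nm h ∧ nm h ≤ Real.exp (s + 1)

/-- the number of the shell -/
noncomputable def sn (h : G3 k) : ℕ := ⌊Real.log (nm h)⌋₊

lemma nm_pos (h : G3 k) : 0 < nm h := lt_of_lt_of_le one_pos (one_le_nm h)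

lemma sh_sn (h : G3 k) : Sh (sn h) h := by
  have h1 := one_le_nm h
  have h2 : 0 ≤ Real.log (nm h) := Real.log_nonneg h1
  have h3 : Real.exp (Real.log (nm h)) = nm h := Real.exp_log (nm_pos h)
  constructor
  · conv_rhs => rw [← h3]
    exact Real.exp_le_exp.2 (Nat.floor_le h2)
  · conv_lhs => rw [← h3]
    exact Real.exp_le_exp.2 (Nat.lt_floor_add_one _).le

lemma sn_le {h : G3 k} {J : ℕ} (hJ : nm h ≤ Real.exp J) : sn h ≤ J := by
  refine Nat.floor_le_of_le ?_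
  rw [← Real.log_exp (J : ℝ)]
  exact Real.log_le_log (nm_pos h) hJ

/-- the constant of the pivot form -/
noncomputable def CR (R : ℝ) : ℝ := Real.exp 1 * (1 + |R|)

lemma one_le_CR (R : ℝ) : 1 ≤ CR R := by
  have h1 : (1 : ℝ) ≤ Real.exp 1 := Real.one_le_exp zero_le_one
  have h2 : (1 : ℝ) ≤ 1 + |R| := by linarith [abs_nonneg R]
  calc (1 : ℝ) = 1 * 1 := (one_mul 1).symm
    _ ≤ _ := mul_le_mul h1 h2 zero_le_one (by linarith)

/-- the size of the shell -/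
noncomputable def ts (s : ℕ) : ℝ := Real.exp ((s : ℝ) / 2)

lemma ts_pos (s : ℕ) : 0 < ts s := Real.exp_pos _

lemma one_le_ts (s : ℕ) : 1 ≤ ts s := Real.one_le_exp (by positivity)

lemma ts_sq (s : ℕ) : ts s ^ 2 = Real.exp s := by
  rw [ts, ← Real.exp_nat_mul]
  congr 1
  push_cast
  ring

/-- near-wall elements of a shell, in pivot form -/
theorem nwu_sh {R : ℝ} {s : ℕ} {h : G3 k} (hs : Sh s h) (hN : NW R h) {i j : Fin 3}
    (hp : ∀ a b, ‖h.1 a b‖ ≤ ‖h.1 i j‖) : NWu (CR R) (ts s) h.1 i j := by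
  have hC := one_le_CR R
  have he : (0 : ℝ) < Real.exp 1 := Real.exp_pos 1
  have he1 : (1 : ℝ) ≤ Real.exp 1 := Real.one_le_exp zero_le_one
  have hR : 0 ≤ |R| := abs_nonneg R
  have hnm := piv_eq_nm hp
  have hub : nm h ≤ Real.exp 1 * ts s ^ 2 := by
    rw [ts_sq, ← Real.exp_add, add_comm]
    exact hs.2
  refine ⟨hC, one_le_ts s, h.2, hp, ?_, ?_, fun a b => ?_⟩
  · rw [hnm, ts_sq]
    calc Real.exp s ≤ nm h := hs.1
      _ ≤ CR R * nm h := le_mul_of_one_le_left (nm_nonneg h) hC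
  · rw [hnm]
    refine hub.trans (mul_le_mul_of_nonneg_right ?_ (by positivity))
    rw [CR]
    exact le_mul_of_one_le_right he.le (by linarith)
  · refine (adj_le_nm h a b).trans ?_
    have h1 : nm h⁻¹ ^ 2 ≤ |R| * nm h := hN.trans
      (mul_le_mul_of_nonneg_right (le_abs_self R) (nm_nonneg h))
    have h2 : nm h⁻¹ ^ 2 ≤ (CR R * ts s) ^ 2 := by
      refine h1.trans ?_
      calc |R| * nm h ≤ |R| * (Real.exp 1 * ts s ^ 2) := mul_le_mul_of_nonneg_left hub hR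
        _ = (Real.exp 1 * |R|) * ts s ^ 2 := by ring
        _ ≤ CR R ^ 2 * ts s ^ 2 := by
          refine mul_le_mul_of_nonneg_right ?_ (by positivity)
          have h3 : Real.exp 1 * |R| ≤ CR R := by
            rw [CR]; exact mul_le_mul_of_nonneg_left (by linarith) he.le
          calc Real.exp 1 * |R| ≤ CR R := h3
            _ ≤ CR R ^ 2 := by rw [sq]; exact le_mul_of_one_le_left (by linarith) hC
        _ = (CR R * ts s) ^ 2 := by ring
    exact le_of_pow_le_pow_left₀ (by norm_num) (mul_nonneg (by linarith) (ts_pos s).le) h2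

end Nm

section Att

variable {k : Type} [NontriviallyNormedField k] [ProperSpace k] [IsUltrametricDist k]

/-- the attracting point -/
theorem att_xp (U : Clopens (PP k)) : ∃ T₀ : ℝ, 0 < T₀ ∧ ∀ T ≥ T₀, ∀ C t (g : G3 k) i j
    (h : NWu C t g.1 i j), Att T (U : Set (PP k)) g → xp h ∈ U := by
  have hdis : Disjoint (U : Set (PP k)) ((U : Set (PP k))ᶜ) := disjoint_compl_right
  obtain ⟨d, hd, hd'⟩ := exists_angle U.isClopen.isClosed U.isClopen.compl.isClosed hdis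
  refine ⟨2 / d, by positivity, fun T hT C t g i j h hA => ?_⟩
  obtain ⟨v, φ, hv, hvU, hφ⟩ := hA
  by_contra hn
  have hT0 : 0 < T := lt_of_lt_of_le (by positivity) hT
  have h1 := hd' v (uu g.1 i j) hv (uu_ne h) hvU hn
  rw [uu_norm h, mul_one] at h1
  have hgij : 0 < ‖g.1 i j‖ := norm_pos_iff.2 h.gij
  have hnm : ‖g.1 i j‖ = nm g := piv_eq_nm h.piv
  set e : Fin 3 → k := fun a => g.1 a j - v a * φ j with he
  have e1 : wd v (uu g.1 i j) = (g.1 i j)⁻¹ • wd v e := by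
    ext p
    simp only [wd, uu, he, Pi.smul_apply, smul_eq_mul]
    field_simp
    ring
  have e2 : ‖e‖ ≤ nm g / T := (pi_norm_le_iff_of_nonneg (by
    rw [← hnm]; positivity)).2 fun a => hφ a j
  have h2 : ‖wd v (uu g.1 i j)‖ ≤ ‖v‖ / T := by
    rw [e1, norm_smul, norm_inv, hnm]
    have h3 : ‖wd v e‖ ≤ ‖v‖ * (nm g / T) :=
      (wd_le v e).trans (mul_le_mul_of_nonneg_left e2 (norm_nonneg _))
    have h4 : 0 < nm g := nm_pos g
    calc (nm g)⁻¹ * ‖wd v e‖ ≤ (nm g)⁻¹ * (‖v‖ * (nm g / T)) :=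
          mul_le_mul_of_nonneg_left h3 (by positivity)
      _ = ‖v‖ / T := by field_simp
  have hv0 : 0 < ‖v‖ := norm_pos_iff.2 hv
  have h5 : d * ‖v‖ ≤ ‖v‖ / T := h1.trans h2
  rw [le_div_iff₀ hT0] at h5
  have h6 : 2 ≤ T * d := by
    rwa [ge_iff_le, div_le_iff₀ hd] at hT
  nlinarith

omit [ProperSpace k] [IsUltrametricDist k] in
/-- a line and its translate -/
theorem tau_line (g : G3 k) (n : Fin 3 → k) (hn : n ≠ 0) : ∃ (l : Fin 3 → k) (hl : l ≠ 0),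
    tau k g • cl n hn = cl l hl ∧ l ᵥ* g.1 = n := by
  have hl : (tau k g).1 *ᵥ n ≠ 0 := (smul_ne_zero_iff_ne (tau k g)).2 hn
  refine ⟨(tau k g).1 *ᵥ n, hl, rfl, ?_⟩
  have e : (tau k g).1 = (g⁻¹).1ᵀ := rfl
  have e2 : (g⁻¹).1 * g.1 = (1 : Matrix (Fin 3) (Fin 3) k) :=
    congrArg Subtype.val (inv_mul_cancel g)
  rw [e, mulVec_transpose, vecMul_vecMul]
  exact (congrArg (fun X => n ᵥ* X) e2).trans (vecMul_one n)

/-- the disc, group form -/
theorem disc_u {U A : Clopens (PP k)} (hUA : ∀ x ∈ U, ∀ y ∈ A, (x, y) ∉ inc3)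
    {C : ℝ} (hC : 1 ≤ C) : ∃ D : ℝ, 1 ≤ D ∧ ∀ t (g : G3 k) i j (h : NWu C t g.1 i j),
      xp h ∈ U → ∀ n (hn : n ≠ 0), tau k g • cl n hn ∈ A →
      ‖wd n (yy g.1 i j)‖ ≤ D / t ^ 3 * ‖n‖ := by
  obtain ⟨D, hD, hD'⟩ := geo_disc hUA hC
  refine ⟨D, hD, fun t g i j h hx n hn hA => ?_⟩
  obtain ⟨l, hl, e1, e2⟩ := tau_line g n hn
  rw [e1] at hA
  have := hD' t g.1 i j h hx l hl hA
  rwa [e2] at this

/-- the strip, group form -/
theorem strip_u {U Z : Clopens (PP k)} (hUZ : Disjoint U Z)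
    {C : ℝ} (hC : 1 ≤ C) : ∃ D : ℝ, 1 ≤ D ∧ ∀ t (g : G3 k) i j (h : NWu C t g.1 i j),
      xp h ∈ U → ∀ v (hv : v ≠ 0), g • cl v hv ∈ Z →
      ‖yy g.1 i j ⬝ᵥ v‖ ≤ D / t ^ 3 * ‖v‖ := by
  obtain ⟨D, hD, hD'⟩ := geo_strip hUZ hC
  refine ⟨D, hD, fun t g i j h hx v hv hZ => ?_⟩
  exact hD' t g.1 i j h hx v (mulVec_ne h hv) hZ

/-- local constancy, group form -/
theorem lc_u (Z : Clopens (PP k)) {C : ℝ} (hC : 1 ≤ C) :
    ∃ e : ℝ, 0 < e ∧ e < 1 ∧ ∀ t (g : G3 k) i j (h : NWu C t g.1 i j)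
      (v w : Fin 3 → k) (hv : v ≠ 0) (hw : w ≠ 0), ‖v‖ = 1 → ‖v - w‖ ≤ e →
      ‖yy g.1 i j ⬝ᵥ (v - w)‖ ≤ e / t ^ 3 → g • cl v hv ∈ Z → g • cl w hw ∈ Z := by
  obtain ⟨e, he, he1, hD'⟩ := geo_lc Z hC
  refine ⟨e, he, he1, fun t g i j h v w hv hw h1 h2 h3 hZ => ?_⟩
  exact hD' t g.1 i j h v w (mulVec_ne h hv) (mulVec_ne h hw) h1 h2 h3 hZ

end Att

section Cap

variable {k : Type} [NontriviallyNormedField k] [IsUltrametricDist k]

/-- closeness of the repelling lines from the wedge -/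
lemma yy_sub_le {C t : ℝ} {g g' : Matrix (Fin 3) (Fin 3) k} {i j : Fin 3} (h : NWu C t g i j)
    (h' : NWu C t g' i j) : ‖yy g' i j - yy g i j‖ ≤ ‖wd (yy g' i j) (yy g i j)‖ := by
  refine (pi_norm_le_iff_of_nonneg (norm_nonneg _)).2 fun b => ?_
  have e : (yy g' i j - yy g i j) b = wd (yy g' i j) (yy g i j) (b, j) := by
    simp only [wd, Pi.sub_apply, yy_j h, yy_j h']
    ring
  rw [e]
  exact norm_le_pi_norm _ _

/-- ultrametric inequality for angles: a common vector -/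
lemma wd_trans {y u v : Fin 3 → k} (hy : ‖y‖ = 1) {r : ℝ} (hu1 : ‖u‖ ≤ 1) (hv1 : ‖v‖ ≤ 1)
    (hu : ‖wd y u‖ ≤ r) (hv : ‖wd y v‖ ≤ r) : ‖wd u v‖ ≤ r := by
  have hr : 0 ≤ r := (norm_nonneg _).trans hu
  obtain ⟨c, hc⟩ := Finite.exists_max fun c => ‖y c‖
  have hyc : ‖y c‖ = 1 := by
    rw [← hy]
    exact le_antisymm (norm_le_pi_norm y c) ((pi_norm_le_iff_of_nonneg (norm_nonneg _)).2 hc)
  refine (pi_norm_le_iff_of_nonneg hr).2 fun p => ?_
  have e : y c * wd u v p = wd y u (c, p.1) * v p.2 - wd y u (c, p.2) * v p.1 +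
      u c * wd y v p := by
    simp only [wd]
    ring
  have h1 : ‖wd u v p‖ = ‖y c * wd u v p‖ := by rw [norm_mul, hyc, one_mul]
  have h2 : ∀ a b, ‖wd y u (c, a) * v b‖ ≤ r := fun a b => by
    rw [norm_mul]
    calc ‖wd y u (c, a)‖ * ‖v b‖ ≤ r * 1 :=
          mul_le_mul ((norm_le_pi_norm _ _).trans hu) ((norm_le_pi_norm v b).trans hv1)
            (norm_nonneg _) hr
      _ = r := mul_one r
  have h3 : ‖u c * wd y v p‖ ≤ r := by
    rw [norm_mul]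
    calc ‖u c‖ * ‖wd y v p‖ ≤ 1 * r :=
          mul_le_mul ((norm_le_pi_norm u c).trans hu1) ((norm_le_pi_norm _ _).trans hv)
            (norm_nonneg _) zero_le_one
      _ = r := one_mul r
  rw [h1, e]
  exact uadd_le (usub_le (h2 _ _) (h2 _ _)) h3

/-- the matrix form of the capacity with a constant `D` -/
theorem cap_D {C t D : ℝ} {g g' : Matrix (Fin 3) (Fin 3) k} {i j : Fin 3} (h : NWu C t g i j)
    (h' : NWu C t g' i j) (hD : 1 ≤ D) (hy : ‖yy g' i j - yy g i j‖ ≤ D / t ^ 3) (a c : Fin 3) :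
    ‖(g' * g.adjugate) a c‖ ≤ D * C ^ 3 := by
  have ht := h.t_pos
  have hC := h.C_pos
  have hD0 : 0 < D := lt_of_lt_of_le one_pos hD
  have hgij : 0 < ‖g i j‖ := norm_pos_iff.2 h.gij
  have h1 : ∀ c, (yy g i j ᵥ* g.adjugate) c = (if i = c then 1 else 0) / g i j := by
    intro c
    have e1 : yy g i j = (g i j)⁻¹ • g i := by
      ext b; simp [yy, div_eq_inv_mul]
    have e2 : (g i) ᵥ* g.adjugate = fun c => (g * g.adjugate) i c := by
      ext c; rfl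
    rw [e1, Matrix.smul_vecMul, e2, Matrix.mul_adjugate, h.det, one_smul, Pi.smul_apply,
      Matrix.one_apply, smul_eq_mul, div_eq_inv_mul]
  have h2 : ∀ c, ‖(yy g i j ᵥ* g.adjugate) c‖ ≤ D * C / t ^ 2 := by
    intro c
    rw [h1, norm_div]
    have : ‖(if i = c then (1 : k) else 0)‖ ≤ 1 := by split_ifs <;> simp
    calc ‖(if i = c then (1 : k) else 0)‖ / ‖g i j‖ ≤ 1 / ‖g i j‖ :=
          div_le_div_of_nonneg_right this hgij.le
      _ ≤ C / t ^ 2 := by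
          rw [div_le_div_iff₀ hgij (by positivity), one_mul]
          exact h.lo
      _ ≤ D * C / t ^ 2 := div_le_div_of_nonneg_right (le_mul_of_one_le_left hC.le hD)
          (by positivity)
  have h3 : ∀ c, ‖(yy g' i j ᵥ* g.adjugate) c‖ ≤ D * C / t ^ 2 := by
    intro c
    have e : yy g' i j ᵥ* g.adjugate =
        yy g i j ᵥ* g.adjugate + (yy g' i j - yy g i j) ᵥ* g.adjugate := by
      rw [← Matrix.add_vecMul]; congr 1; abel
    rw [e, Pi.add_apply]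
    refine (IsUltrametricDist.norm_add_le_max _ _).trans (max_le (h2 c) ?_)
    have : ‖((yy g' i j - yy g i j) ᵥ* g.adjugate) c‖ ≤ D / t ^ 3 * (C * t) := by
      refine (dot_le _ _).trans (mul_le_mul hy ?_ (norm_nonneg _) (by positivity))
      exact (pi_norm_le_iff_of_nonneg (by positivity)).2 fun b => h.adj b c
    refine this.trans (le_of_eq ?_)
    field_simp
  have h4 : (g' * g.adjugate) a c = (g' i j * uu g' i j a) * (yy g' i j ᵥ* g.adjugate) c +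
      EE g' i j a ⬝ᵥ (fun b => g.adjugate b c) := by
    simp only [Matrix.mul_apply, Matrix.vecMul, dotProduct, Fin.sum_univ_three]
    rw [g_eq h' a 0, g_eq h' a 1, g_eq h' a 2]
    ring
  rw [h4]
  have h5 : ‖(g' i j * uu g' i j a) * (yy g' i j ᵥ* g.adjugate) c‖ ≤ D * C ^ 3 := by
    rw [norm_mul, norm_mul]
    have hu : ‖uu g' i j a‖ ≤ 1 := (norm_le_pi_norm _ _).trans (uu_norm h').le
    calc ‖g' i j‖ * ‖uu g' i j a‖ * ‖(yy g' i j ᵥ* g.adjugate) c‖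
        ≤ (C * t ^ 2) * 1 * (D * C / t ^ 2) := by
          refine mul_le_mul (mul_le_mul h'.hi hu (norm_nonneg _) (by positivity)) (h3 c)
            (norm_nonneg _) (by positivity)
      _ = D * C ^ 2 := by field_simp
      _ ≤ D * C ^ 3 := mul_le_mul_of_nonneg_left
          (pow_le_pow_right₀ h.one_le (by norm_num)) hD0.le
  have h6 : ‖EE g' i j a ⬝ᵥ (fun b => g.adjugate b c)‖ ≤ D * C ^ 3 := by
    refine (dot_le _ _).trans ?_
    have e1 : ‖EE g' i j a‖ ≤ C ^ 2 / t :=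
      (pi_norm_le_iff_of_nonneg (by positivity)).2 fun b => EE_le h' a b
    have e2 : ‖(fun b => g.adjugate b c)‖ ≤ C * t :=
      (pi_norm_le_iff_of_nonneg (by positivity)).2 fun b => h.adj b c
    calc ‖EE g' i j a‖ * ‖(fun b => g.adjugate b c)‖ ≤ (C ^ 2 / t) * (C * t) :=
          mul_le_mul e1 e2 (norm_nonneg _) (by positivity)
      _ = C ^ 3 := by field_simp
      _ ≤ D * C ^ 3 := le_mul_of_one_le_left (by positivity) hD
  exact uadd_le h5 h6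

/-- **Capacity.** -/
theorem cell_card {Γ : Type} [Group Γ] (q : Γ →* G3 k)
    (hfin : ∀ R : ℝ, {γ | nm (q γ) ≤ R}.Finite) {C D : ℝ} (hC : 1 ≤ C) (hD : 1 ≤ D) :
    ∃ N : ℕ, ∀ (t : ℝ) (i j : Fin 3) (y : Fin 3 → k) (S : Finset Γ), ‖y‖ = 1 →
      (∀ γ ∈ S, NWu C t (q γ).1 i j ∧ ‖wd y (yy (q γ).1 i j)‖ ≤ D / t ^ 3) → S.card ≤ N := by
  classical
  have hf := hfin (D * C ^ 3)
  refine ⟨hf.toFinset.card, fun t i j y S hy hS => ?_⟩
  rcases S.eq_empty_or_nonempty with rfl | ⟨g0, hg0⟩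
  · exact Nat.zero_le _
  refine Finset.card_le_card_of_injOn (fun g => g * g0⁻¹) ?_
    fun a _ b _ hab => mul_right_cancel hab
  intro g hg
  have hg' := hS g (Finset.mem_coe.mp hg)
  have hg0' := hS g0 hg0
  simp only [Set.Finite.coe_toFinset]
  change nm (q (g * g0⁻¹)) ≤ _
  rw [map_mul, map_inv]
  have ht := hg'.1.t_pos
  refine nm_le (by positivity) fun a c => ?_
  have h1 := wd_trans hy (yy_norm hg'.1).le (yy_norm hg0'.1).le hg'.2 hg0'.2
  exact cap_D hg0'.1 hg'.1 hD ((yy_sub_le hg0'.1 hg'.1).trans h1) a c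

end Cap

end Vale.Agent.P092.H87.U
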