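import Vale.Agent.P092.H87.URed
import Vale.Agent.P092.H375.UKakP

/-!
P092, D-ULTRA, block [DU-RED], part 2 (helper87): the sums over the near-wall elements of size at
most `exp J`: `∑ ‖Lm A (lam γ Ω)‖ ^ 2 = O(J)`, `∑ ‖Lm A (Pb Z (lam γ Ω))‖ ^ 2 = O(J ^ 3)` if the
attracting points are in `U`, off `Z` and off the lines of `A`.
-/

set_option linter.all false

namespace Vale.Agent.P092.H87.U

open Matrix TopologicalSpace Vale.Agent.P092.H820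
open Vale.Agent.P092.SD (G3 PP tau pt nm NW Att NInc)
open Vale.Agent.P092.H375.Ultra (Quad KD kak Bal mem_Bal nv norm_nv nv_ne pj_nv dt dt_eq wd_swap
  sum_le_mult Bal_eq Bal_disj wd_of_Bal_eq norm_le)
open scoped LinearAlgebra.Projectivization

section Dat

variable {k : Type} [NontriviallyNormedField k] [IsUltrametricDist k]

open Classical in
/-- the repelling line, of norm one in all cases -/
noncomputable def yb (g : G3 k) (i j : Fin 3) : Fin 3 → k :=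
  if ‖yy g.1 i j‖ = 1 then yy g.1 i j else Pi.single 0 1

lemma yb_norm (g : G3 k) (i j : Fin 3) : ‖yb g i j‖ = 1 := by
  unfold yb
  split_ifs with h
  · exact h
  · rw [Pi.norm_single, norm_one]

lemma yb_eq {C t : ℝ} {g : G3 k} {i j : Fin 3} (h : NWu C t g.1 i j) : yb g i j = yy g.1 i j :=
  if_pos (yy_norm h)

/-- the radius of the shell -/
noncomputable def rs (s : ℕ) : ℝ := 1 / ts s ^ 3

lemma rs_pos (s : ℕ) : 0 < rs s := by
  have := ts_pos s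
  rw [rs]
  positivity

lemma rs_le (s : ℕ) : rs s ≤ 1 := by
  rw [rs]
  exact div_le_one_of_le₀ (one_le_pow₀ (one_le_ts s)) (pow_nonneg (ts_pos s).le 3)

lemma log_rs (s : ℕ) : Real.log (1 / rs s) = 3 / 2 * s := by
  rw [rs, one_div_one_div, Real.log_pow, ts, Real.log_exp]
  push_cast
  ring

variable {Γ : Type} [Group Γ] (q : Γ →* G3 k)

theorem sum_biUnion_le {α β : Type*} [DecidableEq β] (s : Finset α) (t : α → Finset β) (f : β → ℝ)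
    (hf : ∀ b, 0 ≤ f b) : ∑ b ∈ s.biUnion t, f b ≤ ∑ a ∈ s, ∑ b ∈ t a, f b := by
  classical
  induction s using Finset.induction_on with
  | empty => simp
  | insert a s ha ih =>
    rw [Finset.biUnion_insert, Finset.sum_insert ha]
    have h1 := Finset.sum_union_inter (s₁ := t a) (s₂ := s.biUnion t) (f := f)
    have h2 : 0 ≤ ∑ b ∈ t a ∩ s.biUnion t, f b := Finset.sum_nonneg fun b _ => hf b
    linarith

open Classical in
/-- the part of a finite set in the shell `s` with pivot `(i, j)` -/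
noncomputable def cellS (S : Finset Γ) (s : ℕ) (p : Fin 3 × Fin 3) : Finset Γ :=
  S.filter fun γ => sn (q γ) = s ∧ ∀ a b, ‖(q γ).1 a b‖ ≤ ‖(q γ).1 p.1 p.2‖

open Classical in
/-- a sum over near-wall elements is at most the sum over shells and pivots -/
theorem sum_cells (S : Finset Γ) (J : ℕ) (hJ : ∀ γ ∈ S, nm (q γ) ≤ Real.exp J) (f : Γ → ℝ)
    (hf : ∀ γ, 0 ≤ f γ) {c : ℝ} (hc : 0 ≤ c)
    (H : ∀ s ≤ J, ∀ p, ∑ γ ∈ cellS q S s p, f γ ≤ c) : ∑ γ ∈ S, f γ ≤ 9 * c * (J + 1) := by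
  have h1 : S ⊆ (Finset.range (J + 1)).biUnion fun s =>
      (Finset.univ : Finset (Fin 3 × Fin 3)).biUnion fun p => cellS q S s p := by
    intro γ hγ
    obtain ⟨i, j, h1, h2⟩ := exists_piv (q γ)
    refine Finset.mem_biUnion.2 ⟨sn (q γ), Finset.mem_range.2
      (Nat.lt_succ_of_le (sn_le (hJ γ hγ))), Finset.mem_biUnion.2 ⟨(i, j), Finset.mem_univ _, ?_⟩⟩
    exact Finset.mem_filter.2 ⟨hγ, rfl, h2⟩
  calc ∑ γ ∈ S, f γ ≤ ∑ γ ∈ (Finset.range (J + 1)).biUnion fun s =>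
        (Finset.univ : Finset (Fin 3 × Fin 3)).biUnion fun p => cellS q S s p, f γ :=
        Finset.sum_le_sum_of_subset_of_nonneg h1 fun γ _ _ => hf γ
    _ ≤ ∑ s ∈ Finset.range (J + 1), ∑ γ ∈ (Finset.univ : Finset (Fin 3 × Fin 3)).biUnion
        fun p => cellS q S s p, f γ := by
        exact sum_biUnion_le _ _ _ hf
    _ ≤ ∑ s ∈ Finset.range (J + 1), 9 * c := by
        refine Finset.sum_le_sum fun s hs => ?_
        calc ∑ γ ∈ (Finset.univ : Finset (Fin 3 × Fin 3)).biUnion fun p => cellS q S s p, f γ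
            ≤ ∑ p ∈ (Finset.univ : Finset (Fin 3 × Fin 3)), ∑ γ ∈ cellS q S s p, f γ :=
              sum_biUnion_le _ _ _ hf
          _ ≤ ∑ p ∈ (Finset.univ : Finset (Fin 3 × Fin 3)), c :=
              Finset.sum_le_sum fun p _ => H s (Nat.lt_succ_iff.1 (Finset.mem_range.1 hs)) p
          _ = 9 * c := by
              rw [Finset.sum_const, Finset.card_univ, Fintype.card_prod, Fintype.card_fin,
                nsmul_eq_mul]
              norm_num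
    _ = 9 * c * (J + 1) := by
        rw [Finset.sum_const, Finset.card_range, nsmul_eq_mul]
        push_cast
        ring

end Dat

section Sums

variable {k : Type} [NontriviallyNormedField k] [ProperSpace k] [IsUltrametricDist k]
  {Γ K : Type} [Group Γ] [NormedAddCommGroup K] [InnerProductSpace ℂ K] [CompleteSpace K]

/-- the pull back of the clopen set `Z` by `g` -/
def pb (g : G3 k) (Z : Clopens (PP k)) : Clopens (PP k) :=
  ⟨(fun y => g • y) ⁻¹' (Z : Set (PP k)), Z.isClopen.preimage (continuous_const_smul g)⟩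

lemma mem_pb {g : G3 k} {Z : Clopens (PP k)} {x : PP k} : x ∈ pb g Z ↔ g • x ∈ Z := Iff.rfl

/-- the disc contains the pull back of the lines -/
theorem pb_le_Bal {U A : Clopens (PP k)} (hUA : ∀ x ∈ U, ∀ y ∈ A, (x, y) ∉ inc3) {C : ℝ}
    (hC : 1 ≤ C) : ∃ D : ℝ, 1 ≤ D ∧ ∀ D' ≥ D, ∀ s (g : G3 k) i j (h : NWu C (ts s) g.1 i j)
      (h1 : ‖yb g i j‖ ≤ 1) (h2 : 0 < D' * rs s), xp h ∈ U →
      pb (tau k g) A ≤ Bal (yb g i j) (D' * rs s) h1 h2 := by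
  obtain ⟨D, hD, hD'⟩ := disc_u hUA hC
  refine ⟨D, hD, fun D' hDD s g i j h h1 h2 hx ν hν => ?_⟩
  have h3 : tau k g • cl (nv ν) (nv_ne ν) ∈ A := by
    have : cl (nv ν) (nv_ne ν) = ν := pj_nv ν
    rw [this]
    exact hν
  have h4 := hD' _ g i j h hx (nv ν) (nv_ne ν) h3
  rw [norm_nv, mul_one] at h4
  refine (mem_Bal (hy := h1) (hδ := h2)).2 ?_
  rw [yb_eq h]
  refine h4.trans ?_
  rw [rs, mul_one_div]
  exact div_le_div_of_nonneg_right hDD (pow_nonneg (ts_pos s).le 3)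

/-- **(I1), the sum.** -/
theorem sum_I1 (q : Γ →* G3 k) (hfin : ∀ R : ℝ, {γ | nm (q γ) ≤ R}.Finite)
    {U A : Clopens (PP k)} (hUA : ∀ x ∈ U, ∀ y ∈ A, (x, y) ∉ inc3) :
    ∃ T₀ : ℝ, 0 < T₀ ∧ ∀ T ≥ T₀, ∀ R : ℝ, ∃ C : ℝ, 0 ≤ C ∧
      ∀ (Lm : Clopens (PP k) → (K →L[ℂ] K)), Cpv Lm → ∀ (J : ℕ) (S : Finset Γ),
        (∀ γ ∈ S, NW R (q γ) ∧ Att T (U : Set (PP k)) (q γ) ∧ nm (q γ) ≤ Real.exp J) →
        ∀ ξ : K, ∑ γ ∈ S, ‖Lm (pb (tau k (q γ)) A) ξ‖ ^ 2 ≤ C * (J + 1) * ‖ξ‖ ^ 2 := by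
  classical
  obtain ⟨T₀, hT₀, hT⟩ := att_xp U
  refine ⟨T₀, hT₀, fun T hTT R => ?_⟩
  obtain ⟨D, hD, hD'⟩ := pb_le_Bal hUA (one_le_CR R)
  obtain ⟨N, hN⟩ := cell_card q hfin (one_le_CR R) hD
  refine ⟨9 * N, by positivity, fun Lm hLm J S hS ξ => ?_⟩
  have hsh : ∀ s p, ∀ γ ∈ cellS q S s p, ∃ h : NWu (CR R) (ts s) (q γ).1 p.1 p.2, xp h ∈ U := by
    intro s p γ hγ
    obtain ⟨h1, h2, h3⟩ := Finset.mem_filter.1 hγ
    have h := nwu_sh (R := R) (h2 ▸ sh_sn (q γ)) (hS γ h1).1 h3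
    exact ⟨h, hT T hTT _ _ _ _ _ h (hS γ h1).2.1⟩
  have key : ∀ s ≤ J, ∀ p, ∑ γ ∈ cellS q S s p, ‖Lm (pb (tau k (q γ)) A) ξ‖ ^ 2 ≤
      N * ‖ξ‖ ^ 2 := by
    intro s _ p
    have hr : 0 < D * rs s := mul_pos (by linarith) (rs_pos s)
    have h1 : ∀ γ ∈ cellS q S s p, ‖Lm (pb (tau k (q γ)) A) ξ‖ ^ 2 ≤
        ‖Lm (Bal (yb (q γ) p.1 p.2) (D * rs s) (yb_norm _ _ _).le hr) ξ‖ ^ 2 := by
      intro γ hγ
      obtain ⟨h, hx⟩ := hsh s p γ hγ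
      have h2 := hD' D le_rfl s (q γ) p.1 p.2 h (yb_norm _ _ _).le hr hx
      refine pow_le_pow_left₀ (norm_nonneg _) ?_ 2
      have h3 : Lm (pb (tau k (q γ)) A) = Lm (pb (tau k (q γ)) A) *
          Lm (Bal (yb (q γ) p.1 p.2) (D * rs s) (yb_norm _ _ _).le hr) := by
        rw [← hLm.inf, inf_eq_left.2 h2]
      rw [h3]
      exact norm_le hLm _ _
    refine (Finset.sum_le_sum h1).trans ?_
    refine sum_le_mult hLm _ _ N ?_ ?_ ξ
    · intro γ hγ γ' hγ'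
      by_cases hw : ‖wd (yb (q γ) p.1 p.2) (yb (q γ') p.1 p.2)‖ ≤ D * rs s
      · exact Or.inl (Bal_eq (yb_norm _ _ _) (yb_norm _ _ _) hr hw)
      · exact Or.inr (Bal_disj (yb_norm _ _ _) (yb_norm _ _ _) hr hw)
    · intro γ hγ t ht ht2
      refine hN (ts s) p.1 p.2 (yb (q γ) p.1 p.2) t (yb_norm _ _ _) fun γ' hγ' => ?_
      obtain ⟨h, hx⟩ := hsh s p γ' (ht hγ')
      refine ⟨h, ?_⟩
      have h4 := wd_of_Bal_eq (yb_norm _ _ _) (yb_norm _ _ _) hr (ht2 γ' hγ')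
      rw [← yb_eq h, wd_swap]
      refine h4.trans (le_of_eq ?_)
      rw [rs, mul_one_div]
  have h5 := sum_cells q S J (fun γ hγ => (hS γ hγ).2.2)
    (fun γ => ‖Lm (pb (tau k (q γ)) A) ξ‖ ^ 2) (fun _ => by positivity)
    (c := N * ‖ξ‖ ^ 2) (by positivity) key
  refine h5.trans (le_of_eq ?_)
  ring

/-- **(KEY), the sum.** -/
theorem sum_key (q : Γ →* G3 k) (hfin : ∀ R : ℝ, {γ | nm (q γ) ≤ R}.Finite)
    {U Z A : Clopens (PP k)} (hUZ : Disjoint U Z) (hUA : ∀ x ∈ U, ∀ y ∈ A, (x, y) ∉ inc3) :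
    ∃ T₀ : ℝ, 0 < T₀ ∧ ∀ T ≥ T₀, ∀ R : ℝ, ∃ C : ℝ, 0 ≤ C ∧
      ∀ (Pb Pc Lm Ll : Clopens (PP k) → (K →L[ℂ] K)), Quad inc3 Pb Pc Lm Ll →
        ∀ (J : ℕ) (S : Finset Γ),
        (∀ γ ∈ S, NW R (q γ) ∧ Att T (U : Set (PP k)) (q γ) ∧ nm (q γ) ≤ Real.exp J) →
        ∀ ξ : K, ∑ γ ∈ S, ‖Lm (pb (tau k (q γ)) A) (Pb (pb (q γ) Z) ξ)‖ ^ 2 ≤
          C * (J + 1) ^ 3 * ‖ξ‖ ^ 2 := by
  classical
  obtain ⟨T₀, hT₀, hT⟩ := att_xp U
  refine ⟨T₀, hT₀, fun T hTT R => ?_⟩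
  obtain ⟨D1, hD1, hD1'⟩ := pb_le_Bal hUA (one_le_CR R)
  obtain ⟨D2, hD2, hD2'⟩ := strip_u hUZ (one_le_CR R)
  obtain ⟨e, he, he1, hlc⟩ := lc_u Z (one_le_CR R)
  set D : ℝ := max D1 D2 with hDdef
  have hD : 1 ≤ D := hD1.trans (le_max_left _ _)
  obtain ⟨N, hN⟩ := cell_card q hfin (one_le_CR R) hD
  obtain ⟨κ, hκ, hkak⟩ := kak (k := k) hD he he1.le N
  refine ⟨9 * (κ * (3 / 2) ^ 2), by positivity, fun Pb Pc Lm Ll hQ J S hS ξ => ?_⟩
  have hsh : ∀ s p, ∀ γ ∈ cellS q S s p, ∃ h : NWu (CR R) (ts s) (q γ).1 p.1 p.2, xp h ∈ U := by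
    intro s p γ hγ
    obtain ⟨h1, h2, h3⟩ := Finset.mem_filter.1 hγ
    have h := nwu_sh (R := R) (h2 ▸ sh_sn (q γ)) (hS γ h1).1 h3
    exact ⟨h, hT T hTT _ _ _ _ _ h (hS γ h1).2.1⟩
  have key : ∀ s ≤ J, ∀ p, ∑ γ ∈ cellS q S s p,
      ‖Lm (pb (tau k (q γ)) A) (Pb (pb (q γ) Z) ξ)‖ ^ 2 ≤
        κ * (3 / 2) ^ 2 * (J + 1) ^ 2 * ‖ξ‖ ^ 2 := by
    intro s hs p
    have hr : 0 < D * rs s := mul_pos (by linarith) (rs_pos s)
    have hKD : KD D e (rs s) N (cellS q S s p) (fun γ => yb (q γ) p.1 p.2)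
        (fun γ => pb (q γ) Z) := by
      refine ⟨rs_pos s, rs_le s, fun γ => yb_norm _ _ _, ?_, ?_, ?_⟩
      · intro γ hγ v hv hvZ
        obtain ⟨h, hx⟩ := hsh s p γ hγ
        have h1 := hD2' _ (q γ) p.1 p.2 h hx v.1 v.2 hvZ
        rw [hv, mul_one] at h1
        rw [dt_eq, yb_eq h]
        refine h1.trans ?_
        rw [rs, mul_one_div]
        exact div_le_div_of_nonneg_right (le_max_right _ _) (pow_nonneg (ts_pos s).le 3)
      · intro γ hγ v w hv hw hvZ h1 h2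
        obtain ⟨h, hx⟩ := hsh s p γ hγ
        rw [dt_eq, yb_eq h] at h2
        refine hlc _ (q γ) p.1 p.2 h v.1 w.1 v.2 w.2 hv h1 ?_ hvZ
        rw [rs, mul_one_div] at h2
        exact h2
      · intro γ hγ t ht ht2
        refine hN (ts s) p.1 p.2 (yb (q γ) p.1 p.2) t (yb_norm _ _ _) fun γ' hγ' => ?_
        obtain ⟨h, hx⟩ := hsh s p γ' (ht hγ')
        refine ⟨h, ?_⟩
        rw [← yb_eq h, wd_swap]
        refine (ht2 γ' hγ').trans (le_of_eq ?_)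
        rw [rs, mul_one_div]
    have h1 : ∀ γ ∈ cellS q S s p, ‖Lm (pb (tau k (q γ)) A) (Pb (pb (q γ) Z) ξ)‖ ^ 2 ≤
        ‖Lm (Bal (yb (q γ) p.1 p.2) (D * rs s) (hKD.y1 γ).le hr) (Pb (pb (q γ) Z) ξ)‖ ^ 2 := by
      intro γ hγ
      obtain ⟨h, hx⟩ := hsh s p γ hγ
      have h2 := hD1' D (le_max_left _ _) s (q γ) p.1 p.2 h (hKD.y1 γ).le hr hx
      refine pow_le_pow_left₀ (norm_nonneg _) ?_ 2
      have h3 : Lm (pb (tau k (q γ)) A) = Lm (pb (tau k (q γ)) A) *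
          Lm (Bal (yb (q γ) p.1 p.2) (D * rs s) (hKD.y1 γ).le hr) := by
        rw [← hQ.hLm.inf, inf_eq_left.2 h2]
      rw [h3]
      exact norm_le hQ.hLm _ _
    refine (Finset.sum_le_sum h1).trans ?_
    refine (hkak K Pb Pc Lm Ll hQ (rs s) Γ (cellS q S s p) (fun γ => yb (q γ) p.1 p.2)
      (fun γ => pb (q γ) Z) hKD hr ξ).trans ?_
    refine mul_le_mul_of_nonneg_right ?_ (by positivity)
    rw [mul_assoc]
    refine mul_le_mul_of_nonneg_left ?_ hκ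
    rw [log_rs, ← mul_pow]
    refine pow_le_pow_left₀ (by positivity) ?_ 2
    have h4 : (s : ℝ) ≤ J := by exact_mod_cast hs
    linarith
  have h5 := sum_cells q S J (fun γ hγ => (hS γ hγ).2.2)
    (fun γ => ‖Lm (pb (tau k (q γ)) A) (Pb (pb (q γ) Z) ξ)‖ ^ 2) (fun _ => by positivity)
    (c := κ * (3 / 2) ^ 2 * (J + 1) ^ 2 * ‖ξ‖ ^ 2) (by positivity) key
  refine h5.trans (le_of_eq ?_)
  ring

end Sums

end Vale.Agent.P092.H87.U
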